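import Vale.Agent.Lib.P358.Defs

/-!
# P358, module Tensor: structure of the tensor powers of `gad`
-/

namespace Vale.Agent.P358

open Matrix
open scoped ComplexOrder

/-- The index equivalence splitting off the first bit. -/
def consSum (n : ℕ) : (Fin n → Fin 2) ⊕ (Fin n → Fin 2) ≃ (Fin (n + 1) → Fin 2) where
  toFun := Sum.elim (fun u => Fin.cons 0 u) (fun u => Fin.cons 1 u)
  invFun x := if x 0 = 0 then Sum.inl (Fin.tail x) else Sum.inr (Fin.tail x)
  left_inv := by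
    rintro (u | u) <;> simp
  right_inv := by
    intro x
    by_cases h : x 0 = 0
    · simp only [h, if_true, Sum.elim_inl]
      rw [← h]
      exact Fin.cons_self_tail x
    · have h1 : x 0 = 1 := by
        have := (x 0).isLt
        ext
        have h2 : (x 0 : ℕ) ≠ 0 := fun h' => h (Fin.ext h')
        simp
        omega
      simp only [h, if_false, Sum.elim_inr]
      rw [← h1]
      exact Fin.cons_self_tail x

theorem tensorPow_add (N : Matrix (Fin 2) (Fin 2) ℂ → Matrix (Fin 2) (Fin 2) ℂ) (n : ℕ)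
    (ρ σ : Matrix (Fin n → Fin 2) (Fin n → Fin 2) ℂ) :
    tensorPow N n (ρ + σ) = tensorPow N n ρ + tensorPow N n σ := by
  ext x y
  simp only [tensorPow, Matrix.add_apply, mul_add, Finset.sum_add_distrib]

theorem tensorPow_smul (N : Matrix (Fin 2) (Fin 2) ℂ → Matrix (Fin 2) (Fin 2) ℂ) (n : ℕ) (c : ℂ)
    (ρ : Matrix (Fin n → Fin 2) (Fin n → Fin 2) ℂ) :
    tensorPow N n (c • ρ) = c • tensorPow N n ρ := by
  ext x y
  simp only [tensorPow, Matrix.smul_apply, smul_eq_mul, Finset.mul_sum]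
  refine Finset.sum_congr rfl fun u _ => Finset.sum_congr rfl fun v _ => ?_
  ring

/-! ### The channel on matrix units -/

/-- The matrix elements of `gad` on matrix units. -/
noncomputable def gent (γ ν : ℝ) (a b c d : Fin 2) : ℂ :=
  gad γ ν (Matrix.single a b 1) c d

theorem gent_eq (γ ν : ℝ) (a b c d : Fin 2) : gent γ ν a b c d =
    if a = b ∧ c = d then
      (if a = 0 then (if c = 0 then ((1 - γ * ν : ℝ) : ℂ) else ((γ * ν : ℝ) : ℂ))
        else (if c = 0 then ((γ * (1 - ν) : ℝ) : ℂ) else ((1 - γ + γ * ν : ℝ) : ℂ)))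
    else if a = c ∧ b = d then ((Real.sqrt (1 - γ) : ℝ) : ℂ) else 0 := by
  fin_cases a <;> fin_cases b <;> fin_cases c <;> fin_cases d <;>
    (simp [gent, gad, Matrix.single]; try ring)

theorem star_gent (γ ν : ℝ) (a b c d : Fin 2) :
    star (gent γ ν a b d c) = gent γ ν b a c d := by
  fin_cases a <;> fin_cases b <;> fin_cases c <;> fin_cases d <;>
    simp [gent_eq]

theorem tensorPow_apply (γ ν : ℝ) (n : ℕ) (ρ : Matrix (Fin n → Fin 2) (Fin n → Fin 2) ℂ)
    (x y : Fin n → Fin 2) : tensorPow (gad γ ν) n ρ x y =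
      ∑ u, ∑ v, (∏ i, gent γ ν (u i) (v i) (x i) (y i)) * ρ u v := rfl

theorem tensorPow_conjTranspose (γ ν : ℝ) (n : ℕ)
    (ρ : Matrix (Fin n → Fin 2) (Fin n → Fin 2) ℂ) :
    (tensorPow (gad γ ν) n ρ)ᴴ = tensorPow (gad γ ν) n ρᴴ := by
  ext x y
  rw [Matrix.conjTranspose_apply, tensorPow_apply, tensorPow_apply, star_sum,
    Finset.sum_comm]
  refine Finset.sum_congr rfl fun u _ => ?_
  rw [star_sum]
  refine Finset.sum_congr rfl fun v _ => ?_
  rw [star_mul', star_prod, Matrix.conjTranspose_apply]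
  congr 1
  refine Finset.prod_congr rfl fun i _ => ?_
  exact star_gent γ ν _ _ _ _

/-- Sums over bit strings of length `n + 1`, split according to the first bit. -/
theorem sum_cons (n : ℕ) (f : (Fin (n + 1) → Fin 2) → ℂ) :
    ∑ u, f u = (∑ u : Fin n → Fin 2, f (Fin.cons 0 u)) + ∑ u : Fin n → Fin 2, f (Fin.cons 1 u) := by
  rw [← (consSum n).sum_comp, Fintype.sum_sum_type]
  rfl

theorem tensorPow_cons (γ ν : ℝ) (n : ℕ)
    (ρ : Matrix (Fin (n + 1) → Fin 2) (Fin (n + 1) → Fin 2) ℂ) (a b : Fin 2)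
    (x y : Fin n → Fin 2) :
    tensorPow (gad γ ν) (n + 1) ρ (Fin.cons a x) (Fin.cons b y) =
      (gent γ ν 0 0 a b *
          tensorPow (gad γ ν) n (fun u v => ρ (Fin.cons 0 u) (Fin.cons 0 v)) x y +
        gent γ ν 0 1 a b *
          tensorPow (gad γ ν) n (fun u v => ρ (Fin.cons 0 u) (Fin.cons 1 v)) x y) +
      (gent γ ν 1 0 a b *
          tensorPow (gad γ ν) n (fun u v => ρ (Fin.cons 1 u) (Fin.cons 0 v)) x y +
        gent γ ν 1 1 a b *
          tensorPow (gad γ ν) n (fun u v => ρ (Fin.cons 1 u) (Fin.cons 1 v)) x y) := by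
  rw [tensorPow_apply]
  simp only [sum_cons n, Fin.prod_univ_succ, Fin.cons_zero, Fin.cons_succ,
    Finset.sum_add_distrib, mul_assoc]
  simp only [← Finset.mul_sum]
  rfl

/-- `N^{⊗(n+1)}` as `N` on the first bit of the block matrix of the `N^{⊗n}(ρ_{ij})`. -/
theorem tensorPow_succ (γ ν : ℝ) (n : ℕ) (ρ : Matrix (Fin (n + 1) → Fin 2) (Fin (n + 1) → Fin 2) ℂ) :
    (tensorPow (gad γ ν) (n + 1) ρ).submatrix (consSum n) (consSum n) =
      gadBlock γ ν
        (tensorPow (gad γ ν) n (ρ.submatrix (consSum n) (consSum n)).toBlocks₁₁)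
        (tensorPow (gad γ ν) n (ρ.submatrix (consSum n) (consSum n)).toBlocks₁₂)
        (tensorPow (gad γ ν) n (ρ.submatrix (consSum n) (consSum n)).toBlocks₂₁)
        (tensorPow (gad γ ν) n (ρ.submatrix (consSum n) (consSum n)).toBlocks₂₂) := by
  ext (x | x) (y | y)
  · refine (tensorPow_cons γ ν n ρ 0 0 x y).trans ?_
    simp only [gadBlock, gent_eq, fromBlocks_apply₁₁, Matrix.add_apply, Matrix.smul_apply,
      smul_eq_mul]
    simp
    rfl
  · refine (tensorPow_cons γ ν n ρ 0 1 x y).trans ?_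
    simp only [gadBlock, gent_eq, fromBlocks_apply₁₂, Matrix.smul_apply, smul_eq_mul]
    simp
    exact Or.inl rfl
  · refine (tensorPow_cons γ ν n ρ 1 0 x y).trans ?_
    simp only [gadBlock, gent_eq, fromBlocks_apply₂₁, Matrix.smul_apply, smul_eq_mul]
    simp
    exact Or.inl rfl
  · refine (tensorPow_cons γ ν n ρ 1 1 x y).trans ?_
    simp only [gadBlock, gent_eq, fromBlocks_apply₂₂, Matrix.add_apply, Matrix.smul_apply,
      smul_eq_mul]
    simp
    rfl

theorem trace_cons (n : ℕ) (ρ : Matrix (Fin (n + 1) → Fin 2) (Fin (n + 1) → Fin 2) ℂ) :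
    ρ.trace = (ρ.submatrix (consSum n) (consSum n)).toBlocks₁₁.trace +
      (ρ.submatrix (consSum n) (consSum n)).toBlocks₂₂.trace := by
  rw [Matrix.trace, sum_cons n]
  rfl

theorem tensorPow_zero (γ ν : ℝ) (ρ : Matrix (Fin 0 → Fin 2) (Fin 0 → Fin 2) ℂ) :
    tensorPow (gad γ ν) 0 ρ = ρ := by
  ext x y
  rw [tensorPow_apply]
  simp only [Finset.univ_eq_empty, Finset.prod_empty, one_mul, Finset.univ_unique,
    Finset.sum_singleton]
  exact congrArg₂ ρ (Subsingleton.elim _ _) (Subsingleton.elim _ _)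

theorem tensorPow_trace (γ ν : ℝ) (n : ℕ) (ρ : Matrix (Fin n → Fin 2) (Fin n → Fin 2) ℂ) :
    (tensorPow (gad γ ν) n ρ).trace = ρ.trace := by
  induction n with
  | zero => rw [tensorPow_zero]
  | succ n ih =>
    rw [trace_cons, trace_cons n ρ, tensorPow_succ, gadBlock, toBlocks_fromBlocks₁₁,
      toBlocks_fromBlocks₂₂]
    simp only [trace_add, trace_smul, ih, smul_eq_mul]
    push_cast
    ring

/-! ### Kraus form and complete positivity -/

/-- The four Kraus operators of `gad`. -/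
noncomputable def kr (γ ν : ℝ) (k : Fin 4) : Matrix (Fin 2) (Fin 2) ℂ :=
  ![!![((Real.sqrt (1 - ν) : ℝ) : ℂ), 0; 0,
      ((Real.sqrt (1 - ν) : ℝ) : ℂ) * ((Real.sqrt (1 - γ) : ℝ) : ℂ)],
    !![0, ((Real.sqrt (1 - ν) : ℝ) : ℂ) * ((Real.sqrt γ : ℝ) : ℂ); 0, 0],
    !![((Real.sqrt ν : ℝ) : ℂ) * ((Real.sqrt (1 - γ) : ℝ) : ℂ), 0; 0,
      ((Real.sqrt ν : ℝ) : ℂ)],
    !![0, 0; ((Real.sqrt ν : ℝ) : ℂ) * ((Real.sqrt γ : ℝ) : ℂ), 0]] k

theorem gent_kr {γ ν : ℝ} (hγ : γ ∈ Set.Icc (0 : ℝ) 1) (hν : ν ∈ Set.Icc (0 : ℝ) 1)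
    (a b c d : Fin 2) :
    gent γ ν a b c d = ∑ k, kr γ ν k c a * star (kr γ ν k d b) := by
  have h1 : ((Real.sqrt γ : ℝ) : ℂ) ^ 2 = (γ : ℂ) := by
    rw [← Complex.ofReal_pow, Real.sq_sqrt hγ.1]
  have h2 : ((Real.sqrt ν : ℝ) : ℂ) ^ 2 = (ν : ℂ) := by
    rw [← Complex.ofReal_pow, Real.sq_sqrt hν.1]
  have h3 : ((Real.sqrt (1 - γ) : ℝ) : ℂ) ^ 2 = 1 - (γ : ℂ) := by
    rw [← Complex.ofReal_pow, Real.sq_sqrt (by linarith [hγ.2])]; push_cast; ring
  have h4 : ((Real.sqrt (1 - ν) : ℝ) : ℂ) ^ 2 = 1 - (ν : ℂ) := by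
    rw [← Complex.ofReal_pow, Real.sq_sqrt (by linarith [hν.2])]; push_cast; ring
  rw [gent_eq, Fin.sum_univ_four]
  fin_cases a <;> fin_cases b <;> fin_cases c <;> fin_cases d <;>
    simp [kr] <;> grind

/-- The Kraus operators of the tensor power. -/
noncomputable def krn (γ ν : ℝ) (n : ℕ) (k : Fin n → Fin 4) :
    Matrix (Fin n → Fin 2) (Fin n → Fin 2) ℂ :=
  fun x u => ∏ i, kr γ ν (k i) (x i) (u i)

theorem tensorPow_kraus {γ ν : ℝ} (hγ : γ ∈ Set.Icc (0 : ℝ) 1) (hν : ν ∈ Set.Icc (0 : ℝ) 1)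
    (n : ℕ) (ρ : Matrix (Fin n → Fin 2) (Fin n → Fin 2) ℂ) :
    tensorPow (gad γ ν) n ρ = ∑ k, krn γ ν n k * ρ * (krn γ ν n k)ᴴ := by
  ext x y
  rw [tensorPow_apply, Matrix.sum_apply]
  simp only [gent_kr hγ hν, Finset.prod_univ_sum, Fintype.piFinset_univ]
  have key : ∀ k : Fin n → Fin 4, (krn γ ν n k * ρ * (krn γ ν n k)ᴴ) x y =
      ∑ v, ∑ u, (∏ i, kr γ ν (k i) (x i) (u i) * star (kr γ ν (k i) (y i) (v i))) * ρ u v := by
    intro k
    simp only [Matrix.mul_apply, Matrix.conjTranspose_apply, krn, star_prod,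
      Finset.prod_mul_distrib, Finset.sum_mul]
    refine Finset.sum_congr rfl fun v _ => Finset.sum_congr rfl fun u _ => ?_
    ring
  simp only [key, Finset.sum_mul]
  rw [Finset.sum_comm]
  rw [Finset.sum_comm (s := (Finset.univ : Finset (Fin n → Fin 4)))]
  refine Finset.sum_congr rfl fun v _ => ?_
  rw [Finset.sum_comm]

theorem tensorPow_posSemidef {γ ν : ℝ} (hγ : γ ∈ Set.Icc (0 : ℝ) 1) (hν : ν ∈ Set.Icc (0 : ℝ) 1)
    (n : ℕ) {ρ : Matrix (Fin n → Fin 2) (Fin n → Fin 2) ℂ} (hρ : ρ.PosSemidef) :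
    (tensorPow (gad γ ν) n ρ).PosSemidef := by
  rw [tensorPow_kraus hγ hν]
  exact Matrix.posSemidef_sum _ fun k _ => hρ.mul_mul_conjTranspose_same _

/-- Complete positivity (with a qubit ancilla). -/
theorem tensorPow_posSemidef_blocks {γ ν : ℝ} (hγ : γ ∈ Set.Icc (0 : ℝ) 1)
    (hν : ν ∈ Set.Icc (0 : ℝ) 1) (n : ℕ) {X Y Z : Matrix (Fin n → Fin 2) (Fin n → Fin 2) ℂ}
    (h : (fromBlocks X Y Yᴴ Z).PosSemidef) :
    (fromBlocks (tensorPow (gad γ ν) n X) (tensorPow (gad γ ν) n Y)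
      (tensorPow (gad γ ν) n Y)ᴴ (tensorPow (gad γ ν) n Z)).PosSemidef := by
  have key : fromBlocks (tensorPow (gad γ ν) n X) (tensorPow (gad γ ν) n Y)
      (tensorPow (gad γ ν) n Y)ᴴ (tensorPow (gad γ ν) n Z) =
      ∑ k, fromBlocks (krn γ ν n k) 0 0 (krn γ ν n k) * fromBlocks X Y Yᴴ Z *
        (fromBlocks (krn γ ν n k) 0 0 (krn γ ν n k))ᴴ := by
    have h1 : ∀ k, fromBlocks (krn γ ν n k) 0 0 (krn γ ν n k) * fromBlocks X Y Yᴴ Z *
        (fromBlocks (krn γ ν n k) 0 0 (krn γ ν n k))ᴴ =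
        fromBlocks (krn γ ν n k * X * (krn γ ν n k)ᴴ) (krn γ ν n k * Y * (krn γ ν n k)ᴴ)
          (krn γ ν n k * Yᴴ * (krn γ ν n k)ᴴ) (krn γ ν n k * Z * (krn γ ν n k)ᴴ) := by
      intro k
      simp [fromBlocks_conjTranspose, fromBlocks_multiply]
    simp only [h1, tensorPow_conjTranspose]
    simp only [tensorPow_kraus hγ hν]
    ext (i | i) (j | j) <;> simp [Matrix.sum_apply]
  rw [key]
  exact Matrix.posSemidef_sum _ fun k _ => h.mul_mul_conjTranspose_same _

/-! ### Populations -/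

theorem sum_gent_diag (γ ν : ℝ) (a b : Fin 2) :
    ∑ c, gent γ ν a b c c = if a = b then 1 else 0 := by
  rw [Fin.sum_univ_two]
  fin_cases a <;> fin_cases b <;> (simp [gent_eq]; try ring)

theorem sum_gent_one (γ ν : ℝ) (a b : Fin 2) :
    ∑ c, (if c = 1 then gent γ ν a b c c else 0) =
      if a = b then (((1 - γ) * (if a = 1 then 1 else 0) + γ * ν : ℝ) : ℂ) else 0 := by
  rw [Fin.sum_univ_two]
  fin_cases a <;> fin_cases b <;> simp [gent_eq]

theorem sum_pop (γ ν : ℝ) (n : ℕ) (i : Fin n) (u v : Fin n → Fin 2) :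
    ∑ x : Fin n → Fin 2, (if x i = 1 then ∏ j, gent γ ν (u j) (v j) (x j) (x j) else 0) =
      if u = v then (((1 - γ) * (if u i = 1 then 1 else 0) + γ * ν : ℝ) : ℂ) else 0 := by
  have h1 : ∀ x : Fin n → Fin 2,
      (if x i = 1 then ∏ j, gent γ ν (u j) (v j) (x j) (x j) else 0) =
        ∏ j, (if j = i → x j = 1 then gent γ ν (u j) (v j) (x j) (x j) else 0) := by
    intro x
    by_cases hx : x i = 1
    · rw [if_pos hx]
      refine Finset.prod_congr rfl fun j _ => ?_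
      rw [if_pos]
      rintro rfl
      exact hx
    · rw [if_neg hx, eq_comm]
      refine Finset.prod_eq_zero (Finset.mem_univ i) ?_
      rw [if_neg]
      exact fun h => hx (h rfl)
  simp only [h1]
  have h2 := Finset.prod_univ_sum (fun _ : Fin n => (Finset.univ : Finset (Fin 2)))
    (fun j c => if j = i → c = 1 then gent γ ν (u j) (v j) c c else 0)
  rw [Fintype.piFinset_univ] at h2
  rw [← h2]
  by_cases huv : u = v
  · subst huv
    rw [if_pos rfl, ← Finset.prod_erase_mul _ _ (Finset.mem_univ i), Finset.prod_eq_one, one_mul]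
    · have := sum_gent_one γ ν (u i) (u i)
      simpa using this
    · intro j hj
      have hji : j ≠ i := Finset.ne_of_mem_erase hj
      have := sum_gent_diag γ ν (u j) (u j)
      simpa [hji] using this
  · rw [if_neg huv]
    obtain ⟨j, hj⟩ := Function.ne_iff.1 huv
    refine Finset.prod_eq_zero (Finset.mem_univ j) ?_
    by_cases hji : j = i
    · subst hji
      have := sum_gent_one γ ν (u j) (v j)
      simpa [hj] using this
    · have := sum_gent_diag γ ν (u j) (v j)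
      simpa [hji, hj] using this

/-- Populations of the output. -/
theorem pop_tensorPow (γ ν : ℝ) (n : ℕ) (ρ : Matrix (Fin n → Fin 2) (Fin n → Fin 2) ℂ)
    (i : Fin n) :
    pop (tensorPow (gad γ ν) n ρ) i = (1 - γ) * pop ρ i + γ * ν * ρ.trace.re := by
  have h1 : (∑ x, if x i = 1 then tensorPow (gad γ ν) n ρ x x else 0) =
      ∑ u, (((1 - γ) * (if u i = 1 then 1 else 0) + γ * ν : ℝ) : ℂ) * ρ u u := by
    have h2 : ∀ x : Fin n → Fin 2, (if x i = 1 then tensorPow (gad γ ν) n ρ x x else 0) =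
        ∑ u, ∑ v, (if x i = 1 then ∏ j, gent γ ν (u j) (v j) (x j) (x j) else 0) * ρ u v := by
      intro x
      by_cases hx : x i = 1
      · simp only [if_pos hx, tensorPow_apply]
      · simp [if_neg hx]
    simp only [h2]
    rw [Finset.sum_comm]
    refine Finset.sum_congr rfl fun u _ => ?_
    rw [Finset.sum_comm]
    simp only [← Finset.sum_mul, sum_pop]
    simp
  have h3 : pop (tensorPow (gad γ ν) n ρ) i =
      (∑ x, if x i = 1 then tensorPow (gad γ ν) n ρ x x else 0).re := by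
    rw [pop, Complex.re_sum]
    refine Finset.sum_congr rfl fun x _ => ?_
    split_ifs <;> simp
  rw [h3, h1, Complex.re_sum, pop, Matrix.trace, Complex.re_sum, Finset.mul_sum, Finset.mul_sum,
    ← Finset.sum_add_distrib]
  refine Finset.sum_congr rfl fun u _ => ?_
  rw [Complex.re_ofReal_mul]
  split_ifs <;> (simp [Matrix.diag]; try ring)

end Vale.Agent.P358
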