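import Vale.Agent.Lib.P358.Ent
import Vale.Agent.Lib.P358.Tensor

/-!
# P358, module Attain: the product ensemble of sign-flipped pure states
-/

namespace Vale.Agent.P358

open Matrix
open scoped ComplexOrder

section ProdM

/-- product matrices -/
def prodM {n : ℕ} (σ : Fin n → Matrix (Fin 2) (Fin 2) ℂ) :
    Matrix (Fin n → Fin 2) (Fin n → Fin 2) ℂ :=
  fun x y => ∏ i, σ i (x i) (y i)

theorem atSum_prod {R Z : Type} [CommRing R] [Fintype Z] {n : ℕ} (f : Fin n → Z → R) :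
    ∑ x : Fin n → Z, ∏ i, f i (x i) = ∏ i, ∑ b, f i b := by
  rw [Finset.prod_univ_sum, Fintype.piFinset_univ]

theorem prodM_mul {n : ℕ} (σ τ : Fin n → Matrix (Fin 2) (Fin 2) ℂ) :
    prodM σ * prodM τ = prodM (fun i => σ i * τ i) := by
  ext x y
  simp only [prodM, Matrix.mul_apply]
  rw [← atSum_prod (fun i b => σ i (x i) b * τ i b (y i))]
  refine Finset.sum_congr rfl fun z _ => ?_
  rw [Finset.prod_mul_distrib]

theorem prodM_conjTranspose {n : ℕ} (σ : Fin n → Matrix (Fin 2) (Fin 2) ℂ) :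
    (prodM σ)ᴴ = prodM (fun i => (σ i)ᴴ) := by
  ext x y
  simp [prodM, conjTranspose_apply]

theorem prodM_diagonal {n : ℕ} (d : Fin n → Fin 2 → ℝ) :
    prodM (fun i => diagonal (fun b => (d i b : ℂ))) =
      diagonal (fun x : Fin n → Fin 2 => ((∏ i, d i (x i) : ℝ) : ℂ)) := by
  ext x y
  by_cases h : x = y
  · subst h
    simp [prodM]
  · obtain ⟨i, hi⟩ := Function.ne_iff.1 h
    rw [diagonal_apply_ne _ h]
    exact Finset.prod_eq_zero (Finset.mem_univ i) (diagonal_apply_ne _ hi)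

theorem prodM_one {n : ℕ} : prodM (fun _ : Fin n => (1 : Matrix (Fin 2) (Fin 2) ℂ)) = 1 := by
  have h := prodM_diagonal (n := n) (fun _ _ => 1)
  simpa using h

theorem prodM_trace {n : ℕ} (σ : Fin n → Matrix (Fin 2) (Fin 2) ℂ) :
    (prodM σ).trace = ∏ i, (σ i).trace := by
  simp only [Matrix.trace, diag_apply, prodM]
  exact atSum_prod (fun i b => σ i b b)

/-- entropy of a product distribution -/
theorem negMulLog_prod {n : ℕ} (d : Fin n → Fin 2 → ℝ) (hd : ∀ i, ∑ b, d i b = 1) :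
    ∑ x : Fin n → Fin 2, Real.negMulLog (∏ i, d i (x i)) =
      ∑ i, ∑ b, Real.negMulLog (d i b) := by
  induction n with
  | zero => simp
  | succ n ih =>
    rw [← (Fin.consEquiv (fun _ : Fin (n + 1) => Fin 2)).sum_comp, Fintype.sum_prod_type,
      Fin.sum_univ_succ (fun i => ∑ b, Real.negMulLog (d i b)),
      ← ih (fun i => d i.succ) (fun i => hd i.succ)]
    have h1 : ∀ (b : Fin 2) (x : Fin n → Fin 2),
        Real.negMulLog (∏ i, d i ((Fin.consEquiv (fun _ : Fin (n + 1) => Fin 2)) (b, x) i)) =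
        (∏ i : Fin n, d i.succ (x i)) * Real.negMulLog (d 0 b) +
          d 0 b * Real.negMulLog (∏ i : Fin n, d i.succ (x i)) := by
      intro b x
      rw [Fin.prod_univ_succ, Real.negMulLog_mul]
      rfl
    simp_rw [h1, Finset.sum_add_distrib, ← Finset.sum_mul, ← Finset.mul_sum]
    have h2 : ∑ x : Fin n → Fin 2, ∏ i : Fin n, d i.succ (x i) = 1 := by
      rw [atSum_prod (fun i b => d (Fin.succ i) b)]
      exact Finset.prod_eq_one fun i _ => hd _
    rw [h2, one_mul]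
    congr 1
    rw [← Finset.sum_mul, hd 0, one_mul]

theorem entU_prodM {n : ℕ} (σ : Fin n → Matrix (Fin 2) (Fin 2) ℂ) (hσ : ∀ i, (σ i).IsHermitian)
    (htr : ∀ i, (σ i).trace = 1) : entU (prodM σ) = ∑ i, entU (σ i) := by
  have hspec : ∀ i, σ i = ((hσ i).eigenvectorUnitary : Matrix (Fin 2) (Fin 2) ℂ) *
      diagonal (fun b => ((hσ i).eigenvalues b : ℂ)) *
      ((hσ i).eigenvectorUnitary : Matrix (Fin 2) (Fin 2) ℂ)ᴴ := by
    intro i
    conv_lhs => rw [(hσ i).spectral_theorem, Unitary.conjStarAlgAut_apply]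
    rfl
  set U : Fin n → Matrix (Fin 2) (Fin 2) ℂ := fun i =>
    ((hσ i).eigenvectorUnitary : Matrix (Fin 2) (Fin 2) ℂ) with hU
  have hUU : ∀ i, U i * (U i)ᴴ = 1 := by
    intro i
    rw [← star_eq_conjTranspose]
    exact Unitary.coe_mul_star_self _
  have hmat : prodM σ = prodM U *
      diagonal (fun x : Fin n → Fin 2 => ((∏ i, (hσ i).eigenvalues (x i) : ℝ) : ℂ)) *
      (prodM U)ᴴ := by
    rw [← prodM_diagonal (fun i => (hσ i).eigenvalues), prodM_conjTranspose, prodM_mul, prodM_mul]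
    congr 1
    funext i
    exact hspec i
  have hunit : prodM U ∈ Matrix.unitaryGroup (Fin n → Fin 2) ℂ := by
    rw [Matrix.mem_unitaryGroup_iff, star_eq_conjTranspose, prodM_conjTranspose, prodM_mul]
    simp_rw [hUU]
    exact prodM_one
  have hdH : (diagonal (fun x : Fin n → Fin 2 =>
      ((∏ i, (hσ i).eigenvalues (x i) : ℝ) : ℂ))).IsHermitian := by
    rw [Matrix.isHermitian_diagonal_iff]
    intro x
    exact Complex.conj_ofReal _
  rw [hmat, entU_conj hdH hunit, entU_diagonal]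
  have hsum : ∀ i, ∑ b, (hσ i).eigenvalues b = 1 := by
    intro i
    have h1 := (hσ i).trace_eq_sum_eigenvalues
    rw [htr i] at h1
    have h2 : ((∑ b, (hσ i).eigenvalues b : ℝ) : ℂ) = 1 := by
      rw [h1]
      push_cast
      rfl
    exact_mod_cast h2
  rw [negMulLog_prod (fun i => (hσ i).eigenvalues) hsum]
  refine Finset.sum_congr rfl fun i _ => ?_
  rw [entU, dif_pos (hσ i)]

end ProdM

section Channel

theorem gad_add (γ ν : ℝ) (A B : Matrix (Fin 2) (Fin 2) ℂ) :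
    gad γ ν (A + B) = gad γ ν A + gad γ ν B := by
  ext i j
  fin_cases i <;> fin_cases j <;> simp [gad] <;> ring

theorem gad_smul (γ ν : ℝ) (c : ℂ) (A : Matrix (Fin 2) (Fin 2) ℂ) :
    gad γ ν (c • A) = c • gad γ ν A := by
  ext i j
  fin_cases i <;> fin_cases j <;> simp [gad] <;> ring

/-- `gad` through its values on matrix units -/
theorem gad_units (γ ν : ℝ) (A : Matrix (Fin 2) (Fin 2) ℂ) (i j : Fin 2) :
    ∑ a, ∑ b, gad γ ν (Matrix.single a b 1) i j * A a b = gad γ ν A i j := by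
  simp only [Fin.sum_univ_two]
  fin_cases i <;> fin_cases j <;> simp [gad, Matrix.single] <;> ring

theorem tensorPow_prodM (γ ν : ℝ) {n : ℕ} (σ : Fin n → Matrix (Fin 2) (Fin 2) ℂ) :
    tensorPow (gad γ ν) n (prodM σ) = prodM (fun i => gad γ ν (σ i)) := by
  ext x y
  simp only [tensorPow, prodM]
  have h1 : ∀ i, gad γ ν (σ i) (x i) (y i) =
      ∑ a, ∑ b, gad γ ν (Matrix.single a b 1) (x i) (y i) * σ i a b :=
    fun i => (gad_units γ ν (σ i) (x i) (y i)).symm
  simp_rw [h1]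
  rw [← atSum_prod (fun i a => ∑ b, gad γ ν (Matrix.single a b 1) (x i) (y i) * σ i a b)]
  refine Finset.sum_congr rfl fun u _ => ?_
  rw [← atSum_prod (fun i b => gad γ ν (Matrix.single (u i) b 1) (x i) (y i) * σ i (u i) b)]
  refine Finset.sum_congr rfl fun v _ => ?_
  rw [Finset.prod_mul_distrib]

end Channel

section Ensemble

/-- the real amplitudes of the two pure states -/
noncomputable def amp (q : ℝ) (s b : Fin 2) : ℝ :=
  if b = 0 then Real.sqrt (1 - q) else (if s = 0 then 1 else -1) * Real.sqrt q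

/-- the two pure states of population `q` -/
noncomputable def phiM (q : ℝ) (s : Fin 2) : Matrix (Fin 2) (Fin 2) ℂ :=
  fun a b => ((amp q s a * amp q s b : ℝ) : ℂ)

theorem phiM_eq {q : ℝ} (hq : q ∈ Set.Icc (0 : ℝ) 1) (s : Fin 2) :
    phiM q s = !![((1 - q : ℝ) : ℂ), (((if s = 0 then 1 else -1) *
      (Real.sqrt (1 - q) * Real.sqrt q) : ℝ) : ℂ);
      (((if s = 0 then 1 else -1) * (Real.sqrt (1 - q) * Real.sqrt q) : ℝ) : ℂ),
      ((q : ℝ) : ℂ)] := by
  have h1 : ((Real.sqrt (1 - q) : ℝ) : ℂ) * ((Real.sqrt (1 - q) : ℝ) : ℂ) = 1 - (q : ℂ) := by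
    rw [← Complex.ofReal_mul, Real.mul_self_sqrt (by linarith [hq.2])]
    push_cast
    rfl
  have h2 : ((Real.sqrt q : ℝ) : ℂ) * ((Real.sqrt q : ℝ) : ℂ) = (q : ℂ) := by
    rw [← Complex.ofReal_mul, Real.mul_self_sqrt hq.1]
  ext i j
  fin_cases s <;> fin_cases i <;> fin_cases j <;> simp [phiM, amp, h1, h2, mul_comm]

theorem prodM_phi_posSemidef {n : ℕ} (q : ℝ) (s : Fin n → Fin 2) :
    (prodM (fun i => phiM q (s i))).PosSemidef := by
  have h1 : prodM (fun i => phiM q (s i)) =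
      vecMulVec (fun x : Fin n → Fin 2 => ((∏ i, amp q (s i) (x i) : ℝ) : ℂ))
        (star (fun x : Fin n → Fin 2 => ((∏ i, amp q (s i) (x i) : ℝ) : ℂ))) := by
    ext x y
    simp only [prodM, phiM, vecMulVec_apply, Pi.star_apply, RCLike.star_def, Complex.conj_ofReal]
    rw [← Complex.ofReal_mul, ← Finset.prod_mul_distrib, Complex.ofReal_prod]
  rw [h1]
  exact posSemidef_vecMulVec_self_star _

theorem phiM_trace {q : ℝ} (hq : q ∈ Set.Icc (0 : ℝ) 1) (s : Fin 2) : (phiM q s).trace = 1 := by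
  rw [phiM_eq hq]
  simp [Matrix.trace_fin_two]

theorem prodM_phi_state {n : ℕ} {q : ℝ} (hq : q ∈ Set.Icc (0 : ℝ) 1) (s : Fin n → Fin 2) :
    IsState (prodM (fun i => phiM q (s i))) := by
  refine ⟨prodM_phi_posSemidef q s, ?_⟩
  rw [prodM_trace]
  exact Finset.prod_eq_one fun i _ => phiM_trace hq _

/-- explicit output -/
theorem gad_phiM (γ ν : ℝ) {q : ℝ} (hq : q ∈ Set.Icc (0 : ℝ) 1) (s : Fin 2) :
    gad γ ν (phiM q s) = !![((1 - tq γ ν q : ℝ) : ℂ), (((if s = 0 then 1 else -1) *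
      (Real.sqrt (1 - γ) * (Real.sqrt (1 - q) * Real.sqrt q)) : ℝ) : ℂ);
      (((if s = 0 then 1 else -1) * (Real.sqrt (1 - γ) *
        (Real.sqrt (1 - q) * Real.sqrt q)) : ℝ) : ℂ),
      ((tq γ ν q : ℝ) : ℂ)] := by
  rw [phiM_eq hq]
  ext i j
  fin_cases s <;> fin_cases i <;> fin_cases j <;> simp [gad, tq]

theorem gad_phiM_trace (γ ν : ℝ) {q : ℝ} (hq : q ∈ Set.Icc (0 : ℝ) 1) (s : Fin 2) :
    (gad γ ν (phiM q s)).trace = 1 := by
  rw [gad_phiM γ ν hq]
  simp [Matrix.trace_fin_two]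

theorem gad_phiM_herm (γ ν : ℝ) {q : ℝ} (hq : q ∈ Set.Icc (0 : ℝ) 1) (s : Fin 2) :
    (gad γ ν (phiM q s)).IsHermitian := by
  rw [gad_phiM γ ν hq]
  ext i j
  fin_cases i <;> fin_cases j <;> simp [conjTranspose_apply]

theorem gad_phiM_det {γ : ℝ} (hγ : γ ∈ Set.Icc (0 : ℝ) 1) (ν : ℝ) {q : ℝ}
    (hq : q ∈ Set.Icc (0 : ℝ) 1) (s : Fin 2) :
    (gad γ ν (phiM q s)).det = ((γ * (1 - γ) * (q - ν) ^ 2 + γ * ν * (1 - ν) : ℝ) : ℂ) := by
  have h1 : Real.sqrt (1 - q) ^ 2 = 1 - q := Real.sq_sqrt (by linarith [hq.2])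
  have h2 : Real.sqrt q ^ 2 = q := Real.sq_sqrt hq.1
  have h3 : Real.sqrt (1 - γ) ^ 2 = 1 - γ := Real.sq_sqrt (by linarith [hγ.2])
  have h4 : (if s = 0 then (1 : ℝ) else -1) ^ 2 = 1 := by split_ifs <;> norm_num
  rw [gad_phiM γ ν hq, Matrix.det_fin_two_of, ← Complex.ofReal_mul, ← Complex.ofReal_mul,
    ← Complex.ofReal_sub]
  congr 1
  have h5 : ((if s = 0 then (1 : ℝ) else -1) * (Real.sqrt (1 - γ) *
      (Real.sqrt (1 - q) * Real.sqrt q))) *
      ((if s = 0 then (1 : ℝ) else -1) * (Real.sqrt (1 - γ) *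
      (Real.sqrt (1 - q) * Real.sqrt q))) = (1 - γ) * ((1 - q) * q) := by
    calc _ = (if s = 0 then (1 : ℝ) else -1) ^ 2 * (Real.sqrt (1 - γ) ^ 2 *
        (Real.sqrt (1 - q) ^ 2 * Real.sqrt q ^ 2)) := by ring
      _ = _ := by rw [h1, h2, h3, h4]; ring
  rw [h5, tq]
  ring

theorem gad_phiM_psd {γ ν : ℝ} (hγ : γ ∈ Set.Icc (0 : ℝ) 1) (hν : ν ∈ Set.Icc (0 : ℝ) 1) {q : ℝ}
    (hq : q ∈ Set.Icc (0 : ℝ) 1) (s : Fin 2) : (gad γ ν (phiM q s)).PosSemidef := by
  have hH := gad_phiM_herm γ ν hq s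
  rw [hH.posSemidef_iff_eigenvalues_nonneg]
  have htr := hH.trace_eq_sum_eigenvalues
  have hdet := hH.det_eq_prod_eigenvalues
  rw [gad_phiM_trace γ ν hq] at htr
  rw [gad_phiM_det hγ ν hq] at hdet
  have htr' : hH.eigenvalues 0 + hH.eigenvalues 1 = 1 := by
    have h2 : ((∑ b, hH.eigenvalues b : ℝ) : ℂ) = 1 := by
      rw [htr]
      push_cast
      rfl
    rw [Fin.sum_univ_two] at h2
    exact_mod_cast h2
  have hdet' : hH.eigenvalues 0 * hH.eigenvalues 1 =
      γ * (1 - γ) * (q - ν) ^ 2 + γ * ν * (1 - ν) := by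
    have h2 : ((∏ b, hH.eigenvalues b : ℝ) : ℂ) =
        ((γ * (1 - γ) * (q - ν) ^ 2 + γ * ν * (1 - ν) : ℝ) : ℂ) := by
      rw [hdet]
      push_cast
      rfl
    rw [Fin.prod_univ_two] at h2
    exact_mod_cast h2
  have hnn : 0 ≤ hH.eigenvalues 0 * hH.eigenvalues 1 := by
    rw [hdet']
    have h1 : 0 ≤ 1 - γ := by linarith [hγ.2]
    have h2 : 0 ≤ 1 - ν := by linarith [hν.2]
    have h3 := hγ.1
    have h4 := hν.1
    positivity
  intro i
  fin_cases i
  · simp only [Fin.zero_eta, Pi.zero_apply]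
    nlinarith
  · simp only [Fin.mk_one, Pi.zero_apply]
    nlinarith

theorem entU_gad_phiM {γ ν : ℝ} (hγ : γ ∈ Set.Icc (0 : ℝ) 1) (hν : ν ∈ Set.Icc (0 : ℝ) 1) {q : ℝ}
    (hq : q ∈ Set.Icc (0 : ℝ) 1) (s : Fin 2) : entU (gad γ ν (phiM q s)) = fq γ ν q := by
  rw [entU_two (gad_phiM_psd hγ hν hq s) (gad_phiM_trace γ ν hq s), gad_phiM_det hγ ν hq,
    Complex.ofReal_re]
  rfl

/-- average output of the two states -/
theorem avg_phiM (γ ν : ℝ) {q : ℝ} (hq : q ∈ Set.Icc (0 : ℝ) 1) :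
    ∑ s : Fin 2, ((1 / 2 : ℝ) : ℂ) • gad γ ν (phiM q s) =
      diagonal (fun b : Fin 2 => (((fun b : Fin 2 => if b = 0 then 1 - tq γ ν q else tq γ ν q) b
        : ℝ) : ℂ)) := by
  rw [Fin.sum_univ_two, gad_phiM γ ν hq, gad_phiM γ ν hq]
  ext i j
  fin_cases i <;> fin_cases j
  · simp; ring
  · simp
  · simp
  · simp; ring

/-- For every `q ∈ [0,1]` the value `n * gq γ ν q / log 2` is the Holevo quantity of an ensemble of
`2 ^ n` product states for `A_{γ,ν}^{⊗n}`. -/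
theorem mem_holevoSet_tensorPow {γ ν : ℝ} (hγ : γ ∈ Set.Icc (0 : ℝ) 1)
    (hν : ν ∈ Set.Icc (0 : ℝ) 1) (n : ℕ) {q : ℝ} (hq : q ∈ Set.Icc (0 : ℝ) 1) :
    n * gq γ ν q / Real.log 2 ∈ holevoSet (tensorPow (gad γ ν) n) := by
  classical
  let e := Fintype.equivFin (Fin n → Fin 2)
  have hcard : (Fintype.card (Fin n → Fin 2) : ℝ) = 2 ^ n := by
    simp
  refine ⟨Fintype.card (Fin n → Fin 2), fun _ => (1 / 2) ^ n,
    fun a => prodM (fun i => phiM q (e.symm a i)), fun a => by positivity, ?_,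
    fun a => prodM_phi_state hq _, ?_⟩
  · rw [Finset.sum_const, Finset.card_univ, Fintype.card_fin, nsmul_eq_mul, hcard, ← mul_pow]
    norm_num
  · -- the average output
    have havg : ∑ a : Fin (Fintype.card (Fin n → Fin 2)), (((1 / 2) ^ n : ℝ) : ℂ) •
        tensorPow (gad γ ν) n (prodM (fun i => phiM q (e.symm a i))) =
        prodM (fun _ : Fin n => diagonal (fun b : Fin 2 =>
          (((fun b : Fin 2 => if b = 0 then 1 - tq γ ν q else tq γ ν q) b : ℝ) : ℂ))) := by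
      rw [e.symm.sum_comp (fun s : Fin n → Fin 2 => (((1 / 2) ^ n : ℝ) : ℂ) •
        tensorPow (gad γ ν) n (prodM (fun i => phiM q (s i))))]
      ext x y
      rw [Matrix.sum_apply, ← avg_phiM γ ν hq]
      simp only [tensorPow_prodM, Matrix.smul_apply, prodM, Matrix.sum_apply]
      rw [← atSum_prod (fun i s => ((1 / 2 : ℝ) : ℂ) • gad γ ν (phiM q s) (x i) (y i))]
      refine Finset.sum_congr rfl fun s _ => ?_
      simp only [smul_eq_mul]
      rw [Finset.prod_mul_distrib, Finset.prod_const, Finset.card_univ, Fintype.card_fin]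
      push_cast
      rfl
    have hent1 : entropy (∑ a : Fin (Fintype.card (Fin n → Fin 2)), (((1 / 2) ^ n : ℝ) : ℂ) •
        tensorPow (gad γ ν) n (prodM (fun i => phiM q (e.symm a i)))) =
        n * Real.binEntropy (tq γ ν q) / Real.log 2 := by
      rw [havg, entropy_eq, entU_prodM]
      · rw [Finset.sum_const, Finset.card_univ, Fintype.card_fin, nsmul_eq_mul, entU_diagonal,
          Fin.sum_univ_two, Real.binEntropy_eq_negMulLog_add_negMulLog_one_sub]
        simp only [if_true, Fin.isValue, one_ne_zero, if_false]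
        ring
      · intro i
        rw [Matrix.isHermitian_diagonal_iff]
        intro b
        exact Complex.conj_ofReal _
      · intro i
        simp [Matrix.trace_fin_two]
    have hent2 : ∀ a, entropy (tensorPow (gad γ ν) n (prodM (fun i => phiM q (e.symm a i)))) =
        n * fq γ ν q / Real.log 2 := by
      intro a
      rw [tensorPow_prodM, entropy_eq, entU_prodM _ (fun i => gad_phiM_herm γ ν hq _)
        (fun i => gad_phiM_trace γ ν hq _)]
      simp_rw [entU_gad_phiM hγ hν hq]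
      rw [Finset.sum_const, Finset.card_univ, Fintype.card_fin, nsmul_eq_mul]
    rw [hent1]
    simp_rw [hent2]
    rw [Finset.sum_const, Finset.card_univ, Fintype.card_fin, nsmul_eq_mul, hcard, ← mul_assoc,
      ← mul_pow, gq]
    norm_num
    ring

end Ensemble

section One

theorem tensorPow_one_apply (γ ν : ℝ) (ρ : Matrix (Fin 1 → Fin 2) (Fin 1 → Fin 2) ℂ)
    (x y : Fin 1 → Fin 2) :
    tensorPow (gad γ ν) 1 ρ x y =
      gad γ ν (fun a b => ρ (fun _ => a) (fun _ => b)) (x 0) (y 0) := by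
  rw [← gad_units γ ν (fun a b => ρ (fun _ => a) (fun _ => b)) (x 0) (y 0)]
  simp only [tensorPow, Fin.prod_univ_one]
  rw [← (Equiv.funUnique (Fin 1) (Fin 2)).symm.sum_comp]
  refine Finset.sum_congr rfl fun a _ => ?_
  rw [← (Equiv.funUnique (Fin 1) (Fin 2)).symm.sum_comp]
  refine Finset.sum_congr rfl fun b _ => ?_
  rfl

theorem tensorPow_one_eq (γ ν : ℝ) (ρ : Matrix (Fin 1 → Fin 2) (Fin 1 → Fin 2) ℂ) :
    tensorPow (gad γ ν) 1 ρ =
      (gad γ ν (ρ.submatrix (Equiv.funUnique (Fin 1) (Fin 2)).symm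
        (Equiv.funUnique (Fin 1) (Fin 2)).symm)).submatrix
        (Equiv.funUnique (Fin 1) (Fin 2)) (Equiv.funUnique (Fin 1) (Fin 2)) := by
  ext x y
  rw [tensorPow_one_apply]
  rfl

theorem entropy_submatrix {α β : Type} [Fintype α] [DecidableEq α] [Fintype β] [DecidableEq β]
    (A : Matrix α α ℂ) (e : β ≃ α) : entropy (A.submatrix e e) = entropy A := by
  rw [entropy_eq, entropy_eq, entU_submatrix_equiv]

theorem isState_submatrix {α β : Type} [Fintype α] [Fintype β]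
    {A : Matrix α α ℂ} (hA : IsState A) (e : β ≃ α) : IsState (A.submatrix e e) := by
  refine ⟨hA.1.submatrix e, ?_⟩
  rw [← hA.2]
  simp only [Matrix.trace, diag_apply, submatrix_apply]
  exact e.sum_comp (fun i => A i i)

/-- Identification of the one-fold tensor power with the channel itself. -/
theorem holevoSet_tensorPow_one (γ ν : ℝ) :
    holevoSet (tensorPow (gad γ ν) 1) = holevoSet (gad γ ν) := by
  set e := Equiv.funUnique (Fin 1) (Fin 2) with he
  have hT : ∀ ρ : Matrix (Fin 1 → Fin 2) (Fin 1 → Fin 2) ℂ, tensorPow (gad γ ν) 1 ρ =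
      (gad γ ν (ρ.submatrix e.symm e.symm)).submatrix e e := tensorPow_one_eq γ ν
  have hsum : ∀ (k : ℕ) (p : Fin k → ℝ) (M : Fin k → Matrix (Fin 2) (Fin 2) ℂ),
      ∑ a, (p a : ℂ) • (M a).submatrix e e = (∑ a, (p a : ℂ) • M a).submatrix e e := by
    intro k p M
    ext x y
    simp [Matrix.sum_apply]
  ext v
  constructor
  · rintro ⟨k, p, ρ, hp, hp1, hρ, hv⟩
    refine ⟨k, p, fun a => (ρ a).submatrix e.symm e.symm, hp, hp1,
      fun a => isState_submatrix (hρ a) e.symm, ?_⟩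
    rw [hv]
    simp_rw [hT, hsum, entropy_submatrix]
  · rintro ⟨k, p, ρ, hp, hp1, hρ, hv⟩
    refine ⟨k, p, fun a => (ρ a).submatrix e e, hp, hp1,
      fun a => isState_submatrix (hρ a) e, ?_⟩
    rw [hv]
    simp_rw [hT, hsum, entropy_submatrix, Matrix.submatrix_submatrix]
    simp

/-- The single-qubit ensemble. -/
theorem mem_holevoSet_gad {γ ν : ℝ} (hγ : γ ∈ Set.Icc (0 : ℝ) 1) (hν : ν ∈ Set.Icc (0 : ℝ) 1)
    {q : ℝ} (hq : q ∈ Set.Icc (0 : ℝ) 1) :
    gq γ ν q / Real.log 2 ∈ holevoSet (gad γ ν) := by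
  have h := mem_holevoSet_tensorPow hγ hν 1 hq
  rw [holevoSet_tensorPow_one] at h
  simpa using h

end One

end Vale.Agent.P358
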