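import Mathlib

/-!
# P358, module Chord: the generalized amplitude-damping channel as a mixture of two channels with
two Kraus operators (scalar part)
-/

namespace Vale.Agent.P358

/-- A point of the closed unit disc on a chord with prescribed normal direction. -/
theorem exists_chord (a b l m : ℝ) (hab : a ^ 2 + b ^ 2 ≤ 1) :
    ∃ p X0 Y0 X1 Y1 : ℝ, 0 ≤ p ∧ p ≤ 1 ∧ X0 ^ 2 + Y0 ^ 2 = 1 ∧ X1 ^ 2 + Y1 ^ 2 = 1 ∧
      (1 - p) * X0 + p * X1 = a ∧ (1 - p) * Y0 + p * Y1 = b ∧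
      l * X0 + m * Y0 = l * a + m * b ∧ l * X1 + m * Y1 = l * a + m * b := by
  -- a unit direction orthogonal to `(l, m)`
  obtain ⟨d, e, hde, hlm⟩ : ∃ d e : ℝ, d ^ 2 + e ^ 2 = 1 ∧ l * d + m * e = 0 := by
    by_cases h : l = 0 ∧ m = 0
    · exact ⟨1, 0, by norm_num, by rw [h.1, h.2]; ring⟩
    · have hpos : 0 < l ^ 2 + m ^ 2 := by
        by_contra hc
        push Not at hc
        have h1 : l = 0 := by nlinarith [sq_nonneg l, sq_nonneg m]
        have h2 : m = 0 := by nlinarith [sq_nonneg l, sq_nonneg m]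
        exact h ⟨h1, h2⟩
      have hs : Real.sqrt (l ^ 2 + m ^ 2) ≠ 0 := (Real.sqrt_pos.2 hpos).ne'
      have hs2 := Real.sq_sqrt hpos.le
      refine ⟨-m / Real.sqrt (l ^ 2 + m ^ 2), l / Real.sqrt (l ^ 2 + m ^ 2), ?_, ?_⟩
      · rw [div_pow, div_pow, hs2]
        field_simp
        ring
      · field_simp
        ring
  set β : ℝ := a * d + b * e with hβ
  set c : ℝ := a ^ 2 + b ^ 2 - 1 with hc
  have hc0 : c ≤ 0 := by linarith
  have hdisc : 0 ≤ β ^ 2 - c := by nlinarith [sq_nonneg β]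
  set r : ℝ := Real.sqrt (β ^ 2 - c) with hr
  have hr2 : r ^ 2 = β ^ 2 - c := Real.sq_sqrt hdisc
  have hr0 : 0 ≤ r := Real.sqrt_nonneg _
  have hrb : |β| ≤ r := by
    rw [← Real.sqrt_sq_eq_abs]
    exact Real.sqrt_le_sqrt (by linarith)
  have hb1 := neg_abs_le β
  have hb2 := le_abs_self β
  rcases hr0.eq_or_lt with h0 | h0
  · -- the point is on the circle
    have hβ0 : β = 0 := by
      rw [← h0] at hrb
      exact abs_eq_zero.1 (le_antisymm hrb (abs_nonneg _))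
    have hc1 : c = 0 := by
      rw [← h0, hβ0] at hr2
      linarith
    have hcirc : a ^ 2 + b ^ 2 = 1 := by linarith
    exact ⟨0, a, b, a, b, le_rfl, zero_le_one, hcirc, hcirc, by ring, by ring, rfl, rfl⟩
  · refine ⟨(β + r) / (2 * r), a + (-β - r) * d, b + (-β - r) * e, a + (-β + r) * d,
      b + (-β + r) * e, ?_, ?_, ?_, ?_, ?_, ?_, ?_, ?_⟩
    · apply div_nonneg <;> linarith
    · rw [div_le_one (by linarith)]
      linarith
    · have h1 : (a + (-β - r) * d) ^ 2 + (b + (-β - r) * e) ^ 2 =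
          (a ^ 2 + b ^ 2) + 2 * (-β - r) * (a * d + b * e) + (-β - r) ^ 2 * (d ^ 2 + e ^ 2) := by
        ring
      rw [h1, hde, ← hβ]
      have h2 : a ^ 2 + b ^ 2 = c + 1 := by rw [hc]; ring
      rw [h2]
      linear_combination hr2
    · have h1 : (a + (-β + r) * d) ^ 2 + (b + (-β + r) * e) ^ 2 =
          (a ^ 2 + b ^ 2) + 2 * (-β + r) * (a * d + b * e) + (-β + r) ^ 2 * (d ^ 2 + e ^ 2) := by
        ring
      rw [h1, hde, ← hβ]
      have h2 : a ^ 2 + b ^ 2 = c + 1 := by rw [hc]; ring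
      rw [h2]
      linear_combination hr2
    · field_simp
      ring
    · field_simp
      ring
    · linear_combination (-β - r) * hlm
    · linear_combination (-β + r) * hlm

/-- A point of the unit circle has an angle. -/
theorem exists_angle (x y : ℝ) (h : x ^ 2 + y ^ 2 = 1) :
    ∃ v : ℝ, Real.cos v = x ∧ Real.sin v = y := by
  have hn : ‖(⟨x, y⟩ : ℂ)‖ = 1 := by
    rw [Complex.norm_def, Complex.normSq_mk, ← sq, ← sq, h, Real.sqrt_one]
  have h0 : (⟨x, y⟩ : ℂ) ≠ 0 := by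
    intro h1
    rw [h1, norm_zero] at hn
    exact zero_ne_one hn
  refine ⟨Complex.arg ⟨x, y⟩, ?_, ?_⟩
  · rw [Complex.cos_arg h0, hn, div_one]
  · rw [Complex.sin_arg, hn, div_one]

/-- The four Kraus coefficients belonging to a point of the unit circle. -/
theorem exists_coeffs {s k X Y : ℝ} (hsk : s ^ 2 + k ^ 2 = 1) (hXY : X ^ 2 + Y ^ 2 = 1) :
    ∃ c1 s1 c2 s2 : ℝ, c1 ^ 2 + s1 ^ 2 = 1 ∧ c2 ^ 2 + s2 ^ 2 = 1 ∧
      c1 ^ 2 = (1 + X * s + Y * k) / 2 ∧ s2 ^ 2 = (1 - X * s + Y * k) / 2 ∧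
      c1 * c2 = (X + s) / 2 ∧ s1 * s2 = (s - X) / 2 ∧
      c1 * s1 = (Y * s - X * k) / 2 ∧ c2 * s2 = (Y * s + X * k) / 2 := by
  obtain ⟨u, hu1, hu2⟩ := exists_angle s k hsk
  obtain ⟨v, hv1, hv2⟩ := exists_angle X Y hXY
  refine ⟨Real.cos ((v - u) / 2), Real.sin ((v - u) / 2), Real.cos ((v + u) / 2),
    Real.sin ((v + u) / 2), by rw [add_comm]; exact Real.sin_sq_add_cos_sq _,
    by rw [add_comm]; exact Real.sin_sq_add_cos_sq _, ?_, ?_, ?_, ?_, ?_, ?_⟩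
  · rw [Real.cos_sq, mul_div_cancel₀ _ (two_ne_zero), Real.cos_sub, hu1, hu2, hv1, hv2]
    ring
  · rw [Real.sin_sq, Real.cos_sq, mul_div_cancel₀ _ (two_ne_zero), Real.cos_add, hu1, hu2, hv1,
      hv2]
    ring
  · have h1 := Real.cos_add_cos v u
    rw [hv1, hu1] at h1
    rw [h1]
    ring
  · have h1 := Real.cos_sub_cos v u
    rw [hv1, hu1] at h1
    have h2 : s - X = -(X - s) := by ring
    rw [h2, h1]
    ring
  · have h1 := Real.sin_two_mul ((v - u) / 2)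
    rw [mul_div_cancel₀ _ (two_ne_zero), Real.sin_sub, hu1, hu2, hv1, hv2] at h1
    linarith
  · have h1 := Real.sin_two_mul ((v + u) / 2)
    rw [mul_div_cancel₀ _ (two_ne_zero), Real.sin_add, hu1, hu2, hv1, hv2] at h1
    linarith

/-- **The chord decomposition.** For all `γ, ν` and every population `q` the channel
`A_{γ,ν}` is a mixture of two channels with two Kraus operators
`diag(c₁, c₂)`, `[[0, s₂], [s₁, 0]]` that have the same output determinant on real pure states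
of population `q` as `A_{γ,ν}`. -/
theorem exists_decomp {γ ν : ℝ} (hγ : γ ∈ Set.Icc (0 : ℝ) 1) (hν : ν ∈ Set.Icc (0 : ℝ) 1)
    (q : ℝ) :
    ∃ p c1 s1 c2 s2 : Fin 2 → ℝ, (∀ i, 0 ≤ p i) ∧ ∑ i, p i = 1 ∧
      (∀ i, c1 i ^ 2 + s1 i ^ 2 = 1) ∧ (∀ i, c2 i ^ 2 + s2 i ^ 2 = 1) ∧
      ∑ i, p i * c1 i ^ 2 = 1 - γ * ν ∧ ∑ i, p i * s2 i ^ 2 = γ * (1 - ν) ∧
      ∑ i, p i * s1 i ^ 2 = γ * ν ∧ ∑ i, p i * c2 i ^ 2 = 1 - γ + γ * ν ∧
      ∑ i, p i * (c1 i * c2 i) = Real.sqrt (1 - γ) ∧ ∑ i, p i * (s1 i * s2 i) = 0 ∧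
      ∀ i, (c1 i * s1 i * (1 - q) - c2 i * s2 i * q) ^ 2 =
        γ * (1 - γ) * (q - ν) ^ 2 + γ * ν * (1 - ν) := by
  obtain ⟨hγ0, hγ1⟩ := hγ
  obtain ⟨hν0, hν1⟩ := hν
  set s : ℝ := Real.sqrt (1 - γ) with hs
  set k : ℝ := Real.sqrt γ with hk
  have hs2 : s ^ 2 = 1 - γ := Real.sq_sqrt (by linarith)
  have hk2 : k ^ 2 = γ := Real.sq_sqrt hγ0
  have hsk : s ^ 2 + k ^ 2 = 1 := by rw [hs2, hk2]; ring
  have hdisc : s ^ 2 + (k * (1 - 2 * ν)) ^ 2 ≤ 1 := by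
    rw [mul_pow, hs2, hk2]
    nlinarith [mul_nonneg hγ0 (mul_nonneg hν0 (sub_nonneg.2 hν1))]
  obtain ⟨p, X0, Y0, X1, Y1, hp0, hp1, hc0, hc1, hX, hY, hL0, hL1⟩ :=
    exists_chord s (k * (1 - 2 * ν)) (s * (1 - 2 * q)) k hdisc
  obtain ⟨a1, b1, a2, b2, e1, e2, e3, e4, e5, e6, e7, e8⟩ := exists_coeffs hsk hc0
  obtain ⟨a1', b1', a2', b2', f1, f2, f3, f4, f5, f6, f7, f8⟩ := exists_coeffs hsk hc1
  have e9 : b1 ^ 2 = (1 - X0 * s - Y0 * k) / 2 := by linarith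
  have e10 : a2 ^ 2 = (1 + X0 * s - Y0 * k) / 2 := by linarith
  have f9 : b1' ^ 2 = (1 - X1 * s - Y1 * k) / 2 := by linarith
  have f10 : a2' ^ 2 = (1 + X1 * s - Y1 * k) / 2 := by linarith
  refine ⟨![1 - p, p], ![a1, a1'], ![b1, b1'], ![a2, a2'], ![b2, b2'], ?_, ?_, ?_, ?_, ?_, ?_, ?_,
    ?_, ?_, ?_, ?_⟩
  · intro i
    fin_cases i
    · simpa using hp1
    · simpa using hp0
  · simp [Fin.sum_univ_two]
  · intro i
    fin_cases i
    · simpa using e1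
    · simpa using f1
  · intro i
    fin_cases i
    · simpa using e2
    · simpa using f2
  · simp only [Fin.sum_univ_two, Matrix.cons_val_zero, Matrix.cons_val_one]
    rw [e3, f3]
    linear_combination (s / 2) * hX + (k / 2) * hY + (1 / 2) * hs2 + ((1 - 2 * ν) / 2) * hk2
  · simp only [Fin.sum_univ_two, Matrix.cons_val_zero, Matrix.cons_val_one]
    rw [e4, f4]
    linear_combination (-s / 2) * hX + (k / 2) * hY - (1 / 2) * hs2 + ((1 - 2 * ν) / 2) * hk2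
  · simp only [Fin.sum_univ_two, Matrix.cons_val_zero, Matrix.cons_val_one]
    rw [e9, f9]
    linear_combination (-s / 2) * hX - (k / 2) * hY - (1 / 2) * hs2 - ((1 - 2 * ν) / 2) * hk2
  · simp only [Fin.sum_univ_two, Matrix.cons_val_zero, Matrix.cons_val_one]
    rw [e10, f10]
    linear_combination (s / 2) * hX - (k / 2) * hY + (1 / 2) * hs2 - ((1 - 2 * ν) / 2) * hk2
  · simp only [Fin.sum_univ_two, Matrix.cons_val_zero, Matrix.cons_val_one]
    rw [e5, f5]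
    linear_combination (1 / 2) * hX
  · simp only [Fin.sum_univ_two, Matrix.cons_val_zero, Matrix.cons_val_one]
    rw [e6, f6]
    linear_combination (-1 / 2) * hX
  · have main : ∀ X Y : ℝ, X ^ 2 + Y ^ 2 = 1 →
        s * (1 - 2 * q) * X + k * Y = s * (1 - 2 * q) * s + k * (k * (1 - 2 * ν)) →
        ((Y * s - X * k) / 2 * (1 - q) - (Y * s + X * k) / 2 * q) ^ 2 =
        γ * (1 - γ) * (q - ν) ^ 2 + γ * ν * (1 - ν) := by
      intro X Y hXY hL
      have h1 : ((Y * s - X * k) / 2 * (1 - q) - (Y * s + X * k) / 2 * q) ^ 2 =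
          ((s ^ 2 * (1 - 2 * q) ^ 2 + k ^ 2) * (X ^ 2 + Y ^ 2) -
            (s * (1 - 2 * q) * X + k * Y) ^ 2) / 4 := by ring
      have h2 : s * (1 - 2 * q) * s + k * (k * (1 - 2 * ν)) =
          s ^ 2 * (1 - 2 * q) + k ^ 2 * (1 - 2 * ν) := by ring
      rw [h1, hXY, hL, h2, hs2, hk2]
      ring
    intro i
    fin_cases i
    · simp only [Fin.zero_eta, Matrix.cons_val_zero]
      rw [e7, e8]
      exact main X0 Y0 hc0 hL0
    · simp only [Fin.mk_one, Matrix.cons_val_one, Matrix.cons_val_fin_one]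
      rw [f7, f8]
      exact main X1 Y1 hc1 hL1

end Vale.Agent.P358
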