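import Vale.Agent.Lib.P358.Defs

/-!
# P358, module Compare: entropy comparison from pointwise comparison of `∏ (1 + s x_i)`
-/

namespace Vale.Agent.P358

open Filter Topology

/-- An interpolation between `0` (at `s = 0`) and `-x log x` (at `s = ∞`). -/
noncomputable def cmpPhi (x s : ℝ) : ℝ :=
  (x * Real.log (1 + s) - Real.log (1 + s * x)) / s + x * (Real.log (1 + s) - Real.log (1 + s * x))

lemma hasDerivAt_log_lin (x s : ℝ) (h : 0 < 1 + s * x) :
    HasDerivAt (fun s => Real.log (1 + s * x)) (x / (1 + s * x)) s := by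
  have h1 : HasDerivAt (fun s : ℝ => 1 + s * x) x s := by
    simpa using (((hasDerivAt_id s).mul_const x).const_add 1)
  exact h1.log h.ne'

lemma hasDerivAt_log_one (s : ℝ) (h : 0 < 1 + s) :
    HasDerivAt (fun s => Real.log (1 + s)) (1 / (1 + s)) s := by
  have h1 : HasDerivAt (fun s : ℝ => 1 + s) 1 s := (hasDerivAt_id s).const_add 1
  exact h1.log h.ne'

lemma hasDerivAt_cmpPhi {x s : ℝ} (hx : 0 ≤ x) (hs : 0 < s) :
    HasDerivAt (cmpPhi x) ((Real.log (1 + s * x) - x * Real.log (1 + s)) / s ^ 2) s := by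
  have hp1 : 0 < 1 + s := by linarith
  have hp2 : 0 < 1 + s * x := by positivity
  have h1 := hasDerivAt_log_one s hp1
  have h2 := hasDerivAt_log_lin x s hp2
  have h3 := ((h1.const_mul x).sub h2).div (hasDerivAt_id s) hs.ne'
  have h4 := (h1.sub h2).const_mul x
  have h5 := h3.add h4
  unfold cmpPhi
  refine h5.congr_deriv ?_
  simp only [id, Pi.sub_apply]
  field_simp
  ring

lemma tendsto_cmpPhi_zero (x : ℝ) : Tendsto (cmpPhi x) (𝓝[>] 0) (𝓝 0) := by
  have h1 : HasDerivAt (fun s : ℝ => x * Real.log (1 + s) - Real.log (1 + s * x)) 0 0 := by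
    have h1 := hasDerivAt_log_one 0 (by norm_num)
    have h2 := hasDerivAt_log_lin x 0 (by norm_num)
    refine ((h1.const_mul x).sub h2).congr_deriv ?_
    simp
  have h2 := hasDerivAt_iff_tendsto_slope_zero.mp h1
  have h3 : Tendsto (fun s : ℝ => (x * Real.log (1 + s) - Real.log (1 + s * x)) / s) (𝓝[>] 0)
      (𝓝 0) := by
    have h4 := h2.mono_left (nhdsWithin_mono (0 : ℝ) (fun s (hs : s ∈ Set.Ioi 0) =>
      (ne_of_gt hs : s ≠ 0)))
    refine h4.congr' ?_
    filter_upwards with s
    simp [div_eq_inv_mul]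
  have h4 : Tendsto (fun s : ℝ => x * (Real.log (1 + s) - Real.log (1 + s * x))) (𝓝[>] 0)
      (𝓝 0) := by
    have hc : ContinuousAt (fun s : ℝ => x * (Real.log (1 + s) - Real.log (1 + s * x))) 0 := by
      have c1 := (hasDerivAt_log_one 0 (by norm_num)).continuousAt
      have c2 := (hasDerivAt_log_lin x 0 (by norm_num)).continuousAt
      exact continuousAt_const.mul (c1.sub c2)
    have := hc.tendsto.mono_left (nhdsWithin_le_nhds (s := Set.Ioi (0 : ℝ)))
    simpa using this
  have h5 := h3.add h4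
  rw [add_zero] at h5
  exact h5

lemma tendsto_log_lin_div (x : ℝ) (hx : 0 ≤ x) :
    Tendsto (fun s : ℝ => Real.log (1 + s * x) / s) atTop (𝓝 0) := by
  rcases hx.eq_or_lt with rfl | hx
  · simp
  · have hlin : Tendsto (fun s : ℝ => 1 + s * x) atTop atTop :=
      tendsto_atTop_add_const_left _ _ (tendsto_id.atTop_mul_const hx)
    have h1 : Tendsto (fun u : ℝ => Real.log u / u) atTop (𝓝 0) := by
      have := Real.isLittleO_log_id_atTop.tendsto_div_nhds_zero
      simpa using this
    have h2 := h1.comp hlin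
    have h3 : Tendsto (fun s : ℝ => (1 + s * x) / s) atTop (𝓝 x) := by
      have h4 : Tendsto (fun s : ℝ => s⁻¹ + x) atTop (𝓝 (0 + x)) :=
        tendsto_inv_atTop_zero.add tendsto_const_nhds
      rw [zero_add] at h4
      refine h4.congr' ?_
      filter_upwards [eventually_gt_atTop 0] with s hs
      field_simp
    have h5 := h2.mul h3
    rw [zero_mul] at h5
    refine h5.congr' ?_
    filter_upwards [eventually_gt_atTop 0] with s hs
    have hp : 0 < 1 + s * x := by positivity
    simp only [Function.comp]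
    field_simp

lemma tendsto_cmpPhi_atTop {x : ℝ} (hx : 0 ≤ x) :
    Tendsto (cmpPhi x) atTop (𝓝 (Real.negMulLog x)) := by
  have h1 : Tendsto (fun s : ℝ => (x * Real.log (1 + s) - Real.log (1 + s * x)) / s) atTop
      (𝓝 0) := by
    have h2 := tendsto_log_lin_div 1 zero_le_one
    have h3 := tendsto_log_lin_div x hx
    have h4 := (h2.const_mul x).sub h3
    rw [mul_zero, sub_zero] at h4
    refine h4.congr fun s => ?_
    rw [mul_one]; ring
  have h2 : Tendsto (fun s : ℝ => x * (Real.log (1 + s) - Real.log (1 + s * x))) atTop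
      (𝓝 (Real.negMulLog x)) := by
    rcases hx.eq_or_lt with rfl | hx
    · simp
    · have h3 : Tendsto (fun s : ℝ => (1 + s) / (1 + s * x)) atTop (𝓝 (1 / x)) := by
        have h4 : Tendsto (fun s : ℝ => (s⁻¹ + 1) / (s⁻¹ + x)) atTop (𝓝 ((0 + 1) / (0 + x))) :=
          (tendsto_inv_atTop_zero.add tendsto_const_nhds).div
            (tendsto_inv_atTop_zero.add tendsto_const_nhds) (by rw [zero_add]; exact hx.ne')
        rw [zero_add, zero_add] at h4
        refine h4.congr' ?_
        filter_upwards [eventually_gt_atTop 0] with s hs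
        have hp : 0 < 1 + s * x := by positivity
        have hp2 : 0 < s⁻¹ + x := by positivity
        field_simp
      have h5 : Tendsto (fun s : ℝ => Real.log ((1 + s) / (1 + s * x))) atTop
          (𝓝 (Real.log (1 / x))) :=
        (Real.continuousAt_log (by positivity)).tendsto.comp h3
      have h6 := h5.const_mul x
      have h7 : x * Real.log (1 / x) = Real.negMulLog x := by
        rw [Real.negMulLog, one_div, Real.log_inv]; ring
      rw [h7] at h6
      refine h6.congr' ?_
      filter_upwards [eventually_gt_atTop 0] with s hs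
      have hp : 0 < 1 + s * x := by positivity
      have hp1 : 0 < 1 + s := by positivity
      rw [Real.log_div hp1.ne' hp.ne']
  have h3 := h1.add h2
  rw [zero_add] at h3
  exact h3

/-- If two finite families of nonnegative reals have the same sum and
`∏ (1 + s y_j) ≤ ∏ (1 + s x_i)` for all `s > 0`, then `∑ η(y_j) ≤ ∑ η(x_i)`. -/
theorem sum_negMulLog_le_of_prod_le {α β : Type*} [Fintype α] [Fintype β] (x : α → ℝ) (y : β → ℝ)
    (hx : ∀ i, 0 ≤ x i) (hy : ∀ j, 0 ≤ y j) (hsum : ∑ i, x i = ∑ j, y j)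
    (h : ∀ s : ℝ, 0 < s → ∏ j, (1 + s * y j) ≤ ∏ i, (1 + s * x i)) :
    ∑ j, Real.negMulLog (y j) ≤ ∑ i, Real.negMulLog (x i) := by
  set G : ℝ → ℝ := fun s => ∑ i, cmpPhi (x i) s - ∑ j, cmpPhi (y j) s with hG
  have hder : ∀ s : ℝ, 0 < s → HasDerivAt G
      ((∑ i, Real.log (1 + s * x i) - ∑ j, Real.log (1 + s * y j)) / s ^ 2) s := by
    intro s hs
    have h1 : HasDerivAt (fun s => ∑ i, cmpPhi (x i) s)
        (∑ i, (Real.log (1 + s * x i) - x i * Real.log (1 + s)) / s ^ 2) s :=
      HasDerivAt.fun_sum fun i _ => hasDerivAt_cmpPhi (hx i) hs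
    have h2 : HasDerivAt (fun s => ∑ j, cmpPhi (y j) s)
        (∑ j, (Real.log (1 + s * y j) - y j * Real.log (1 + s)) / s ^ 2) s :=
      HasDerivAt.fun_sum fun j _ => hasDerivAt_cmpPhi (hy j) hs
    refine (h1.sub h2).congr_deriv ?_
    rw [← Finset.sum_div, ← Finset.sum_div, Finset.sum_sub_distrib, Finset.sum_sub_distrib,
      ← Finset.sum_mul, ← Finset.sum_mul, hsum]
    ring
  have hnonneg : ∀ s : ℝ, 0 < s →
      0 ≤ (∑ i, Real.log (1 + s * x i) - ∑ j, Real.log (1 + s * y j)) / s ^ 2 := by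
    intro s hs
    have hpx : ∀ i, 0 < 1 + s * x i := fun i => by have := hx i; positivity
    have hpy : ∀ j, 0 < 1 + s * y j := fun j => by have := hy j; positivity
    rw [← Real.log_prod fun i _ => (hpx i).ne', ← Real.log_prod fun j _ => (hpy j).ne']
    have h1 : Real.log (∏ j, (1 + s * y j)) ≤ Real.log (∏ i, (1 + s * x i)) :=
      Real.log_le_log (Finset.prod_pos fun j _ => hpy j) (h s hs)
    have h2 : 0 ≤ Real.log (∏ i, (1 + s * x i)) - Real.log (∏ j, (1 + s * y j)) := by linarith
    positivity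
  have hmono : MonotoneOn G (Set.Ioi 0) := by
    apply monotoneOn_of_deriv_nonneg (convex_Ioi 0)
    · intro s hs
      exact (hder s hs).continuousAt.continuousWithinAt
    · intro s hs
      rw [interior_Ioi] at hs
      exact (hder s hs).differentiableAt.differentiableWithinAt
    · intro s hs
      rw [interior_Ioi] at hs
      rw [(hder s hs).deriv]
      exact hnonneg s hs
  have hzero : Tendsto G (𝓝[>] 0) (𝓝 0) := by
    have h1 : Tendsto (fun s => ∑ i, cmpPhi (x i) s) (𝓝[>] 0) (𝓝 (∑ _i : α, 0)) :=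
      tendsto_finsetSum _ fun i _ => tendsto_cmpPhi_zero (x i)
    have h2 : Tendsto (fun s => ∑ j, cmpPhi (y j) s) (𝓝[>] 0) (𝓝 (∑ _j : β, 0)) :=
      tendsto_finsetSum _ fun j _ => tendsto_cmpPhi_zero (y j)
    have h3 := h1.sub h2
    simpa [hG] using h3
  have htop : Tendsto G atTop (𝓝 (∑ i, Real.negMulLog (x i) - ∑ j, Real.negMulLog (y j))) :=
    (tendsto_finsetSum _ fun i _ => tendsto_cmpPhi_atTop (hx i)).sub
      (tendsto_finsetSum _ fun j _ => tendsto_cmpPhi_atTop (hy j))
  have hpos : ∀ t : ℝ, 0 < t → 0 ≤ G t := by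
    intro t ht
    refine le_of_tendsto hzero ?_
    filter_upwards [Ioo_mem_nhdsGT ht] with s hs
    exact hmono hs.1 ht hs.2.le
  have hfin : 0 ≤ ∑ i, Real.negMulLog (x i) - ∑ j, Real.negMulLog (y j) := by
    refine ge_of_tendsto htop ?_
    filter_upwards [eventually_gt_atTop 0] with t ht
    exact hpos t ht
  linarith

end Vale.Agent.P358
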