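import Mathlib

/-!
# P358: definitions for the classical capacity of the generalized amplitude-damping channel

`gad`, `tensorPow`, `entropy`, `IsState`, `holevoSet`, `holevo`, `capacity` are used in the final
statements. `entU` (entropy in nats of a not necessarily normalised matrix), `gadBlock`, `E2`,
`fq`, `pop`, `OneStep` are used in the proofs.
-/

namespace Vale.Agent.P358

open Matrix
open scoped ComplexOrder

/-- The generalized amplitude-damping channel `A_{γ,ν}`, as a map of `2 × 2` complex matrices. -/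
noncomputable def gad (γ ν : ℝ) (ρ : Matrix (Fin 2) (Fin 2) ℂ) : Matrix (Fin 2) (Fin 2) ℂ :=
  !![(ρ 0 0 + ρ 1 1) - (((1 - γ : ℝ) : ℂ) * ρ 1 1 + ((γ * ν : ℝ) : ℂ) * (ρ 0 0 + ρ 1 1)),
      ((Real.sqrt (1 - γ) : ℝ) : ℂ) * ρ 0 1;
    ((Real.sqrt (1 - γ) : ℝ) : ℂ) * ρ 1 0,
      ((1 - γ : ℝ) : ℂ) * ρ 1 1 + ((γ * ν : ℝ) : ℂ) * (ρ 0 0 + ρ 1 1)]

/-- The `n`-fold tensor power of a (linear) map `N` of `2 × 2` matrices, acting on matrices indexed
by bit strings: it is given by its values on products of matrix units, extended linearly. -/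
noncomputable def tensorPow (N : Matrix (Fin 2) (Fin 2) ℂ → Matrix (Fin 2) (Fin 2) ℂ) (n : ℕ)
    (ρ : Matrix (Fin n → Fin 2) (Fin n → Fin 2) ℂ) : Matrix (Fin n → Fin 2) (Fin n → Fin 2) ℂ :=
  fun x y => ∑ u, ∑ v, (∏ i, N (Matrix.single (u i) (v i) 1) (x i) (y i)) * ρ u v

/-- A quantum state: a positive semidefinite matrix of trace one. -/
def IsState {ι : Type} [Fintype ι] (ρ : Matrix ι ι ℂ) : Prop :=
  ρ.PosSemidef ∧ ρ.trace = 1

/-- Von Neumann entropy in bits: `-∑ λ log₂ λ` over the eigenvalues (junk value `0` for a matrix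
that is not Hermitian). -/
noncomputable def entropy {ι : Type} [Fintype ι] [DecidableEq ι] (ρ : Matrix ι ι ℂ) : ℝ :=
  if h : ρ.IsHermitian then -∑ i, h.eigenvalues i * Real.logb 2 (h.eigenvalues i) else 0

/-- The set of values of the Holevo quantity of a map `Φ` over all finite ensembles of input
states. -/
def holevoSet {ι : Type} [Fintype ι] [DecidableEq ι] (Φ : Matrix ι ι ℂ → Matrix ι ι ℂ) : Set ℝ :=
  {v | ∃ (k : ℕ) (p : Fin k → ℝ) (ρ : Fin k → Matrix ι ι ℂ),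
    (∀ a, 0 ≤ p a) ∧ ∑ a, p a = 1 ∧ (∀ a, IsState (ρ a)) ∧
    v = entropy (∑ a, (p a : ℂ) • Φ (ρ a)) - ∑ a, p a * entropy (Φ (ρ a))}

/-- The Holevo capacity `χ(Φ)`. -/
noncomputable def holevo {ι : Type} [Fintype ι] [DecidableEq ι]
    (Φ : Matrix ι ι ℂ → Matrix ι ι ℂ) : ℝ := sSup (holevoSet Φ)

/-- The unassisted classical capacity `C(N) = sup_{n ≥ 1} χ(N^{⊗n}) / n` of a qubit channel. -/
noncomputable def capacity (N : Matrix (Fin 2) (Fin 2) ℂ → Matrix (Fin 2) (Fin 2) ℂ) : ℝ :=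
  ⨆ n : ℕ, holevo (tensorPow N (n + 1)) / ((n : ℝ) + 1)

/-! ### Auxiliary definitions for the proofs -/

/-- Unnormalised von Neumann entropy in nats. -/
noncomputable def entU {ι : Type*} [Fintype ι] [DecidableEq ι] (A : Matrix ι ι ℂ) : ℝ :=
  if h : A.IsHermitian then ∑ i, Real.negMulLog (h.eigenvalues i) else 0

/-- The action of `A_{γ,ν} ⊗ id` on a `2 × 2` block matrix. -/
noncomputable def gadBlock {ι : Type*} (γ ν : ℝ) (X Y Y' Z : Matrix ι ι ℂ) :
    Matrix (ι ⊕ ι) (ι ⊕ ι) ℂ :=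
  fromBlocks (((1 - γ * ν : ℝ) : ℂ) • X + ((γ * (1 - ν) : ℝ) : ℂ) • Z)
    (((Real.sqrt (1 - γ) : ℝ) : ℂ) • Y) (((Real.sqrt (1 - γ) : ℝ) : ℂ) • Y')
    (((γ * ν : ℝ) : ℂ) • X + ((1 - γ + γ * ν : ℝ) : ℂ) • Z)

/-- Entropy (nats) of a qubit state of determinant `δ`. -/
noncomputable def E2 (δ : ℝ) : ℝ := Real.binEntropy ((1 - Real.sqrt (1 - 4 * δ)) / 2)

/-- Output entropy (nats) of `A_{γ,ν}` on a pure state of population `q`. -/
noncomputable def fq (γ ν q : ℝ) : ℝ :=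
  E2 (γ * (1 - γ) * (q - ν) ^ 2 + γ * ν * (1 - ν))

/-- The population of the `i`-th qubit. -/
noncomputable def pop {n : ℕ} (ρ : Matrix (Fin n → Fin 2) (Fin n → Fin 2) ℂ) (i : Fin n) : ℝ :=
  ∑ x, if x i = 1 then (ρ x x).re else 0

/-- The one-step entropy inequality for `A_{γ,ν} ⊗ id`. -/
def OneStep (γ ν : ℝ) : Prop :=
  ∀ (n : ℕ) (X Y Z : Matrix (Fin n → Fin 2) (Fin n → Fin 2) ℂ),
    (fromBlocks X Y Yᴴ Z).PosSemidef → X.trace + Z.trace = 1 →
    fq γ ν Z.trace.re + (entU X - Real.negMulLog X.trace.re) +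
      (entU Z - Real.negMulLog Z.trace.re) ≤ entU (gadBlock γ ν X Y Yᴴ Z)

/-- Output population of `A_{γ,ν}` on an input state with population `q`. -/
noncomputable def tq (γ ν q : ℝ) : ℝ := (1 - γ) * q + γ * ν

/-- The value (nats) that the two-state ensemble with population `q` attains. -/
noncomputable def gq (γ ν q : ℝ) : ℝ := Real.binEntropy (tq γ ν q) - fq γ ν q

end Vale.Agent.P358
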