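import Vale.Agent.Lib.P358.Defs

/-!
# P358, module DefsG: the one-step inequality with a general (rank-one) measurement
-/

namespace Vale.Agent.P358

open Matrix
open scoped ComplexOrder

/-- The unnormalised conditional state of the reference system when the qubit is projected on the
vector with (conjugate) coefficients `a, b`: this is `L Lᴴ` for `L = a x + b y` if
`X = x xᴴ`, `Y = x yᴴ`, `Z = y yᴴ`. -/
noncomputable def povmBlock {ι : Type*} (a b : ℂ) (X Y Z : Matrix ι ι ℂ) : Matrix ι ι ℂ :=
  (a * star a) • X + (a * star b) • Y + (b * star a) • Yᴴ + (b * star b) • Z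

/-- The one-step entropy inequality for `A_{γ,ν} ⊗ id`, with a measurement of the qubit that may
depend on the state. -/
def OneStepG (γ ν : ℝ) : Prop :=
  ∀ (n : ℕ) (X Y Z : Matrix (Fin n → Fin 2) (Fin n → Fin 2) ℂ),
    (fromBlocks X Y Yᴴ Z).PosSemidef → X.trace + Z.trace = 1 →
    ∃ a b : Fin 2 × Fin 3 → ℂ, ∑ k, a k * star (a k) = 1 ∧ ∑ k, b k * star (b k) = 1 ∧
      ∑ k, a k * star (b k) = 0 ∧
      fq γ ν Z.trace.re + ∑ k, (entU (povmBlock (a k) (b k) X Y Z) -
        Real.negMulLog (povmBlock (a k) (b k) X Y Z).trace.re) ≤ entU (gadBlock γ ν X Y Yᴴ Z)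

end Vale.Agent.P358
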