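import Vale.Agent.Lib.P358.Defs

/-!
# P358, module Ent: basic facts on the unnormalised entropy `entU`
-/

namespace Vale.Agent.P358

open Matrix
open scoped ComplexOrder

variable {ι κ : Type*} [Fintype ι] [DecidableEq ι] [Fintype κ] [DecidableEq κ]

/-- the spectral theorem, in matrix form. -/
theorem spectral_form {A : Matrix ι ι ℂ} (hA : A.IsHermitian) :
    A = (hA.eigenvectorUnitary : Matrix ι ι ℂ) *
      diagonal (fun i => ((hA.eigenvalues i : ℝ) : ℂ)) *
      (hA.eigenvectorUnitary : Matrix ι ι ℂ)ᴴ := by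
  conv_lhs => rw [hA.spectral_theorem, Unitary.conjStarAlgAut_apply]
  rfl

/-- `det (1 + s A)` through the eigenvalues. -/
theorem det_one_add_smul {A : Matrix ι ι ℂ} (hA : A.IsHermitian) (s : ℝ) :
    (1 + (s : ℂ) • A).det = ((∏ i, (1 + s * hA.eigenvalues i) : ℝ) : ℂ) := by
  set U : Matrix ι ι ℂ := (hA.eigenvectorUnitary : Matrix ι ι ℂ) with hU
  have hUU : U * Uᴴ = 1 := Matrix.mem_unitaryGroup_iff.1 hA.eigenvectorUnitary.2
  have h1 : 1 + (s : ℂ) • A =
      U * diagonal (fun i => ((1 + s * hA.eigenvalues i : ℝ) : ℂ)) * Uᴴ := by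
    have hd : diagonal (fun i => ((1 + s * hA.eigenvalues i : ℝ) : ℂ)) =
        1 + (s : ℂ) • diagonal (fun i => ((hA.eigenvalues i : ℝ) : ℂ)) := by
      ext i j
      by_cases h : i = j
      · subst h; simp
      · simp [h]
    rw [hd, mul_add, add_mul, mul_one, hUU, mul_smul_comm, smul_mul_assoc, hU,
      ← spectral_form hA]
  rw [h1, det_mul, det_mul, mul_comm (det U), mul_assoc, ← det_mul, hUU, det_one, mul_one,
    det_diagonal]
  push_cast
  rfl

theorem entU_eq_roots {A : Matrix ι ι ℂ} (hA : A.IsHermitian) :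
    entU A = (A.charpoly.roots.map (fun z => Real.negMulLog z.re)).sum := by
  rw [hA.roots_charpoly_eq_eigenvalues, Multiset.map_map, entU, dif_pos hA]
  simp only [Function.comp_def]
  rfl

/-- The entropy depends only on the characteristic polynomial. -/
theorem entU_eq_of_charpoly_eq {A B : Matrix ι ι ℂ} (hA : A.IsHermitian) (hB : B.IsHermitian)
    (h : A.charpoly = B.charpoly) : entU A = entU B := by
  rw [entU_eq_roots hA, entU_eq_roots hB, h]

theorem entU_conj {A : Matrix ι ι ℂ} (hA : A.IsHermitian) {U : Matrix ι ι ℂ}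
    (hU : U ∈ Matrix.unitaryGroup ι ℂ) : entU (U * A * Uᴴ) = entU A := by
  refine entU_eq_of_charpoly_eq (isHermitian_mul_mul_conjTranspose U hA) hA ?_
  have h : Uᴴ * U = 1 := Matrix.mem_unitaryGroup_iff'.1 hU
  rw [charpoly_mul_comm, ← mul_assoc, h, one_mul]

theorem entU_submatrix_equiv (A : Matrix ι ι ℂ) (e : κ ≃ ι) : entU (A.submatrix e e) = entU A := by
  by_cases hA : A.IsHermitian
  · have hB : (A.submatrix e e).IsHermitian := hA.submatrix e
    rw [entU_eq_roots hA, entU_eq_roots hB]
    have h : (A.submatrix e e).charpoly = A.charpoly := by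
      have := charpoly_reindex e.symm A
      simpa [reindex_apply] using this
    rw [h]
  · have hB : ¬ (A.submatrix e e).IsHermitian := by
      intro h
      apply hA
      have := h.submatrix e.symm
      simpa using this
    rw [entU, entU, dif_neg hA, dif_neg hB]

theorem entU_fromBlocks_diag {A : Matrix ι ι ℂ} {B : Matrix κ κ ℂ} (hA : A.IsHermitian)
    (hB : B.IsHermitian) : entU (fromBlocks A 0 0 B) = entU A + entU B := by
  have hC : (fromBlocks A 0 0 B).IsHermitian :=
    IsHermitian.fromBlocks hA (by simp) hB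
  rw [entU_eq_roots hA, entU_eq_roots hB, entU_eq_roots hC, charpoly_fromBlocks_zero₁₂,
    Polynomial.roots_mul (mul_ne_zero (charpoly_monic A).ne_zero (charpoly_monic B).ne_zero),
    Multiset.map_add, Multiset.sum_add]

omit [Fintype ι] in
theorem isHermitian_diagonal_real (d : ι → ℝ) :
    (diagonal (fun i => (d i : ℂ))).IsHermitian := by
  rw [isHermitian_diagonal_iff]
  intro i
  simp [IsSelfAdjoint]

theorem entU_diagonal (d : ι → ℝ) :
    entU (diagonal (fun i => (d i : ℂ))) = ∑ i, Real.negMulLog (d i) := by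
  rw [entU_eq_roots (isHermitian_diagonal_real d), charpoly_diagonal, Polynomial.roots_prod]
  · simp
  · simp [Finset.prod_ne_zero_iff, Polynomial.X_sub_C_ne_zero]

theorem entU_smul {A : Matrix ι ι ℂ} (hA : A.IsHermitian) (c : ℝ) :
    entU ((c : ℂ) • A) = c * entU A + Real.negMulLog c * A.trace.re := by
  set U : Matrix ι ι ℂ := (hA.eigenvectorUnitary : Matrix ι ι ℂ) with hU
  have h1 : (c : ℂ) • A = U * diagonal (fun i => ((c * hA.eigenvalues i : ℝ) : ℂ)) * Uᴴ := by
    have hd : diagonal (fun i => ((c * hA.eigenvalues i : ℝ) : ℂ)) =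
        (c : ℂ) • diagonal (fun i => ((hA.eigenvalues i : ℝ) : ℂ)) := by
      ext i j
      by_cases h : i = j
      · subst h; simp
      · simp [h]
    rw [hd, mul_smul_comm, smul_mul_assoc, hU, ← spectral_form hA]
  rw [h1, entU_conj (isHermitian_diagonal_real _) hA.eigenvectorUnitary.2, entU_diagonal,
    hA.trace_eq_sum_eigenvalues, entU, dif_pos hA]
  simp only [Real.negMulLog_mul, Finset.sum_add_distrib]
  rw [← Finset.sum_mul, ← Finset.mul_sum]
  simp
  ring

/-- The entropy is at most that of the diagonal. -/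
theorem entU_le_diag {A : Matrix ι ι ℂ} (hA : A.PosSemidef) :
    entU A ≤ ∑ i, Real.negMulLog (A i i).re := by
  have hH := hA.isHermitian
  set U : Matrix ι ι ℂ := (hH.eigenvectorUnitary : Matrix ι ι ℂ) with hU
  have hUU : U * Uᴴ = 1 := Matrix.mem_unitaryGroup_iff.1 hH.eigenvectorUnitary.2
  have hUU' : Uᴴ * U = 1 := Matrix.mem_unitaryGroup_iff'.1 hH.eigenvectorUnitary.2
  have hrow : ∀ i, ∑ k, Complex.normSq (U i k) = 1 := by
    intro i
    have := congrFun (congrFun hUU i) i
    simp only [mul_apply, conjTranspose_apply, one_apply_eq] at this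
    have h2 : ((∑ k, Complex.normSq (U i k) : ℝ) : ℂ) = 1 := by
      rw [← this]; push_cast
      exact Finset.sum_congr rfl fun k _ => by rw [RCLike.star_def, Complex.mul_conj]
    exact_mod_cast h2
  have hcol : ∀ k, ∑ i, Complex.normSq (U i k) = 1 := by
    intro k
    have := congrFun (congrFun hUU' k) k
    simp only [mul_apply, conjTranspose_apply, one_apply_eq] at this
    have h2 : ((∑ i, Complex.normSq (U i k) : ℝ) : ℂ) = 1 := by
      rw [← this]; push_cast
      exact Finset.sum_congr rfl fun i _ => by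
        rw [RCLike.star_def, mul_comm, Complex.mul_conj]
    exact_mod_cast h2
  have hdiag : ∀ i, (A i i).re = ∑ k, Complex.normSq (U i k) * hH.eigenvalues k := by
    intro i
    have h1 : A i i = ∑ k, ((Complex.normSq (U i k) * hH.eigenvalues k : ℝ) : ℂ) := by
      conv_lhs => rw [spectral_form hH]
      rw [mul_apply]
      refine Finset.sum_congr rfl fun k _ => ?_
      rw [mul_diagonal, conjTranspose_apply, RCLike.star_def]
      push_cast
      rw [← Complex.mul_conj]
      ring
    rw [h1]
    simp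
  rw [entU, dif_pos hH]
  calc ∑ k, Real.negMulLog (hH.eigenvalues k) =
      ∑ k, (∑ i, Complex.normSq (U i k)) * Real.negMulLog (hH.eigenvalues k) := by
        simp [hcol]
    _ = ∑ i, ∑ k, Complex.normSq (U i k) * Real.negMulLog (hH.eigenvalues k) := by
        rw [Finset.sum_comm]
        exact Finset.sum_congr rfl fun k _ => by rw [Finset.sum_mul]
    _ ≤ ∑ i, Real.negMulLog (A i i).re := by
        refine Finset.sum_le_sum fun i _ => ?_
        rw [hdiag i]
        have h := Real.concaveOn_negMulLog.le_map_sum (t := Finset.univ)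
          (w := fun k => Complex.normSq (U i k)) (p := fun k => hH.eigenvalues k)
          (fun k _ => Complex.normSq_nonneg _) (hrow i)
          (fun k _ => hA.eigenvalues_nonneg k)
        simpa using h

/-- Qubit entropy through the determinant. -/
theorem entU_two {A : Matrix (Fin 2) (Fin 2) ℂ} (hA : A.PosSemidef) (htr : A.trace = 1) :
    entU A = E2 A.det.re := by
  have hH := hA.isHermitian
  have h1 := hH.trace_eq_sum_eigenvalues
  have h2 := hH.det_eq_prod_eigenvalues
  rw [htr, Fin.sum_univ_two] at h1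
  rw [Fin.prod_univ_two] at h2
  set a := hH.eigenvalues 0 with ha
  set b := hH.eigenvalues 1 with hb
  have hab : a + b = 1 := by
    have : ((a + b : ℝ) : ℂ) = 1 := by push_cast; exact h1.symm
    exact_mod_cast this
  have hdet : A.det.re = a * b := by
    rw [h2]
    simp
  rw [entU, dif_pos hH, Fin.sum_univ_two, ← ha, ← hb, hdet, E2]
  have hb' : b = 1 - a := by linarith
  have hs : 1 - 4 * (a * b) = (1 - 2 * a) ^ 2 := by rw [hb']; ring
  rw [hs, Real.sqrt_sq_eq_abs, Real.binEntropy_eq_negMulLog_add_negMulLog_one_sub, hb']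
  rcases abs_cases (1 - 2 * a) with ⟨h, _⟩ | ⟨h, _⟩ <;> rw [h]
  · have e1 : (1 - (1 - 2 * a)) / 2 = a := by ring
    rw [e1]
  · have e1 : (1 - -(1 - 2 * a)) / 2 = 1 - a := by ring
    rw [e1]
    have e2 : 1 - (1 - a) = a := by ring
    rw [e2, add_comm]

/-- `entropy` is `entU` in bits. -/
theorem entropy_eq {α : Type} [Fintype α] [DecidableEq α] (A : Matrix α α ℂ) :
    entropy A = entU A / Real.log 2 := by
  unfold entropy entU
  split_ifs with h
  · rw [← Finset.sum_neg_distrib, Finset.sum_div]
    refine Finset.sum_congr rfl fun i _ => ?_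
    rw [Real.negMulLog, Real.logb]
    ring
  · simp

end Vale.Agent.P358
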