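import Vale.Agent.Lib.P358.Ent

/-!
# P358, module EntConc: superadditivity of `A ↦ entU A - η(tr A)` (concavity of the entropy)
-/

namespace Vale.Agent.P358

open Matrix
open scoped ComplexOrder

/-- Unnormalised entropy minus the entropy of the trace. -/
noncomputable def sU {ι : Type*} [Fintype ι] [DecidableEq ι] (A : Matrix ι ι ℂ) : ℝ :=
  entU A - Real.negMulLog A.trace.re

/-- The log-sum inequality. -/
theorem logsum {α : Type*} (s : Finset α) (a c : α → ℝ) (ha : ∀ i ∈ s, 0 ≤ a i)
    (hac : ∀ i ∈ s, a i ≤ c i) :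
    ∑ i ∈ s, a i * (Real.log (c i) - Real.log (a i)) ≤
      (∑ i ∈ s, a i) * (Real.log (∑ i ∈ s, c i) - Real.log (∑ i ∈ s, a i)) := by
  set A := ∑ i ∈ s, a i with hA
  set C := ∑ i ∈ s, c i with hC
  have hA0 : 0 ≤ A := Finset.sum_nonneg ha
  have hAC : A ≤ C := Finset.sum_le_sum hac
  rcases hA0.eq_or_lt with h0 | h0
  · have h1 : ∀ i ∈ s, a i = 0 := (Finset.sum_eq_zero_iff_of_nonneg ha).1 h0.symm
    rw [← h0, zero_mul]
    apply le_of_eq
    apply Finset.sum_eq_zero
    intro i hi
    rw [h1 i hi, zero_mul]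
  · have hC0 : 0 < C := lt_of_lt_of_le h0 hAC
    have key : ∀ i ∈ s, a i * (Real.log (c i) - Real.log (a i)) ≤
        a i * (Real.log C - Real.log A) + (c i * (A / C) - a i) := by
      intro i hi
      rcases (ha i hi).eq_or_lt with h1 | h1
      · rw [← h1]
        have : 0 ≤ c i * (A / C) :=
          mul_nonneg ((ha i hi).trans (hac i hi)) (div_nonneg h0.le hC0.le)
        simpa using this
      · have hci : 0 < c i := lt_of_lt_of_le h1 (hac i hi)
        have h2 : Real.log (c i * A / (a i * C)) ≤ c i * A / (a i * C) - 1 :=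
          Real.log_le_sub_one_of_pos (by positivity)
        have h3 : Real.log (c i * A / (a i * C)) =
            Real.log (c i) + Real.log A - Real.log (a i) - Real.log C := by
          rw [Real.log_div (by positivity) (by positivity), Real.log_mul hci.ne' h0.ne',
            Real.log_mul h1.ne' hC0.ne']
          ring
        rw [h3] at h2
        have h4 := mul_le_mul_of_nonneg_left h2 h1.le
        have h5 : a i * (c i * A / (a i * C) - 1) = c i * (A / C) - a i := by
          field_simp
        rw [h5] at h4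
        nlinarith [h4]
    refine (Finset.sum_le_sum key).trans (le_of_eq ?_)
    rw [Finset.sum_add_distrib, Finset.sum_sub_distrib, ← Finset.sum_mul, ← Finset.sum_mul,
      ← hA, ← hC]
    field_simp
    ring

theorem negMulLog_defect (a b : ℝ) :
    Real.negMulLog a + Real.negMulLog b - Real.negMulLog (a + b) =
      a * (Real.log (a + b) - Real.log a) + b * (Real.log (a + b) - Real.log b) := by
  simp only [Real.negMulLog]
  ring

/-- Scalar superadditivity. -/
theorem sum_defect_le {α : Type*} (s : Finset α) (a b : α → ℝ) (ha : ∀ i ∈ s, 0 ≤ a i)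
    (hb : ∀ i ∈ s, 0 ≤ b i) :
    ∑ i ∈ s, (Real.negMulLog (a i) + Real.negMulLog (b i) - Real.negMulLog (a i + b i)) ≤
      Real.negMulLog (∑ i ∈ s, a i) + Real.negMulLog (∑ i ∈ s, b i) -
        Real.negMulLog (∑ i ∈ s, a i + ∑ i ∈ s, b i) := by
  rw [negMulLog_defect]
  simp_rw [negMulLog_defect]
  rw [Finset.sum_add_distrib, ← Finset.sum_add_distrib (f := a)]
  refine add_le_add ?_ ?_
  · exact logsum s a (fun i => a i + b i) ha (fun i hi => by linarith [hb i hi])
  · exact logsum s b (fun i => a i + b i) hb (fun i hi => by linarith [ha i hi])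

variable {ι κ : Type*} [Fintype ι] [DecidableEq ι] [Fintype κ] [DecidableEq κ]

/-- Concavity of the von Neumann entropy, in superadditive form. -/
theorem sU_superadd {A B : Matrix ι ι ℂ} (hA : A.PosSemidef) (hB : B.PosSemidef) :
    sU A + sU B ≤ sU (A + B) := by
  have hAB : (A + B).IsHermitian := (hA.add hB).isHermitian
  set U : Matrix ι ι ℂ := (hAB.eigenvectorUnitary : Matrix ι ι ℂ) with hU
  have hUm : U ∈ Matrix.unitaryGroup ι ℂ := hAB.eigenvectorUnitary.2
  have hUU : U * Uᴴ = 1 := Matrix.mem_unitaryGroup_iff.1 hUm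
  have hUU' : Uᴴ * U = 1 := Matrix.mem_unitaryGroup_iff'.1 hUm
  have hUm' : Uᴴ ∈ Matrix.unitaryGroup ι ℂ := by
    rw [Matrix.mem_unitaryGroup_iff, star_eq_conjTranspose, conjTranspose_conjTranspose]
    exact hUU'
  have hdiag : Uᴴ * (A + B) * U =
      diagonal (fun i => ((hAB.eigenvalues i : ℝ) : ℂ)) := by
    have h := spectral_form hAB
    rw [← hU] at h
    calc Uᴴ * (A + B) * U
        = Uᴴ * (U * diagonal (fun i => ((hAB.eigenvalues i : ℝ) : ℂ)) * Uᴴ) * U := by
          rw [← h]
      _ = (Uᴴ * U) * diagonal (fun i => ((hAB.eigenvalues i : ℝ) : ℂ)) * (Uᴴ * U) := by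
          simp only [Matrix.mul_assoc]
      _ = _ := by rw [hUU', Matrix.one_mul, Matrix.mul_one]
  set A' := Uᴴ * A * U with hA'
  set B' := Uᴴ * B * U with hB'
  have hA'psd : A'.PosSemidef := by
    have := hA.conjTranspose_mul_mul_same U
    simpa [hA'] using this
  have hB'psd : B'.PosSemidef := by
    have := hB.conjTranspose_mul_mul_same U
    simpa [hB'] using this
  have hsum : A' + B' = diagonal (fun i => ((hAB.eigenvalues i : ℝ) : ℂ)) := by
    rw [← hdiag, hA', hB', Matrix.mul_add, Matrix.add_mul]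
  have heig : ∀ i, hAB.eigenvalues i = (A' i i).re + (B' i i).re := by
    intro i
    have h := congrFun (congrFun hsum i) i
    rw [Matrix.add_apply, diagonal_apply_eq] at h
    have h2 := congrArg Complex.re h
    rw [Complex.add_re, Complex.ofReal_re] at h2
    exact h2.symm
  have hentA : entU A' = entU A := by
    have := entU_conj hA.isHermitian hUm'
    rw [conjTranspose_conjTranspose] at this
    exact this
  have hentB : entU B' = entU B := by
    have := entU_conj hB.isHermitian hUm'
    rw [conjTranspose_conjTranspose] at this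
    exact this
  have htrA : A'.trace = A.trace := by
    rw [hA', Matrix.trace_mul_comm, ← Matrix.mul_assoc, hUU, Matrix.one_mul]
  have htrB : B'.trace = B.trace := by
    rw [hB', Matrix.trace_mul_comm, ← Matrix.mul_assoc, hUU, Matrix.one_mul]
  have hdA := entU_le_diag hA'psd
  have hdB := entU_le_diag hB'psd
  rw [hentA] at hdA
  rw [hentB] at hdB
  have hnA : ∀ i ∈ (Finset.univ : Finset ι), 0 ≤ (A' i i).re := by
    intro i _
    exact (Complex.nonneg_iff.1 (hA'psd.diag_nonneg (i := i))).1
  have hnB : ∀ i ∈ (Finset.univ : Finset ι), 0 ≤ (B' i i).re := by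
    intro i _
    exact (Complex.nonneg_iff.1 (hB'psd.diag_nonneg (i := i))).1
  have hsc := sum_defect_le Finset.univ (fun i => (A' i i).re) (fun i => (B' i i).re) hnA hnB
  have htA : ∑ i, (A' i i).re = A.trace.re := by
    rw [← htrA, Matrix.trace, Complex.re_sum]
    rfl
  have htB : ∑ i, (B' i i).re = B.trace.re := by
    rw [← htrB, Matrix.trace, Complex.re_sum]
    rfl
  have hE : entU (A + B) = ∑ i, Real.negMulLog ((A' i i).re + (B' i i).re) := by
    rw [entU, dif_pos hAB]
    exact Finset.sum_congr rfl (fun i _ => by rw [heig i])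
  rw [htA, htB, Finset.sum_sub_distrib, Finset.sum_add_distrib] at hsc
  rw [sU, sU, sU, hE, Matrix.trace_add, Complex.add_re]
  linarith

/-- Homogeneity. -/
theorem sU_smul {A : Matrix ι ι ℂ} (hA : A.IsHermitian) (c : ℝ) :
    sU ((c : ℂ) • A) = c * sU A := by
  rw [sU, sU, entU_smul hA c, Matrix.trace_smul, smul_eq_mul, Complex.re_ofReal_mul,
    Real.negMulLog_mul]
  ring

theorem sU_zero : sU (0 : Matrix ι ι ℂ) = 0 := by
  have h := sU_smul (A := (0 : Matrix ι ι ℂ)) (by simp [Matrix.IsHermitian]) 0
  simpa using h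

end Vale.Agent.P358
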