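import Vale.Agent.Lib.P358.Scalar

/-!
# P358, module Gam: superadditivity of the scalar function `Gam`
-/

namespace Vale.Agent.P358

open Set

/-- Sum of `η` over the two roots of `λ² - S λ + D`. -/
noncomputable def ent2 (S D : ℝ) : ℝ :=
  Real.negMulLog ((S + Real.sqrt (S ^ 2 - 4 * D)) / 2) +
    Real.negMulLog ((S - Real.sqrt (S ^ 2 - 4 * D)) / 2)

/-- `Γ(a,n,p) = η(a) + η(n) + η(p) - (η(λ₊) + η(λ₋))`, `λ±` the roots of
`λ² - (a+n+p) λ + n p`. -/
noncomputable def Gam (a n p : ℝ) : ℝ :=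
  Real.negMulLog a + Real.negMulLog n + Real.negMulLog p - ent2 (a + n + p) (n * p)

theorem ent2_one {D : ℝ} (h0 : 0 ≤ D) (h1 : D ≤ 1 / 4) : ent2 1 D = E2 D := by
  unfold ent2 E2
  rw [Real.binEntropy_eq_negMulLog_add_negMulLog_one_sub, add_comm]
  congr 2
  · rw [one_pow]
  · rw [one_pow]
    ring

/-- `Γ` is positively homogeneous of degree one. -/
theorem Gam_smul {c a n p : ℝ} (hc : 0 ≤ c) (ha : 0 ≤ a) (hn : 0 ≤ n) (hp : 0 ≤ p) :
    Gam (c * a) (c * n) (c * p) = c * Gam a n p := by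
  unfold Gam ent2
  have h1 : Real.sqrt ((c * a + c * n + c * p) ^ 2 - 4 * (c * n * (c * p)))
      = c * Real.sqrt ((a + n + p) ^ 2 - 4 * (n * p)) := by
    rw [show (c * a + c * n + c * p) ^ 2 - 4 * (c * n * (c * p))
      = c ^ 2 * ((a + n + p) ^ 2 - 4 * (n * p)) by ring, Real.sqrt_mul (sq_nonneg c),
      Real.sqrt_sq hc]
  rw [h1]
  set r := Real.sqrt ((a + n + p) ^ 2 - 4 * (n * p)) with hr
  rw [show (c * a + c * n + c * p + c * r) / 2 = c * ((a + n + p + r) / 2) by ring,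
    show (c * a + c * n + c * p - c * r) / 2 = c * ((a + n + p - r) / 2) by ring]
  simp only [Real.negMulLog_mul]
  ring

theorem continuous_ent2 : Continuous fun v : ℝ × ℝ => ent2 v.1 v.2 := by
  unfold ent2
  fun_prop

theorem continuous_Gam : Continuous fun v : ℝ × ℝ => Gam (1 - v.1 - v.2) v.1 v.2 := by
  unfold Gam ent2
  fun_prop

theorem det_identity {n p L D a : ℝ} (hn' : n ≠ 0) (hp' : p ≠ 0) (ha' : a ≠ 0) (h4' : D ≠ 0)
    (ha : a = 1 - n - p) (hD : D = 1 - 4 * (n * p)) :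
    (1 / a + 1 / n - p ^ 2 * ((1 - 2 * (n * p) * L) / ((n * p) * D)))
      * (1 / a + 1 / p - n ^ 2 * ((1 - 2 * (n * p) * L) / ((n * p) * D)))
      - (1 / a - (n * p) * ((1 - 2 * (n * p) * L) / ((n * p) * D)) + L) ^ 2
      = (1 - n * p * L ^ 2) / ((n * p) * D) := by
  field_simp
  rw [ha, hD]
  ring

theorem quad_nonneg {n p L : ℝ} (hn : 0 < n) (hp : 0 < p) (hs : n + p < 1) (hd : n * p < 1 / 4)
    (hL : 2 ≤ L) (hL2 : n * p * L ^ 2 ≤ 1) (d₁ d₂ : ℝ) :
    0 ≤ (d₁ + d₂) ^ 2 / (1 - n - p) + d₁ ^ 2 / n + d₂ ^ 2 / p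
      - (1 - 2 * (n * p) * L) / ((n * p) * (1 - 4 * (n * p))) * (d₁ * p + n * d₂) ^ 2
      + 2 * L * d₁ * d₂ := by
  have ha : 0 < 1 - n - p := by linarith
  have hδ : 0 < n * p := mul_pos hn hp
  have h4 : 0 < 1 - 4 * (n * p) := by linarith
  have ha' := ha.ne'
  have hn' := hn.ne'
  have hp' := hp.ne'
  have h4' := h4.ne'
  have hdet : (1 / (1 - n - p) + 1 / n
        - p ^ 2 * ((1 - 2 * (n * p) * L) / ((n * p) * (1 - 4 * (n * p)))))
      * (1 / (1 - n - p) + 1 / p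
        - n ^ 2 * ((1 - 2 * (n * p) * L) / ((n * p) * (1 - 4 * (n * p)))))
      - (1 / (1 - n - p)
        - (n * p) * ((1 - 2 * (n * p) * L) / ((n * p) * (1 - 4 * (n * p)))) + L) ^ 2
      = (1 - n * p * L ^ 2) / ((n * p) * (1 - 4 * (n * p))) :=
    det_identity hn' hp' ha' h4' rfl rfl
  have hdet0 : 0 ≤ (1 - n * p * L ^ 2) / ((n * p) * (1 - 4 * (n * p))) :=
    div_nonneg (by linarith) (mul_pos hδ h4).le
  have he : (1 - 2 * (n * p) * L) / ((n * p) * (1 - 4 * (n * p))) ≤ 1 / (n * p) := by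
    rw [div_le_div_iff₀ (mul_pos hδ h4) hδ]
    have : n * p * 2 ≤ n * p * L := mul_le_mul_of_nonneg_left hL hδ.le
    nlinarith
  have h11 : 0 < 1 / (1 - n - p) + 1 / n
        - p ^ 2 * ((1 - 2 * (n * p) * L) / ((n * p) * (1 - 4 * (n * p)))) := by
    have h1 : p ^ 2 * ((1 - 2 * (n * p) * L) / ((n * p) * (1 - 4 * (n * p))))
        ≤ p ^ 2 * (1 / (n * p)) := mul_le_mul_of_nonneg_left he (sq_nonneg p)
    have h2 : p ^ 2 * (1 / (n * p)) = p / n := by field_simp
    have h3 : p / n < 1 / n := by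
      rw [div_lt_div_iff_of_pos_right hn]
      linarith
    have h5 : 0 < 1 / (1 - n - p) := by positivity
    linarith
  set e := (1 - 2 * (n * p) * L) / ((n * p) * (1 - 4 * (n * p))) with he_def
  set q11 := 1 / (1 - n - p) + 1 / n - p ^ 2 * e with hq11
  set q22 := 1 / (1 - n - p) + 1 / p - n ^ 2 * e with hq22
  set q12 := 1 / (1 - n - p) - (n * p) * e + L with hq12
  have hQ : (d₁ + d₂) ^ 2 / (1 - n - p) + d₁ ^ 2 / n + d₂ ^ 2 / p
      - e * (d₁ * p + n * d₂) ^ 2 + 2 * L * d₁ * d₂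
      = q11 * d₁ ^ 2 + 2 * q12 * d₁ * d₂ + q22 * d₂ ^ 2 := by
    rw [hq11, hq22, hq12]
    ring
  rw [hQ]
  have hmul : q11 * (q11 * d₁ ^ 2 + 2 * q12 * d₁ * d₂ + q22 * d₂ ^ 2)
      = (q11 * d₁ + q12 * d₂) ^ 2 + (q11 * q22 - q12 ^ 2) * d₂ ^ 2 := by ring
  have h6 : 0 ≤ q11 * (q11 * d₁ ^ 2 + 2 * q12 * d₁ * d₂ + q22 * d₂ ^ 2) := by
    rw [hmul, hdet]
    positivity
  exact nonneg_of_mul_nonneg_right h6 h11

/-- concavity along a segment in the open simplex. -/
theorem segment_concave {x₁ x₂ y₁ y₂ : ℝ} (hx1 : 0 < x₁) (hx2 : 0 < x₂) (hx : x₁ + x₂ < 1)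
    (hy1 : 0 < y₁) (hy2 : 0 < y₂) (hy : y₁ + y₂ < 1) :
    ConcaveOn ℝ (Icc (0 : ℝ) 1) (fun t =>
      Real.negMulLog (1 - (x₁ + t * (y₁ - x₁)) - (x₂ + t * (y₂ - x₂)))
        + Real.negMulLog (x₁ + t * (y₁ - x₁)) + Real.negMulLog (x₂ + t * (y₂ - x₂))
        - E2 ((x₁ + t * (y₁ - x₁)) * (x₂ + t * (y₂ - x₂)))) := by
  set d₁ := y₁ - x₁ with hd1
  set d₂ := y₂ - x₂ with hd2
  have hpos : ∀ t ∈ Ioo (0 : ℝ) 1, 0 < x₁ + t * d₁ ∧ 0 < x₂ + t * d₂ ∧
      (x₁ + t * d₁) + (x₂ + t * d₂) < 1 := by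
    rintro t ⟨h0, h1⟩
    have h2 : 0 < 1 - t := by linarith
    refine ⟨?_, ?_, ?_⟩
    · have : x₁ + t * d₁ = (1 - t) * x₁ + t * y₁ := by rw [hd1]; ring
      rw [this]; positivity
    · have : x₂ + t * d₂ = (1 - t) * x₂ + t * y₂ := by rw [hd2]; ring
      rw [this]; positivity
    · have : (x₁ + t * d₁) + (x₂ + t * d₂) = (1 - t) * (x₁ + x₂) + t * (y₁ + y₂) := by
        rw [hd1, hd2]; ring
      rw [this]
      nlinarith
  have hprod : ∀ n p : ℝ, 0 < n → 0 < p → n + p < 1 → n * p < 1 / 4 := by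
    intro n p hn hp hs
    nlinarith [sq_nonneg (n - p)]
  refine concaveOn_of_hasDerivWithinAt2_nonpos (convex_Icc 0 1)
    (f' := fun t => (d₁ + d₂) * Real.log (1 - (x₁ + t * d₁) - (x₂ + t * d₂))
      - d₁ * Real.log (x₁ + t * d₁) - d₂ * Real.log (x₂ + t * d₂)
      - LL ((x₁ + t * d₁) * (x₂ + t * d₂)) * (d₁ * (x₂ + t * d₂) + (x₁ + t * d₁) * d₂))
    (f'' := fun t => -((d₁ + d₂) ^ 2 / (1 - (x₁ + t * d₁) - (x₂ + t * d₂))
      + d₁ ^ 2 / (x₁ + t * d₁) + d₂ ^ 2 / (x₂ + t * d₂)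
      - (1 - 2 * ((x₁ + t * d₁) * (x₂ + t * d₂)) * LL ((x₁ + t * d₁) * (x₂ + t * d₂)))
        / (((x₁ + t * d₁) * (x₂ + t * d₂)) * (1 - 4 * ((x₁ + t * d₁) * (x₂ + t * d₂))))
        * (d₁ * (x₂ + t * d₂) + (x₁ + t * d₁) * d₂) ^ 2
      + 2 * LL ((x₁ + t * d₁) * (x₂ + t * d₂)) * d₁ * d₂)) ?_ ?_ ?_ ?_
  · refine Continuous.continuousOn ?_
    have := continuous_E2
    fun_prop
  · rw [interior_Icc]
    intro t ht
    obtain ⟨hn, hp, hs⟩ := hpos t ht
    have hδ := hprod _ _ hn hp hs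
    have h1 : HasDerivAt (fun t : ℝ => x₁ + t * d₁) d₁ t := by
      simpa using ((hasDerivAt_id t).mul_const d₁).const_add x₁
    have h2 : HasDerivAt (fun t : ℝ => x₂ + t * d₂) d₂ t := by
      simpa using ((hasDerivAt_id t).mul_const d₂).const_add x₂
    have h3 : HasDerivAt (fun t : ℝ => 1 - (x₁ + t * d₁) - (x₂ + t * d₂)) (-(d₁ + d₂)) t := by
      refine (((hasDerivAt_const t (1 : ℝ)).sub h1).sub h2).congr_deriv ?_
      ring
    have e1 := (Real.hasDerivAt_negMulLog hn.ne').comp t h1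
    have e2 := (Real.hasDerivAt_negMulLog hp.ne').comp t h2
    have e3 := (Real.hasDerivAt_negMulLog
      (by linarith : 0 < 1 - (x₁ + t * d₁) - (x₂ + t * d₂)).ne').comp t h3
    have e4 := (hasDerivAt_E2 (mul_pos hn hp) hδ).comp t (h1.mul h2)
    refine HasDerivAt.hasDerivWithinAt ((((e3.add e1).add e2).sub e4).congr_deriv ?_)
    ring
  · rw [interior_Icc]
    intro t ht
    obtain ⟨hn, hp, hs⟩ := hpos t ht
    have hδ := hprod _ _ hn hp hs
    have h1 : HasDerivAt (fun t : ℝ => x₁ + t * d₁) d₁ t := by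
      simpa using ((hasDerivAt_id t).mul_const d₁).const_add x₁
    have h2 : HasDerivAt (fun t : ℝ => x₂ + t * d₂) d₂ t := by
      simpa using ((hasDerivAt_id t).mul_const d₂).const_add x₂
    have h3 : HasDerivAt (fun t : ℝ => 1 - (x₁ + t * d₁) - (x₂ + t * d₂)) (-(d₁ + d₂)) t := by
      refine (((hasDerivAt_const t (1 : ℝ)).sub h1).sub h2).congr_deriv ?_
      ring
    have ha : 0 < 1 - (x₁ + t * d₁) - (x₂ + t * d₂) := by linarith
    have e1 := ((Real.hasDerivAt_log hn.ne').comp t h1).const_mul d₁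
    have e2 := ((Real.hasDerivAt_log hp.ne').comp t h2).const_mul d₂
    have e3 := ((Real.hasDerivAt_log ha.ne').comp t h3).const_mul (d₁ + d₂)
    have e4 := (hasDerivAt_LL (mul_pos hn hp) hδ).comp t (h1.mul h2)
    have e5 := (h2.const_mul d₁).add (h1.mul_const d₂)
    refine HasDerivAt.hasDerivWithinAt ((((e3.sub e1).sub e2).sub (e4.mul e5)).congr_deriv ?_)
    simp only [Function.comp, Pi.mul_apply, Pi.add_apply]
    ring
  · rw [interior_Icc]
    intro t ht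
    obtain ⟨hn, hp, hs⟩ := hpos t ht
    have hδ := hprod _ _ hn hp hs
    have := quad_nonneg hn hp hs hδ (two_le_LL (mul_pos hn hp) hδ)
      (mul_LL_sq_le (mul_pos hn hp) hδ) d₁ d₂
    linarith

theorem Gam_one_eq (n p : ℝ) (h0 : 0 ≤ n * p) (h1 : n * p ≤ 1 / 4) :
    Gam (1 - n - p) n p = Real.negMulLog (1 - n - p) + Real.negMulLog n + Real.negMulLog p
      - E2 (n * p) := by
  unfold Gam
  rw [show 1 - n - p + n + p = 1 by ring, ent2_one h0 h1]

/-- concavity inequality in the open simplex. -/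
theorem Gam_open {x y : ℝ × ℝ} (hx1 : 0 < x.1) (hx2 : 0 < x.2) (hx : x.1 + x.2 < 1)
    (hy1 : 0 < y.1) (hy2 : 0 < y.2) (hy : y.1 + y.2 < 1) {α β : ℝ} (hα : 0 ≤ α) (hβ : 0 ≤ β)
    (hαβ : α + β = 1) :
    α * Gam (1 - x.1 - x.2) x.1 x.2 + β * Gam (1 - y.1 - y.2) y.1 y.2
      ≤ Gam (1 - (α * x.1 + β * y.1) - (α * x.2 + β * y.2)) (α * x.1 + β * y.1)
        (α * x.2 + β * y.2) := by
  have hprod : ∀ n p : ℝ, n + p ≤ 1 → 0 ≤ n + p → n * p ≤ 1 / 4 := by
    intro n p hs h0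
    nlinarith [sq_nonneg (n - p)]
  have h1 := (segment_concave hx1 hx2 hx hy1 hy2 hy).2 (left_mem_Icc.2 zero_le_one)
    (right_mem_Icc.2 zero_le_one) hα hβ hαβ
  have hα' : α = 1 - β := by linarith
  simp only [smul_eq_mul, mul_zero, mul_one, zero_add, zero_mul, one_mul, add_zero] at h1
  rw [show x.1 + (y.1 - x.1) = y.1 by ring, show x.2 + (y.2 - x.2) = y.2 by ring] at h1
  have e1 : x.1 + β * (y.1 - x.1) = α * x.1 + β * y.1 := by rw [hα']; ring
  have e2 : x.2 + β * (y.2 - x.2) = α * x.2 + β * y.2 := by rw [hα']; ring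
  rw [e1, e2] at h1
  have hn : 0 ≤ α * x.1 + β * y.1 := by positivity
  have hp : 0 ≤ α * x.2 + β * y.2 := by positivity
  have hs : (α * x.1 + β * y.1) + (α * x.2 + β * y.2) ≤ 1 := by
    have h2 : α * (x.1 + x.2) ≤ α * 1 := mul_le_mul_of_nonneg_left hx.le hα
    have h3 : β * (y.1 + y.2) ≤ β * 1 := mul_le_mul_of_nonneg_left hy.le hβ
    nlinarith
  rw [Gam_one_eq x.1 x.2 (mul_pos hx1 hx2).le (hprod _ _ hx.le (by linarith)),
    Gam_one_eq y.1 y.2 (mul_pos hy1 hy2).le (hprod _ _ hy.le (by linarith)),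
    Gam_one_eq _ _ (mul_nonneg hn hp) (hprod _ _ hs (by linarith))]
  exact h1

/-- `Γ` is concave on the probability simplex. -/
theorem concaveOn_Gam :
    ConcaveOn ℝ {v : ℝ × ℝ | 0 ≤ v.1 ∧ 0 ≤ v.2 ∧ v.1 + v.2 ≤ 1}
      (fun v => Gam (1 - v.1 - v.2) v.1 v.2) := by
  constructor
  · intro x hx y hy α β hα hβ hαβ
    obtain ⟨hx1, hx2, hx⟩ := hx
    obtain ⟨hy1, hy2, hy⟩ := hy
    refine ⟨?_, ?_, ?_⟩
    · simp only [Prod.fst_add, Prod.smul_fst, smul_eq_mul]
      positivity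
    · simp only [Prod.snd_add, Prod.smul_snd, smul_eq_mul]
      positivity
    · simp only [Prod.fst_add, Prod.smul_fst, Prod.snd_add, Prod.smul_snd, smul_eq_mul]
      have h2 : α * (x.1 + x.2) ≤ α * 1 := mul_le_mul_of_nonneg_left hx hα
      have h3 : β * (y.1 + y.2) ≤ β * 1 := mul_le_mul_of_nonneg_left hy hβ
      nlinarith
  · intro x hx y hy α β hα hβ hαβ
    obtain ⟨hx1, hx2, hx⟩ := hx
    obtain ⟨hy1, hy2, hy⟩ := hy
    simp only [smul_eq_mul]
    -- move towards the centre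
    set X : ℝ → ℝ × ℝ := fun ε => ((1 - ε) * x.1 + ε / 3, (1 - ε) * x.2 + ε / 3) with hX
    set Y : ℝ → ℝ × ℝ := fun ε => ((1 - ε) * y.1 + ε / 3, (1 - ε) * y.2 + ε / 3) with hY
    have hXc : Continuous X := by rw [hX]; fun_prop
    have hYc : Continuous Y := by rw [hY]; fun_prop
    have hX0 : X 0 = x := by rw [hX]; ext <;> simp
    have hY0 : Y 0 = y := by rw [hY]; ext <;> simp
    have hG := continuous_Gam
    have hl : Continuous fun ε => α * Gam (1 - (X ε).1 - (X ε).2) (X ε).1 (X ε).2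
        + β * Gam (1 - (Y ε).1 - (Y ε).2) (Y ε).1 (Y ε).2 :=
      (continuous_const.mul (hG.comp hXc)).add (continuous_const.mul (hG.comp hYc))
    have hr : Continuous fun ε => Gam
        (1 - (α * (X ε).1 + β * (Y ε).1) - (α * (X ε).2 + β * (Y ε).2))
        (α * (X ε).1 + β * (Y ε).1) (α * (X ε).2 + β * (Y ε).2) := by
      have : Continuous fun ε => ((α * (X ε).1 + β * (Y ε).1, α * (X ε).2 + β * (Y ε).2) : ℝ × ℝ) :=
        by fun_prop
      exact hG.comp this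
    have hl0 := (hl.tendsto 0).mono_left (nhdsWithin_le_nhds (s := Ioi 0))
    have hr0 := (hr.tendsto 0).mono_left (nhdsWithin_le_nhds (s := Ioi 0))
    simp only [hX0, hY0] at hl0 hr0
    refine le_of_tendsto_of_tendsto hl0 hr0 ?_
    have hev : Ioo (0 : ℝ) 1 ∈ nhdsWithin (0 : ℝ) (Ioi 0) := Ioo_mem_nhdsGT one_pos
    filter_upwards [hev] with ε hε
    have h1 : 0 < 1 - ε := by linarith [hε.2]
    have h0 : 0 < ε := hε.1
    refine Gam_open ?_ ?_ ?_ ?_ ?_ ?_ hα hβ hαβ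
    · simp only [hX]; positivity
    · simp only [hX]; positivity
    · simp only [hX]
      nlinarith [mul_le_mul_of_nonneg_left hx h1.le]
    · simp only [hY]; positivity
    · simp only [hY]; positivity
    · simp only [hY]
      nlinarith [mul_le_mul_of_nonneg_left hy h1.le]

theorem Gam_zero_zero {p : ℝ} (hp : 0 ≤ p) : Gam 0 0 p = 0 := by
  unfold Gam ent2
  rw [zero_mul, mul_zero, sub_zero, Real.sqrt_sq (by linarith)]
  simp

/-- superadditivity for two summands. -/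
theorem Gam_add_le {a n p a' n' p' : ℝ} (ha : 0 ≤ a) (hn : 0 ≤ n) (hp : 0 ≤ p) (ha' : 0 ≤ a')
    (hn' : 0 ≤ n') (hp' : 0 ≤ p') :
    Gam a n p + Gam a' n' p' ≤ Gam (a + a') (n + n') (p + p') := by
  set t := a + n + p with ht
  set t' := a' + n' + p' with ht'
  have ht0 : 0 ≤ t := by positivity
  have ht0' : 0 ≤ t' := by positivity
  rcases ht0.eq_or_lt with h | h
  · have h1 : a = 0 := by linarith
    have h2 : n = 0 := by linarith
    have h3 : p = 0 := by linarith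
    rw [h1, h2, h3, Gam_zero_zero le_rfl]
    simp
  rcases ht0'.eq_or_lt with h' | h'
  · have h1 : a' = 0 := by linarith
    have h2 : n' = 0 := by linarith
    have h3 : p' = 0 := by linarith
    rw [h1, h2, h3, Gam_zero_zero le_rfl]
    simp
  have hT : 0 < t + t' := by linarith
  have e1 : Gam a n p = t * Gam (1 - n / t - p / t) (n / t) (p / t) := by
    rw [← Gam_smul h.le (by rw [show 1 - n / t - p / t = a / t by field_simp; linarith]; positivity)
      (by positivity) (by positivity)]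
    congr 1
    · field_simp; linarith
    · field_simp
    · field_simp
  have e2 : Gam a' n' p' = t' * Gam (1 - n' / t' - p' / t') (n' / t') (p' / t') := by
    rw [← Gam_smul h'.le (by
      rw [show 1 - n' / t' - p' / t' = a' / t' by field_simp; linarith]; positivity)
      (by positivity) (by positivity)]
    congr 1
    · field_simp; linarith
    · field_simp
    · field_simp
  have hmem : ((n / t, p / t) : ℝ × ℝ) ∈ {v : ℝ × ℝ | 0 ≤ v.1 ∧ 0 ≤ v.2 ∧ v.1 + v.2 ≤ 1} := by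
    refine ⟨by simp only; positivity, by simp only; positivity, ?_⟩
    simp only
    rw [← add_div, div_le_one h]
    linarith
  have hmem' : ((n' / t', p' / t') : ℝ × ℝ) ∈ {v : ℝ × ℝ | 0 ≤ v.1 ∧ 0 ≤ v.2 ∧ v.1 + v.2 ≤ 1} := by
    refine ⟨by simp only; positivity, by simp only; positivity, ?_⟩
    simp only
    rw [← add_div, div_le_one h']
    linarith
  have h1 := concaveOn_Gam.2 hmem hmem' (div_nonneg ht0 hT.le : 0 ≤ t / (t + t'))
    (div_nonneg ht0' hT.le : 0 ≤ t' / (t + t')) (by rw [← add_div]; exact div_self hT.ne')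
  simp only [smul_eq_mul, Prod.fst_add, Prod.smul_fst, Prod.snd_add, Prod.smul_snd] at h1
  have e3 : t / (t + t') * (n / t) + t' / (t + t') * (n' / t') = (n + n') / (t + t') := by
    field_simp
  have e4 : t / (t + t') * (p / t) + t' / (t + t') * (p' / t') = (p + p') / (t + t') := by
    field_simp
  rw [e3, e4] at h1
  have e5 : Gam (a + a') (n + n') (p + p')
      = (t + t') * Gam (1 - (n + n') / (t + t') - (p + p') / (t + t')) ((n + n') / (t + t'))
        ((p + p') / (t + t')) := by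
    rw [← Gam_smul hT.le (by
      rw [show 1 - (n + n') / (t + t') - (p + p') / (t + t') = (a + a') / (t + t') by
        field_simp; linarith]; positivity)
      (by positivity) (by positivity)]
    congr 1
    · field_simp; linarith
    · field_simp
    · field_simp
  rw [e1, e2, e5]
  have h2 := mul_le_mul_of_nonneg_left h1 hT.le
  refine (le_of_eq ?_).trans h2
  field_simp

/-- `Γ` is superadditive. -/
theorem sum_Gam_le {α : Type*} (s : Finset α) (a n p : α → ℝ) (ha : ∀ i ∈ s, 0 ≤ a i)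
    (hn : ∀ i ∈ s, 0 ≤ n i) (hp : ∀ i ∈ s, 0 ≤ p i) :
    ∑ i ∈ s, Gam (a i) (n i) (p i) ≤ Gam (∑ i ∈ s, a i) (∑ i ∈ s, n i) (∑ i ∈ s, p i) := by
  classical
  induction s using Finset.induction_on with
  | empty =>
    simp [Gam_zero_zero le_rfl]
  | insert i s hi ih =>
    rw [Finset.sum_insert hi, Finset.sum_insert hi, Finset.sum_insert hi, Finset.sum_insert hi]
    have h1 := ih (fun j hj => ha j (Finset.mem_insert_of_mem hj))
      (fun j hj => hn j (Finset.mem_insert_of_mem hj))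
      (fun j hj => hp j (Finset.mem_insert_of_mem hj))
    have h2 := Gam_add_le (ha i (Finset.mem_insert_self i s)) (hn i (Finset.mem_insert_self i s))
      (hp i (Finset.mem_insert_self i s))
      (Finset.sum_nonneg fun j hj => ha j (Finset.mem_insert_of_mem hj))
      (Finset.sum_nonneg fun j hj => hn j (Finset.mem_insert_of_mem hj))
      (Finset.sum_nonneg fun j hj => hp j (Finset.mem_insert_of_mem hj))
    linarith

end Vale.Agent.P358
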