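import Vale.Agent.Lib.P358.Defs

/-!
# P358, module Scalar: the qubit entropy function `E2`
-/

namespace Vale.Agent.P358

open Set

/-- `L(δ) = log((1+r)/(1-r))/r`, `r = √(1-4δ)`. -/
noncomputable def LL (δ : ℝ) : ℝ :=
  Real.log ((1 + Real.sqrt (1 - 4 * δ)) / (1 - Real.sqrt (1 - 4 * δ))) / Real.sqrt (1 - 4 * δ)

/-- basic facts on `r = √(1-4δ)` -/
theorem scalar_r {δ : ℝ} (h0 : 0 < δ) (h1 : δ < 1 / 4) :
    0 < Real.sqrt (1 - 4 * δ) ∧ Real.sqrt (1 - 4 * δ) < 1 ∧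
      Real.sqrt (1 - 4 * δ) ^ 2 = 1 - 4 * δ := by
  refine ⟨Real.sqrt_pos.2 (by linarith), ?_, Real.sq_sqrt (by linarith)⟩
  rw [Real.sqrt_lt' one_pos]
  linarith

theorem two_mul_le_log {r : ℝ} (h0 : 0 < r) (h1 : r < 1) :
    2 * r ≤ Real.log ((1 + r) / (1 - r)) := by
  have hs := Real.hasSum_log_sub_log_of_abs_lt_one (x := r) (by rw [abs_of_pos h0]; exact h1)
  have h2 := hs.summable.sum_le_tsum {0} (fun k _ => by positivity)
  rw [hs.tsum_eq] at h2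
  rw [Real.log_div (by linarith) (by linarith)]
  simpa using h2

theorem two_le_LL {δ : ℝ} (h0 : 0 < δ) (h1 : δ < 1 / 4) : 2 ≤ LL δ := by
  obtain ⟨hr0, hr1, _⟩ := scalar_r h0 h1
  unfold LL
  rw [le_div_iff₀ hr0]
  exact two_mul_le_log hr0 hr1

theorem log_sq_le {r : ℝ} (h0 : 0 < r) (h1 : r < 1) :
    (1 - r ^ 2) * Real.log ((1 + r) / (1 - r)) ^ 2 ≤ 4 * r ^ 2 := by
  set L := Real.log ((1 + r) / (1 - r)) with hL
  have hL0 : 0 ≤ L := by
    have := two_mul_le_log h0 h1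
    linarith
  have h2 : L / 2 ≤ Real.sinh (L / 2) := Real.self_le_sinh_iff.2 (by linarith)
  have h3 : (L / 2) ^ 2 ≤ Real.sinh (L / 2) ^ 2 := pow_le_pow_left₀ (by linarith) h2 2
  have hq : 0 < (1 + r) / (1 - r) := div_pos (by linarith) (by linarith)
  have h4 : Real.cosh L = ((1 + r) / (1 - r) + ((1 + r) / (1 - r))⁻¹) / 2 := by
    rw [Real.cosh_eq, Real.exp_neg, hL, Real.exp_log hq]
  have h5 : Real.cosh L = 2 * Real.sinh (L / 2) ^ 2 + 1 := by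
    have := Real.cosh_two_mul (L / 2)
    rw [show 2 * (L / 2) = L by ring, Real.cosh_sq] at this
    rw [this]
    ring
  have hne1 : 1 - r ≠ 0 := by linarith
  have hne2 : 1 + r ≠ 0 := by linarith
  have h6 : (1 - r ^ 2) * Real.cosh L = 1 + r ^ 2 := by
    rw [h4]
    field_simp
    ring
  have h7 : (1 - r ^ 2) * Real.sinh (L / 2) ^ 2 = r ^ 2 := by
    rw [h5] at h6
    linarith
  have h8 : 0 ≤ 1 - r ^ 2 := by nlinarith
  have h9 := mul_le_mul_of_nonneg_left h3 h8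
  rw [h7] at h9
  nlinarith

theorem mul_LL_sq_le {δ : ℝ} (h0 : 0 < δ) (h1 : δ < 1 / 4) : δ * (LL δ) ^ 2 ≤ 1 := by
  obtain ⟨hr0, hr1, hr2⟩ := scalar_r h0 h1
  unfold LL
  set r := Real.sqrt (1 - 4 * δ) with hr
  have h := log_sq_le hr0 hr1
  have hδ : δ = (1 - r ^ 2) / 4 := by rw [hr2]; ring
  rw [div_pow, hδ, ← mul_div_assoc, div_le_one (by positivity)]
  linarith

theorem hasDerivAt_sqrt_r {δ : ℝ} (h1 : δ < 1 / 4) :
    HasDerivAt (fun δ => Real.sqrt (1 - 4 * δ)) (-2 / Real.sqrt (1 - 4 * δ)) δ := by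
  have h2 : HasDerivAt (fun δ : ℝ => 1 - 4 * δ) (-4) δ := by
    have := ((hasDerivAt_id δ).const_mul 4).const_sub 1
    simpa using this
  have h3 := h2.sqrt (by linarith : (1 - 4 * δ) ≠ 0)
  convert h3 using 1
  have hr0 : 0 < Real.sqrt (1 - 4 * δ) := Real.sqrt_pos.2 (by linarith)
  field_simp
  norm_num

theorem hasDerivAt_E2 {δ : ℝ} (h0 : 0 < δ) (h1 : δ < 1 / 4) : HasDerivAt E2 (LL δ) δ := by
  obtain ⟨hr0, hr1, hr2⟩ := scalar_r h0 h1
  have h2 := hasDerivAt_sqrt_r h1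
  have h3 : HasDerivAt (fun δ => (1 - Real.sqrt (1 - 4 * δ)) / 2)
      (-(-2 / Real.sqrt (1 - 4 * δ)) / 2) δ := (h2.const_sub 1).div_const 2
  have h4 := Real.hasDerivAt_binEntropy (p := (1 - Real.sqrt (1 - 4 * δ)) / 2)
    (by linarith [hr1] : (1 - Real.sqrt (1 - 4 * δ)) / 2 ≠ 0)
    (by linarith [hr0] : (1 - Real.sqrt (1 - 4 * δ)) / 2 ≠ 1)
  have h5 := h4.comp δ h3
  have h6 : (Real.log (1 - (1 - Real.sqrt (1 - 4 * δ)) / 2) -
      Real.log ((1 - Real.sqrt (1 - 4 * δ)) / 2)) * (-(-2 / Real.sqrt (1 - 4 * δ)) / 2) =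
      LL δ := by
    unfold LL
    rw [← Real.log_div (by linarith) (by linarith)]
    have e1 : (1 - (1 - Real.sqrt (1 - 4 * δ)) / 2) / ((1 - Real.sqrt (1 - 4 * δ)) / 2) =
        (1 + Real.sqrt (1 - 4 * δ)) / (1 - Real.sqrt (1 - 4 * δ)) := by
      have : 1 - Real.sqrt (1 - 4 * δ) ≠ 0 := by linarith
      field_simp
      ring
    rw [e1]
    field_simp
  rw [h6] at h5
  exact h5

theorem hasDerivAt_LL {δ : ℝ} (h0 : 0 < δ) (h1 : δ < 1 / 4) :
    HasDerivAt LL (-(1 - 2 * δ * LL δ) / (δ * (1 - 4 * δ))) δ := by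
  obtain ⟨hr0, hr1, hr2⟩ := scalar_r h0 h1
  have h2 := hasDerivAt_sqrt_r h1
  have h3 : HasDerivAt (fun δ => (1 + Real.sqrt (1 - 4 * δ)) / (1 - Real.sqrt (1 - 4 * δ)))
      (((-2 / Real.sqrt (1 - 4 * δ)) * (1 - Real.sqrt (1 - 4 * δ)) -
        (1 + Real.sqrt (1 - 4 * δ)) * (-(-2 / Real.sqrt (1 - 4 * δ)))) /
        (1 - Real.sqrt (1 - 4 * δ)) ^ 2) δ :=
    (h2.const_add 1).div (h2.const_sub 1) (by linarith)
  have hq : 0 < (1 + Real.sqrt (1 - 4 * δ)) / (1 - Real.sqrt (1 - 4 * δ)) :=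
    div_pos (by linarith) (by linarith)
  have h4 := (h3.log hq.ne').div h2 hr0.ne'
  refine (show HasDerivAt LL _ δ from h4).congr_deriv ?_
  unfold LL
  set r := Real.sqrt (1 - 4 * δ) with hr
  set L := Real.log ((1 + r) / (1 - r)) with hL
  have hδ : δ = (1 - r ^ 2) / 4 := by rw [hr2]; ring
  have hne1 : 1 - r ≠ 0 := by linarith
  have hne2 : 1 + r ≠ 0 := by linarith
  have hne3 : 1 - r ^ 2 ≠ 0 := by nlinarith
  have hne4 : r ≠ 0 := hr0.ne'
  rw [← hr2, hδ]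
  have e1 : (1 - r ^ 2) = (1 - r) * (1 + r) := by ring
  rw [e1]
  field_simp
  ring

theorem continuous_E2 : Continuous E2 := by
  unfold E2
  fun_prop

theorem continuousOn_E2 : ContinuousOn E2 (Icc 0 (1 / 4)) := continuous_E2.continuousOn

theorem monotoneOn_E2 : MonotoneOn E2 (Icc 0 (1 / 4)) := by
  refine monotoneOn_of_deriv_nonneg (convex_Icc _ _) continuousOn_E2 ?_ ?_
  · rw [interior_Icc]
    exact fun x hx => (hasDerivAt_E2 hx.1 hx.2).differentiableAt.differentiableWithinAt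
  · rw [interior_Icc]
    intro x hx
    rw [(hasDerivAt_E2 hx.1 hx.2).deriv]
    linarith [two_le_LL hx.1 hx.2]

/-- Entropy as a function of the concurrence. -/
theorem convexOn_E2_sq : ConvexOn ℝ (Icc 0 1) (fun C : ℝ => E2 (C ^ 2 / 4)) := by
  have hmem : ∀ x ∈ Ioo (0 : ℝ) 1, 0 < x ^ 2 / 4 ∧ x ^ 2 / 4 < 1 / 4 := by
    intro x hx
    have h1 := hx.1
    have h2 := hx.2
    constructor
    · positivity
    · nlinarith
  have hd : ∀ x : ℝ, HasDerivAt (fun C : ℝ => C ^ 2 / 4) (x / 2) x := by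
    intro x
    have := (hasDerivAt_pow 2 x).div_const 4
    refine this.congr_deriv ?_
    norm_num
    ring
  refine convexOn_of_hasDerivWithinAt2_nonneg (convex_Icc _ _)
    (f' := fun C => LL (C ^ 2 / 4) * (C / 2))
    (f'' := fun C => (-(1 - 2 * (C ^ 2 / 4) * LL (C ^ 2 / 4)) /
      ((C ^ 2 / 4) * (1 - 4 * (C ^ 2 / 4)))) * (C / 2) * (C / 2) + LL (C ^ 2 / 4) * (1 / 2))
    (continuous_E2.comp (by fun_prop)).continuousOn ?_ ?_ ?_
  · rw [interior_Icc]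
    intro x hx
    obtain ⟨h1, h2⟩ := hmem x hx
    exact ((hasDerivAt_E2 h1 h2).comp x (hd x)).hasDerivWithinAt
  · rw [interior_Icc]
    intro x hx
    obtain ⟨h1, h2⟩ := hmem x hx
    have h3 := (hasDerivAt_LL h1 h2).comp x (hd x)
    have h4 : HasDerivAt (fun C : ℝ => C / 2) (1 / 2) x := (hasDerivAt_id x).div_const 2
    exact (h3.mul h4).hasDerivWithinAt
  · rw [interior_Icc]
    intro x hx
    obtain ⟨h1, h2⟩ := hmem x hx
    have h3 := two_le_LL h1 h2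
    have hx0 : x ≠ 0 := hx.1.ne'
    have h5 : 0 < 1 - x ^ 2 := by
      have := hx.1
      have := hx.2
      nlinarith
    have h6 : (-(1 - 2 * (x ^ 2 / 4) * LL (x ^ 2 / 4)) /
      ((x ^ 2 / 4) * (1 - 4 * (x ^ 2 / 4)))) * (x / 2) * (x / 2) + LL (x ^ 2 / 4) * (1 / 2) =
      (LL (x ^ 2 / 4) / 2 - 1) / (1 - x ^ 2) := by
      have h7 : 1 - 4 * (x ^ 2 / 4) = 1 - x ^ 2 := by ring
      rw [h7]
      have h8 : 1 - x ^ 2 ≠ 0 := h5.ne'
      field_simp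
      ring
    show 0 ≤ _
    rw [h6]
    exact div_nonneg (by linarith) h5.le

/-- convexity of the norm of an affine function -/
theorem convexOn_sqrt_quad {A B c : ℝ} (hA : 0 ≤ A) (hB : 0 ≤ B) :
    ConvexOn ℝ univ (fun q : ℝ => Real.sqrt (A * (q - c) ^ 2 + B)) := by
  refine ⟨convex_univ, ?_⟩
  intro x _ y _ a b ha hb hab
  simp only [smul_eq_mul]
  have hX : 0 ≤ A * (x - c) ^ 2 + B := by positivity
  have hY : 0 ≤ A * (y - c) ^ 2 + B := by positivity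
  set X := Real.sqrt (A * (x - c) ^ 2 + B) with hXd
  set Y := Real.sqrt (A * (y - c) ^ 2 + B) with hYd
  have hX0 : 0 ≤ X := Real.sqrt_nonneg _
  have hY0 : 0 ≤ Y := Real.sqrt_nonneg _
  have hX2 : X ^ 2 = A * (x - c) ^ 2 + B := Real.sq_sqrt hX
  have hY2 : Y ^ 2 = A * (y - c) ^ 2 + B := Real.sq_sqrt hY
  have hXY : A * (x - c) * (y - c) + B ≤ X * Y := by
    refine (le_abs_self _).trans (abs_le_of_sq_le_sq ?_ (by positivity))
    rw [mul_pow, hX2, hY2]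
    nlinarith [mul_nonneg (mul_nonneg hA hB) (sq_nonneg (x - y))]
  rw [Real.sqrt_le_left (by positivity)]
  have hb' : b = 1 - a := by linarith
  have h1 : a * x + b * y - c = a * (x - c) + b * (y - c) := by rw [hb']; ring
  rw [h1]
  have h2 : (a * X + b * Y) ^ 2 = a ^ 2 * X ^ 2 + b ^ 2 * Y ^ 2 + 2 * (a * b) * (X * Y) := by ring
  rw [h2, hX2, hY2]
  have h3 : B = (a + b) ^ 2 * B := by rw [hab]; ring
  have h4 : 2 * (a * b) * (A * (x - c) * (y - c) + B) ≤ 2 * (a * b) * (X * Y) :=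
    mul_le_mul_of_nonneg_left hXY (by positivity)
  calc A * (a * (x - c) + b * (y - c)) ^ 2 + B
      = A * (a * (x - c) + b * (y - c)) ^ 2 + (a + b) ^ 2 * B := by rw [← h3]
    _ = a ^ 2 * (A * (x - c) ^ 2 + B) + b ^ 2 * (A * (y - c) ^ 2 + B) +
        2 * (a * b) * (A * (x - c) * (y - c) + B) := by ring
    _ ≤ _ := by linarith

/-- Convexity in `q` of the output entropy of a pure state with population `q`. -/
theorem convexOn_fq {γ ν : ℝ} (hγ : γ ∈ Icc (0 : ℝ) 1) (hν : ν ∈ Icc (0 : ℝ) 1) :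
    ConvexOn ℝ (Icc 0 1) (fq γ ν) := by
  obtain ⟨hγ0, hγ1⟩ := hγ
  obtain ⟨hν0, hν1⟩ := hν
  set D : ℝ → ℝ := fun q => γ * (1 - γ) * (q - ν) ^ 2 + γ * ν * (1 - ν) with hD
  have hA : 0 ≤ γ * (1 - γ) := mul_nonneg hγ0 (by linarith)
  have hB : 0 ≤ γ * ν * (1 - ν) := mul_nonneg (mul_nonneg hγ0 hν0) (by linarith)
  have hD0 : ∀ q, 0 ≤ D q := fun q => add_nonneg (mul_nonneg hA (sq_nonneg _)) hB
  have hD1 : ∀ q ∈ Icc (0 : ℝ) 1, D q ≤ 1 / 4 := by
    intro q hq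
    obtain ⟨hq0, hq1⟩ := hq
    have e : D q = 1 / 4 - ((1 - γ) * q + γ * ν - 1 / 2) ^ 2 - (1 - γ) * (q * (1 - q)) := by
      simp only [hD]
      ring
    rw [e]
    have h1 : 0 ≤ (1 - γ) * (q * (1 - q)) :=
      mul_nonneg (by linarith) (mul_nonneg hq0 (by linarith))
    have h2 := sq_nonneg ((1 - γ) * q + γ * ν - 1 / 2)
    linarith
  set C : ℝ → ℝ := fun q => 2 * Real.sqrt (D q) with hC
  have hC0 : ∀ q, 0 ≤ C q := fun q => by positivity
  have hC1 : ∀ q ∈ Icc (0 : ℝ) 1, C q ≤ 1 := by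
    intro q hq
    have : Real.sqrt (D q) ≤ 1 / 2 := by
      rw [Real.sqrt_le_left (by norm_num)]
      have := hD1 q hq
      linarith
    simp only [hC]
    linarith
  have hfq : ∀ q, fq γ ν q = E2 ((C q) ^ 2 / 4) := by
    intro q
    unfold fq
    congr 1
    simp only [hC]
    rw [mul_pow, Real.sq_sqrt (hD0 q)]
    simp only [hD]
    ring
  have hCconv : ConvexOn ℝ univ C := (convexOn_sqrt_quad hA hB).smul (by norm_num : (0 : ℝ) ≤ 2)
  refine ⟨convex_Icc _ _, ?_⟩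
  intro x hx y hy a b ha hb hab
  have hz := (convex_Icc (0 : ℝ) 1) hx hy ha hb hab
  rw [hfq, hfq, hfq]
  have h1 : C (a • x + b • y) ≤ a • C x + b • C y :=
    hCconv.2 (mem_univ _) (mem_univ _) ha hb hab
  have hCx : C x ∈ Icc (0 : ℝ) 1 := ⟨hC0 x, hC1 x hx⟩
  have hCy : C y ∈ Icc (0 : ℝ) 1 := ⟨hC0 y, hC1 y hy⟩
  have hw := (convex_Icc (0 : ℝ) 1) hCx hCy ha hb hab
  have h2 : E2 ((C (a • x + b • y)) ^ 2 / 4) ≤ E2 ((a • C x + b • C y) ^ 2 / 4) := by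
    have hm1 := hC1 _ hz
    have hm0 := hC0 (a • x + b • y)
    have hsq : (C (a • x + b • y)) ^ 2 ≤ (a • C x + b • C y) ^ 2 := pow_le_pow_left₀ hm0 h1 2
    refine monotoneOn_E2 ⟨by positivity, ?_⟩ ⟨by positivity, ?_⟩ (by linarith)
    · nlinarith
    · have h3 := hw.1
      have h4 := hw.2
      nlinarith
  have h3 : E2 ((a • C x + b • C y) ^ 2 / 4) ≤
      a • E2 ((C x) ^ 2 / 4) + b • E2 ((C y) ^ 2 / 4) :=
    convexOn_E2_sq.2 hCx hCy ha hb hab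
  exact h2.trans h3

end Vale.Agent.P358
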