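import Vale.Agent.Lib.P358.Ent
import Vale.Agent.Lib.P358.Scalar
import Vale.Agent.Lib.P358.Tensor

/-!
# P358, module Induct: from the one-step inequality to all tensor powers
-/

namespace Vale.Agent.P358

open Matrix
open scoped ComplexOrder

/-- The entropy of a state is nonnegative. -/
theorem entU_nonneg_of_trace_one {ι : Type*} [Fintype ι] [DecidableEq ι] {A : Matrix ι ι ℂ}
    (hA : A.PosSemidef) (htr : A.trace = 1) : 0 ≤ entU A := by
  have hH := hA.isHermitian
  unfold entU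
  rw [dif_pos hH]
  have hnn : ∀ i, 0 ≤ hH.eigenvalues i := fun i => hA.eigenvalues_nonneg i
  have hsum : ∑ i, hH.eigenvalues i = 1 := by
    have h1 := hH.trace_eq_sum_eigenvalues
    rw [htr] at h1
    have h2 : ((∑ i, hH.eigenvalues i : ℝ) : ℂ) = ((1 : ℝ) : ℂ) := by
      push_cast; exact h1.symm
    exact_mod_cast h2
  refine Finset.sum_nonneg fun i _ => Real.negMulLog_nonneg (hnn i) ?_
  rw [← hsum]
  exact Finset.single_le_sum (f := hH.eigenvalues) (fun j _ => hnn j) (Finset.mem_univ i)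

theorem diag_re_nonneg {ι : Type*} [Fintype ι] {A : Matrix ι ι ℂ}
    (hA : A.PosSemidef) (i : ι) : 0 ≤ (A i i).re :=
  (Complex.nonneg_iff.1 (hA.diag_nonneg (i := i))).1

theorem trace_re {ι : Type*} [Fintype ι] (A : Matrix ι ι ℂ) :
    A.trace.re = ∑ i, (A i i).re := by
  simp [Matrix.trace, Matrix.diag]

theorem trace_re_nonneg {ι : Type*} [Fintype ι] {A : Matrix ι ι ℂ}
    (hA : A.PosSemidef) : 0 ≤ A.trace.re := by
  rw [trace_re]; exact Finset.sum_nonneg fun i _ => diag_re_nonneg hA i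

theorem trace_eq_re {ι : Type*} [Fintype ι] {A : Matrix ι ι ℂ}
    (hA : A.PosSemidef) : A.trace = ((A.trace.re : ℝ) : ℂ) := by
  apply Complex.ext
  · simp
  · simp only [Complex.ofReal_im]
    have h1 : A.trace.im = ∑ i, (A i i).im := by simp [Matrix.trace, Matrix.diag]
    rw [h1]
    refine Finset.sum_eq_zero fun i _ => ?_
    exact (Complex.nonneg_iff.1 (hA.diag_nonneg (i := i))).2.symm

section pop

variable {n : ℕ}

theorem pop_nonneg {ρ : Matrix (Fin n → Fin 2) (Fin n → Fin 2) ℂ} (hρ : ρ.PosSemidef)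
    (i : Fin n) : 0 ≤ pop ρ i := by
  unfold pop
  refine Finset.sum_nonneg fun x _ => ?_
  split_ifs
  · exact diag_re_nonneg hρ x
  · exact le_rfl

theorem pop_le_trace {ρ : Matrix (Fin n → Fin 2) (Fin n → Fin 2) ℂ} (hρ : ρ.PosSemidef)
    (i : Fin n) : pop ρ i ≤ ρ.trace.re := by
  unfold pop
  rw [trace_re]
  refine Finset.sum_le_sum fun x _ => ?_
  split_ifs
  · exact le_rfl
  · exact diag_re_nonneg hρ x

theorem pop_smul (c : ℝ) (ρ : Matrix (Fin n → Fin 2) (Fin n → Fin 2) ℂ) (i : Fin n) :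
    pop ((c : ℂ) • ρ) i = c * pop ρ i := by
  unfold pop
  rw [Finset.mul_sum]
  refine Finset.sum_congr rfl fun x _ => ?_
  split_ifs
  · simp
  · simp

theorem pop_sum {ι : Type*} (s : Finset ι) (ρ : ι → Matrix (Fin n → Fin 2) (Fin n → Fin 2) ℂ)
    (i : Fin n) : pop (∑ a ∈ s, ρ a) i = ∑ a ∈ s, pop (ρ a) i := by
  unfold pop
  rw [Finset.sum_comm]
  refine Finset.sum_congr rfl fun x _ => ?_
  split_ifs
  · rw [Matrix.sum_apply, Complex.re_sum]
  · simp

theorem pop_zero_bit (ρ : Matrix (Fin (n + 1) → Fin 2) (Fin (n + 1) → Fin 2) ℂ) :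
    pop ρ 0 = (ρ.submatrix (consSum n) (consSum n)).toBlocks₂₂.trace.re := by
  unfold pop
  rw [trace_re, ← (consSum n).sum_comp, Fintype.sum_sum_type]
  simp [consSum, toBlocks₂₂]

theorem pop_succ_bit (ρ : Matrix (Fin (n + 1) → Fin 2) (Fin (n + 1) → Fin 2) ℂ) (i : Fin n) :
    pop ρ i.succ = pop (ρ.submatrix (consSum n) (consSum n)).toBlocks₁₁ i +
      pop (ρ.submatrix (consSum n) (consSum n)).toBlocks₂₂ i := by
  unfold pop
  rw [← (consSum n).sum_comp, Fintype.sum_sum_type]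
  simp [consSum, toBlocks₂₂, toBlocks₁₁]

theorem trace_blocks (ρ : Matrix (Fin (n + 1) → Fin 2) (Fin (n + 1) → Fin 2) ℂ) :
    (ρ.submatrix (consSum n) (consSum n)).toBlocks₁₁.trace +
      (ρ.submatrix (consSum n) (consSum n)).toBlocks₂₂.trace = ρ.trace := by
  simp only [Matrix.trace, Matrix.diag]
  rw [← (consSum n).sum_comp, Fintype.sum_sum_type]
  simp [toBlocks₂₂, toBlocks₁₁]

end pop

/-- The inductive bound for a not necessarily normalised input. -/
theorem scaled_bound {γ ν : ℝ} {n : ℕ}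
    (ih : ∀ {ρ : Matrix (Fin n → Fin 2) (Fin n → Fin 2) ℂ}, ρ.PosSemidef → ρ.trace = 1 →
      ∑ i, fq γ ν (pop ρ i) ≤ entU (tensorPow (gad γ ν) n ρ))
    (hγ : γ ∈ Set.Icc (0 : ℝ) 1) (hν : ν ∈ Set.Icc (0 : ℝ) 1)
    {W : Matrix (Fin n → Fin 2) (Fin n → Fin 2) ℂ} (hW : W.PosSemidef) :
    W.trace.re * ∑ i, fq γ ν (pop W i / W.trace.re) ≤
      entU (tensorPow (gad γ ν) n W) - Real.negMulLog W.trace.re := by
  have hw0 := trace_re_nonneg hW
  have hwe := trace_eq_re hW
  set w : ℝ := W.trace.re with hw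
  rcases hw0.eq_or_lt with h0 | h0
  · rw [← h0]
    have hW0 : W = 0 := by
      rw [← hW.trace_eq_zero_iff, hwe, ← h0]; simp
    have h1 : tensorPow (gad γ ν) n W = ((0 : ℝ) : ℂ) • (0 : Matrix (Fin n → Fin 2) (Fin n → Fin 2) ℂ) := by
      have h2 : W = (0 : ℂ) • W := by rw [hW0]; simp
      rw [h2, tensorPow_smul]; simp
    rw [h1, entU_smul Matrix.isHermitian_zero]
    simp
  · set W1 : Matrix (Fin n → Fin 2) (Fin n → Fin 2) ℂ := ((w⁻¹ : ℝ) : ℂ) • W with hW1
    have hWW : W = ((w : ℝ) : ℂ) • W1 := by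
      rw [hW1, smul_smul, ← Complex.ofReal_mul, mul_inv_cancel₀ h0.ne']; simp
    have hW1p : W1.PosSemidef := by
      apply hW.smul
      exact_mod_cast (inv_pos.2 h0).le
    have hW1t : W1.trace = 1 := by
      rw [hW1, Matrix.trace_smul, hwe, smul_eq_mul, ← Complex.ofReal_mul, inv_mul_cancel₀ h0.ne']
      simp
    have h1 := ih hW1p hW1t
    have h2 : ∀ i, pop W1 i = pop W i / w := by
      intro i; rw [hW1, pop_smul]; field_simp
    simp_rw [h2] at h1
    have hp := tensorPow_posSemidef hγ hν n hW1p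
    have h3 : entU (tensorPow (gad γ ν) n W) =
        w * entU (tensorPow (gad γ ν) n W1) + Real.negMulLog w := by
      conv_lhs => rw [hWW]
      rw [tensorPow_smul, entU_smul hp.isHermitian, tensorPow_trace, hW1t]
      simp
    rw [h3]
    have h4 := mul_le_mul_of_nonneg_left h1 h0.le
    linarith

/-- If the one-step inequality holds for `A_{γ,ν}`, the output entropy of `A_{γ,ν}^{⊗n}` on any
state is at least the sum of `fq` over the populations. -/
theorem sum_fq_le_entU {γ ν : ℝ} (hγ : γ ∈ Set.Icc (0 : ℝ) 1) (hν : ν ∈ Set.Icc (0 : ℝ) 1)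
    (h : OneStep γ ν) (n : ℕ) {ρ : Matrix (Fin n → Fin 2) (Fin n → Fin 2) ℂ}
    (hρ : ρ.PosSemidef) (htr : ρ.trace = 1) :
    ∑ i, fq γ ν (pop ρ i) ≤ entU (tensorPow (gad γ ν) n ρ) := by
  induction n with
  | zero =>
    simp only [Finset.univ_eq_empty, Finset.sum_empty]
    exact entU_nonneg_of_trace_one (tensorPow_posSemidef hγ hν 0 hρ)
      (by rw [tensorPow_trace]; exact htr)
  | succ n ih =>
    set ρ' := ρ.submatrix (consSum n) (consSum n) with hρ'
    have hρ'p : ρ'.PosSemidef := hρ.submatrix _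
    set X0 := ρ'.toBlocks₁₁ with hX0
    set Y0 := ρ'.toBlocks₁₂ with hY0
    set Z0 := ρ'.toBlocks₂₂ with hZ0
    have hY0' : ρ'.toBlocks₂₁ = Y0ᴴ := by
      ext i j
      simp only [toBlocks₂₁, hY0, toBlocks₁₂, conjTranspose_apply, of_apply]
      exact (hρ'p.isHermitian.apply _ _).symm
    have hblocks : (fromBlocks X0 Y0 Y0ᴴ Z0).PosSemidef := by
      rw [← hY0', hX0, hY0, hZ0, fromBlocks_toBlocks]; exact hρ'p
    have hX0p : X0.PosSemidef := hρ'p.submatrix Sum.inl
    have hZ0p : Z0.PosSemidef := hρ'p.submatrix Sum.inr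
    have htr' : X0.trace + Z0.trace = 1 := by
      rw [hX0, hZ0, hρ', trace_blocks, htr]
    have hstep := h n (tensorPow (gad γ ν) n X0) (tensorPow (gad γ ν) n Y0)
      (tensorPow (gad γ ν) n Z0) (tensorPow_posSemidef_blocks hγ hν n hblocks)
      (by rw [tensorPow_trace, tensorPow_trace]; exact htr')
    rw [tensorPow_trace, tensorPow_trace] at hstep
    have hent : entU (tensorPow (gad γ ν) (n + 1) ρ) =
        entU (gadBlock γ ν (tensorPow (gad γ ν) n X0) (tensorPow (gad γ ν) n Y0)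
          (tensorPow (gad γ ν) n Y0)ᴴ (tensorPow (gad γ ν) n Z0)) := by
      rw [← entU_submatrix_equiv (tensorPow (gad γ ν) (n + 1) ρ) (consSum n), tensorPow_succ,
        tensorPow_conjTranspose, ← hY0']
    rw [hent]
    refine le_trans ?_ hstep
    have hX := scaled_bound ih hγ hν hX0p
    have hZ := scaled_bound ih hγ hν hZ0p
    have htX := trace_re_nonneg hX0p
    have htZ := trace_re_nonneg hZ0p
    have hts : X0.trace.re + Z0.trace.re = 1 := by
      rw [← Complex.add_re, htr']; simp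
    rw [Fin.sum_univ_succ]
    have h0 : pop ρ 0 = Z0.trace.re := pop_zero_bit ρ
    rw [h0]
    have hconv := convexOn_fq hγ hν
    have hdiv : ∀ {W : Matrix (Fin n → Fin 2) (Fin n → Fin 2) ℂ}, W.PosSemidef → ∀ i : Fin n,
        pop W i / W.trace.re ∈ Set.Icc (0 : ℝ) 1 ∧ W.trace.re * (pop W i / W.trace.re) = pop W i := by
      intro W hW i
      have h1 := pop_nonneg hW i
      have h2 := pop_le_trace hW i
      have h3 := trace_re_nonneg hW
      refine ⟨⟨div_nonneg h1 h3, div_le_one_of_le₀ h2 h3⟩, ?_⟩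
      rcases h3.eq_or_lt with h4 | h4
      · rw [← h4] at h2 ⊢
        have : pop W i = 0 := le_antisymm h2 h1
        rw [this]; simp
      · field_simp
    have hsum : ∑ i : Fin n, fq γ ν (pop ρ i.succ) ≤
        X0.trace.re * ∑ i, fq γ ν (pop X0 i / X0.trace.re) +
        Z0.trace.re * ∑ i, fq γ ν (pop Z0 i / Z0.trace.re) := by
      rw [Finset.mul_sum, Finset.mul_sum, ← Finset.sum_add_distrib]
      refine Finset.sum_le_sum fun i _ => ?_
      have h1 : pop ρ i.succ = X0.trace.re * (pop X0 i / X0.trace.re) +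
          Z0.trace.re * (pop Z0 i / Z0.trace.re) := by
        rw [(hdiv hX0p i).2, (hdiv hZ0p i).2]
        exact pop_succ_bit ρ i
      rw [h1]
      have := hconv.2 (hdiv hX0p i).1 (hdiv hZ0p i).1 htX htZ hts
      simpa [smul_eq_mul] using this
    linarith

end Vale.Agent.P358
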