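import Vale.Agent.Lib.P358.Induct
import Vale.Agent.Lib.P358.DefsG

/-!
# P358, module InductG: from the one-step inequality with a general measurement to all tensor
powers
-/

namespace Vale.Agent.P358

open Matrix
open scoped ComplexOrder

theorem povmBlock_posSemidef {ι : Type*} [Fintype ι] [DecidableEq ι] {X Y Z : Matrix ι ι ℂ}
    (h : (fromBlocks X Y Yᴴ Z).PosSemidef) (a b : ℂ) : (povmBlock a b X Y Z).PosSemidef := by
  set R : Matrix ι (ι ⊕ ι) ℂ := fromCols (a • (1 : Matrix ι ι ℂ)) (b • (1 : Matrix ι ι ℂ)) with hR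
  have h1 := h.mul_mul_conjTranspose_same R
  have h2 : R * fromBlocks X Y Yᴴ Z * Rᴴ = povmBlock a b X Y Z := by
    rw [hR, conjTranspose_fromCols_eq_fromRows_conjTranspose, fromCols_mul_fromBlocks,
      fromCols_mul_fromRows, povmBlock]
    simp only [conjTranspose_smul, conjTranspose_one, Matrix.smul_mul, Matrix.mul_smul,
      Matrix.one_mul, Matrix.mul_one, smul_add, smul_smul, Matrix.add_mul]
    module
  rwa [h2] at h1

theorem tensorPow_povmBlock (γ ν : ℝ) (n : ℕ) (a b : ℂ)
    (X Y Z : Matrix (Fin n → Fin 2) (Fin n → Fin 2) ℂ) :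
    povmBlock a b (tensorPow (gad γ ν) n X) (tensorPow (gad γ ν) n Y) (tensorPow (gad γ ν) n Z) =
      tensorPow (gad γ ν) n (povmBlock a b X Y Z) := by
  rw [povmBlock, povmBlock, tensorPow_add, tensorPow_add, tensorPow_add, tensorPow_smul,
    tensorPow_smul, tensorPow_smul, tensorPow_smul, tensorPow_conjTranspose]

theorem sum_povmBlock {ι α : Type*} [Fintype α] (a b : α → ℂ) (X Y Z : Matrix ι ι ℂ)
    (ha : ∑ k, a k * star (a k) = 1) (hb : ∑ k, b k * star (b k) = 1)
    (hab : ∑ k, a k * star (b k) = 0) : ∑ k, povmBlock (a k) (b k) X Y Z = X + Z := by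
  have hba : ∑ k, b k * star (a k) = 0 := by
    have h1 := congrArg star hab
    rw [star_sum, star_zero] at h1
    rw [← h1]
    refine Finset.sum_congr rfl fun k _ => ?_
    rw [star_mul', star_star, mul_comm]
  simp only [povmBlock, Finset.sum_add_distrib, ← Finset.sum_smul]
  rw [ha, hb, hab, hba]
  simp

/-- If the one-step inequality holds for `A_{γ,ν}`, the output entropy of `A_{γ,ν}^{⊗n}` on any
state is at least the sum of `fq` over the populations. -/
theorem sum_fq_le_entU_G {γ ν : ℝ} (hγ : γ ∈ Set.Icc (0 : ℝ) 1) (hν : ν ∈ Set.Icc (0 : ℝ) 1)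
    (h : OneStepG γ ν) (n : ℕ) {ρ : Matrix (Fin n → Fin 2) (Fin n → Fin 2) ℂ}
    (hρ : ρ.PosSemidef) (htr : ρ.trace = 1) :
    ∑ i, fq γ ν (pop ρ i) ≤ entU (tensorPow (gad γ ν) n ρ) := by
  induction n with
  | zero =>
    simp only [Finset.univ_eq_empty, Finset.sum_empty]
    exact entU_nonneg_of_trace_one (tensorPow_posSemidef hγ hν 0 hρ)
      (by rw [tensorPow_trace]; exact htr)
  | succ n ih =>
    set ρ' := ρ.submatrix (consSum n) (consSum n) with hρ'
    have hρ'p : ρ'.PosSemidef := hρ.submatrix _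
    set X0 := ρ'.toBlocks₁₁ with hX0
    set Y0 := ρ'.toBlocks₁₂ with hY0
    set Z0 := ρ'.toBlocks₂₂ with hZ0
    have hY0' : ρ'.toBlocks₂₁ = Y0ᴴ := by
      ext i j
      simp only [toBlocks₂₁, hY0, toBlocks₁₂, conjTranspose_apply, of_apply]
      exact (hρ'p.isHermitian.apply _ _).symm
    have hblocks : (fromBlocks X0 Y0 Y0ᴴ Z0).PosSemidef := by
      rw [← hY0', hX0, hY0, hZ0, fromBlocks_toBlocks]; exact hρ'p
    have htr' : X0.trace + Z0.trace = 1 := by
      rw [hX0, hZ0, hρ', trace_blocks, htr]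
    obtain ⟨a, b, ha, hb, hab, hstep⟩ := h n (tensorPow (gad γ ν) n X0) (tensorPow (gad γ ν) n Y0)
      (tensorPow (gad γ ν) n Z0) (tensorPow_posSemidef_blocks hγ hν n hblocks)
      (by rw [tensorPow_trace, tensorPow_trace]; exact htr')
    simp only [tensorPow_povmBlock, tensorPow_trace] at hstep
    have hent : entU (tensorPow (gad γ ν) (n + 1) ρ) =
        entU (gadBlock γ ν (tensorPow (gad γ ν) n X0) (tensorPow (gad γ ν) n Y0)
          (tensorPow (gad γ ν) n Y0)ᴴ (tensorPow (gad γ ν) n Z0)) := by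
      rw [← entU_submatrix_equiv (tensorPow (gad γ ν) (n + 1) ρ) (consSum n), tensorPow_succ,
        tensorPow_conjTranspose, ← hY0']
    rw [hent]
    refine le_trans ?_ hstep
    set V : Fin 2 × Fin 3 → Matrix (Fin n → Fin 2) (Fin n → Fin 2) ℂ :=
      fun k => povmBlock (a k) (b k) X0 Y0 Z0 with hV
    have hVp : ∀ k, (V k).PosSemidef := fun k => povmBlock_posSemidef hblocks (a k) (b k)
    have hVsum : ∑ k, V k = X0 + Z0 := sum_povmBlock a b X0 Y0 Z0 ha hb hab
    have hVb := fun k => scaled_bound ih hγ hν (hVp k)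
    have htV := fun k => trace_re_nonneg (hVp k)
    have hts : ∑ k, (V k).trace.re = 1 := by
      rw [← Complex.re_sum, ← trace_sum, hVsum, trace_add, htr', Complex.one_re]
    rw [Fin.sum_univ_succ]
    have h0 : pop ρ 0 = Z0.trace.re := pop_zero_bit ρ
    rw [h0]
    have hconv := convexOn_fq hγ hν
    have hdiv : ∀ {W : Matrix (Fin n → Fin 2) (Fin n → Fin 2) ℂ}, W.PosSemidef → ∀ i : Fin n,
        pop W i / W.trace.re ∈ Set.Icc (0 : ℝ) 1 ∧ W.trace.re * (pop W i / W.trace.re) = pop W i := by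
      intro W hW i
      have h1 := pop_nonneg hW i
      have h2 := pop_le_trace hW i
      have h3 := trace_re_nonneg hW
      refine ⟨⟨div_nonneg h1 h3, div_le_one_of_le₀ h2 h3⟩, ?_⟩
      rcases h3.eq_or_lt with h4 | h4
      · rw [← h4] at h2 ⊢
        have : pop W i = 0 := le_antisymm h2 h1
        rw [this]; simp
      · field_simp
    have hsum : ∑ i : Fin n, fq γ ν (pop ρ i.succ) ≤
        ∑ k, (V k).trace.re * ∑ i, fq γ ν (pop (V k) i / (V k).trace.re) := by
      simp_rw [Finset.mul_sum]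
      rw [Finset.sum_comm]
      refine Finset.sum_le_sum fun i _ => ?_
      have h1 : pop ρ i.succ = ∑ k, (V k).trace.re * (pop (V k) i / (V k).trace.re) := by
        have h2 : pop ρ i.succ = pop (X0 + Z0) i := by
          rw [pop_succ_bit ρ i, ← hρ', ← hX0, ← hZ0]
          have h3 := pop_sum (Finset.univ : Finset (Fin 2)) (fun j => ![X0, Z0] j) i
          simp only [Fin.sum_univ_two, Matrix.cons_val_zero, Matrix.cons_val_one] at h3
          exact h3.symm
        rw [h2, ← hVsum, pop_sum]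
        refine Finset.sum_congr rfl fun k _ => ?_
        rw [(hdiv (hVp k) i).2]
      rw [h1]
      have := hconv.map_sum_le (t := Finset.univ) (w := fun k => (V k).trace.re)
        (p := fun k => pop (V k) i / (V k).trace.re) (fun k _ => htV k) hts
        (fun k _ => (hdiv (hVp k) i).1)
      simpa [smul_eq_mul] using this
    have hb2 : ∑ k, (V k).trace.re * ∑ i, fq γ ν (pop (V k) i / (V k).trace.re) ≤
        ∑ k, (entU (tensorPow (gad γ ν) n (V k)) - Real.negMulLog (V k).trace.re) :=
      Finset.sum_le_sum fun k _ => hVb k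
    linarith

end Vale.Agent.P358
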