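import Vale.Agent.Lib.P358.Path3

/-!
# P358, module Kraus2: channels with two Kraus operators in path form
-/

namespace Vale.Agent.P358

open Matrix AD P3
open scoped ComplexOrder

variable {ι κ : Type*} [Fintype ι] [DecidableEq ι] [Fintype κ] [DecidableEq κ]

/-- The output of the channel with Kraus operators `diag(c₁, c₂)` and `[[0, s₂], [s₁, 0]]`, on
the input `V Vᴴ`, `V = [x; y]`. -/
noncomputable def krM (c1 s1 c2 s2 : ℝ) (x y : Matrix ι κ ℂ) : Matrix (ι ⊕ ι) (ι ⊕ ι) ℂ :=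
  fromRows ((c1 : ℂ) • x) ((c2 : ℂ) • y) * (fromRows ((c1 : ℂ) • x) ((c2 : ℂ) • y))ᴴ +
  fromRows ((s2 : ℂ) • y) ((s1 : ℂ) • x) * (fromRows ((s2 : ℂ) • y) ((s1 : ℂ) • x))ᴴ

theorem exists_mix (A B : ℝ) :
    ∃ e0 e1 : ℂ, e0 * star e0 + e1 * star e1 = 1 ∧ e0 ^ 2 * (B : ℂ) = e1 ^ 2 * (A : ℂ) := by
  obtain ⟨r0, hr0⟩ := IsAlgClosed.exists_pow_nat_eq (A : ℂ) (n := 2) two_pos
  obtain ⟨r1, hr1⟩ := IsAlgClosed.exists_pow_nat_eq (B : ℂ) (n := 2) two_pos
  set m : ℝ := Complex.normSq r0 + Complex.normSq r1 with hm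
  have hm0 : 0 ≤ m := add_nonneg (Complex.normSq_nonneg _) (Complex.normSq_nonneg _)
  rcases hm0.eq_or_lt with h0 | h0
  · have h1 : Complex.normSq r0 = 0 := by
      have := Complex.normSq_nonneg r0
      have := Complex.normSq_nonneg r1
      linarith
    have h2 : Complex.normSq r1 = 0 := by
      have := Complex.normSq_nonneg r0
      have := Complex.normSq_nonneg r1
      linarith
    have h3 : r1 = 0 := Complex.normSq_eq_zero.1 h2
    have h4 : (B : ℂ) = 0 := by rw [← hr1, h3]; ring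
    exact ⟨1, 0, by simp, by rw [h4]; ring⟩
  · have hsq : Real.sqrt m ^ 2 = m := Real.sq_sqrt h0.le
    have hs : Real.sqrt m ≠ 0 := (Real.sqrt_pos.2 h0).ne'
    have hs' : ((Real.sqrt m : ℝ) : ℂ) ≠ 0 := by exact_mod_cast hs
    have hsq' : ((Real.sqrt m : ℝ) : ℂ) ^ 2 = ((m : ℝ) : ℂ) := by exact_mod_cast hsq
    refine ⟨r0 / (Real.sqrt m : ℝ), r1 / (Real.sqrt m : ℝ), ?_, ?_⟩
    · have e0 : r0 * star r0 + r1 * star r1 = ((m : ℝ) : ℂ) := by
        simp only [hm, RCLike.star_def, Complex.mul_conj]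
        push_cast
        rfl
      have hst : star ((Real.sqrt m : ℝ) : ℂ) = ((Real.sqrt m : ℝ) : ℂ) := by
        rw [RCLike.star_def, Complex.conj_ofReal]
      rw [star_div₀, star_div₀, hst]
      have e2 : r0 / (Real.sqrt m : ℝ) * (star r0 / (Real.sqrt m : ℝ)) +
          r1 / (Real.sqrt m : ℝ) * (star r1 / (Real.sqrt m : ℝ)) =
          (r0 * star r0 + r1 * star r1) / ((Real.sqrt m : ℝ) : ℂ) ^ 2 := by ring
      have hm' : ((m : ℝ) : ℂ) ≠ 0 := by exact_mod_cast h0.ne'
      rw [e2, e0, hsq', div_self hm']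
    · rw [div_pow, div_pow, hr0, hr1]
      ring

theorem exists_left_kernel (a b c d : ℂ) (h : a * d - b * c = 0) :
    ∃ b0 b1 : ℂ, b0 * star b0 + b1 * star b1 = 1 ∧ b0 * a + b1 * c = 0 ∧ b0 * b + b1 * d = 0 := by
  have hdet : (!![a, b; c, d]).det = 0 := by rw [det_fin_two_of]; exact h
  obtain ⟨v, hv, hv0⟩ := Matrix.exists_vecMul_eq_zero_iff.2 hdet
  have h1 : v 0 * a + v 1 * c = 0 := by
    have := congrFun hv0 0
    simpa [vecMul, dotProduct, Fin.sum_univ_two] using this
  have h2 : v 0 * b + v 1 * d = 0 := by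
    have := congrFun hv0 1
    simpa [vecMul, dotProduct, Fin.sum_univ_two] using this
  set m : ℝ := Complex.normSq (v 0) + Complex.normSq (v 1) with hm
  have h0 : 0 < m := by
    by_contra hc
    push Not at hc
    have g1 := Complex.normSq_nonneg (v 0)
    have g2 := Complex.normSq_nonneg (v 1)
    have g3 : Complex.normSq (v 0) = 0 := by linarith
    have g4 : Complex.normSq (v 1) = 0 := by linarith
    apply hv
    funext i
    fin_cases i
    · exact Complex.normSq_eq_zero.1 g3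
    · exact Complex.normSq_eq_zero.1 g4
  have hsq : Real.sqrt m ^ 2 = m := Real.sq_sqrt h0.le
  have hs : Real.sqrt m ≠ 0 := (Real.sqrt_pos.2 h0).ne'
  have hs' : ((Real.sqrt m : ℝ) : ℂ) ≠ 0 := by exact_mod_cast hs
  have hsq' : ((Real.sqrt m : ℝ) : ℂ) ^ 2 = ((m : ℝ) : ℂ) := by exact_mod_cast hsq
  refine ⟨v 0 / (Real.sqrt m : ℝ), v 1 / (Real.sqrt m : ℝ), ?_, ?_, ?_⟩
  · have e0 : v 0 * star (v 0) + v 1 * star (v 1) = ((m : ℝ) : ℂ) := by
      simp only [hm, RCLike.star_def, Complex.mul_conj]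
      push_cast
      rfl
    have hst : star ((Real.sqrt m : ℝ) : ℂ) = ((Real.sqrt m : ℝ) : ℂ) := by
      rw [RCLike.star_def, Complex.conj_ofReal]
    rw [star_div₀, star_div₀, hst]
    have e2 : v 0 / (Real.sqrt m : ℝ) * (star (v 0) / (Real.sqrt m : ℝ)) +
        v 1 / (Real.sqrt m : ℝ) * (star (v 1) / (Real.sqrt m : ℝ)) =
        (v 0 * star (v 0) + v 1 * star (v 1)) / ((Real.sqrt m : ℝ) : ℂ) ^ 2 := by ring
    have hm' : ((m : ℝ) : ℂ) ≠ 0 := by exact_mod_cast h0.ne'
    rw [e2, e0, hsq', div_self hm']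
  · have : v 0 / (Real.sqrt m : ℝ) * a + v 1 / (Real.sqrt m : ℝ) * c =
        (v 0 * a + v 1 * c) / (Real.sqrt m : ℝ) := by ring
    rw [this, h1, zero_div]
  · have : v 0 / (Real.sqrt m : ℝ) * b + v 1 / (Real.sqrt m : ℝ) * d =
        (v 0 * b + v 1 * d) / (Real.sqrt m : ℝ) := by ring
    rw [this, h2, zero_div]

theorem mix_kraus {m n : Type*} [Fintype n] (e0 e1 : ℂ) (h : e0 * star e0 + e1 * star e1 = 1)
    (P Q : Matrix m n ℂ) :
    (e0 • P + e1 • Q) * (e0 • P + e1 • Q)ᴴ +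
      ((-star e1) • P + star e0 • Q) * ((-star e1) • P + star e0 • Q)ᴴ = P * Pᴴ + Q * Qᴴ := by
  have h1 : (e0 • P + e1 • Q) * (e0 • P + e1 • Q)ᴴ +
      ((-star e1) • P + star e0 • Q) * ((-star e1) • P + star e0 • Q)ᴴ =
      (e0 * star e0 + e1 * star e1) • (P * Pᴴ) + (e0 * star e0 + e1 * star e1) • (Q * Qᴴ) := by
    simp only [conjTranspose_add, conjTranspose_smul, star_neg, star_star, Matrix.mul_add,
      Matrix.add_mul, Matrix.smul_mul, Matrix.mul_smul, smul_smul]
    module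
  rw [h1, h, one_smul, one_smul]

/-- **Path form of a channel with two Kraus operators.** -/
theorem exists_path_form {c1 s1 c2 s2 : ℝ} (h1 : c1 ^ 2 + s1 ^ 2 = 1) (h2 : c2 ^ 2 + s2 ^ 2 = 1) :
    ∃ a b : Fin 3 → ℂ, ∑ k, a k * star (a k) = 1 ∧ ∑ k, b k * star (b k) = 1 ∧
      ∑ k, a k * star (b k) = 0 ∧ a 0 * a 2 = ((c1 * s1 : ℝ) : ℂ) ∧
      b 0 * b 2 = ((-(c2 * s2) : ℝ) : ℂ) ∧ a 0 * b 2 + b 0 * a 2 = 0 ∧
      ∀ (x y : Matrix ι κ ℂ), entU (krM c1 s1 c2 s2 x y) =
        entU (p3M (a 1 • x + b 1 • y) (a 0 • x + b 0 • y)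
          ((a 2 • x + b 2 • y) * (a 2 • x + b 2 • y)ᴴ)) := by
  obtain ⟨e0, e1, hE, hdet⟩ := exists_mix (s1 * s2) (c1 * c2)
  obtain ⟨b0, b1, hB, hk1, hk2⟩ := exists_left_kernel (e0 * c1) (e1 * s2) (e1 * s1) (e0 * c2)
    (by push_cast at hdet; linear_combination hdet)
  have hk1' : star b0 * (star e0 * c1) + star b1 * (star e1 * s1) = 0 := by
    have := congrArg star hk1
    simpa only [star_add, star_mul', star_zero, RCLike.star_def, Complex.conj_ofReal] using this
  have hk2' : star b0 * (star e1 * s2) + star b1 * (star e0 * c2) = 0 := by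
    have := congrArg star hk2
    simpa only [star_add, star_mul', star_zero, RCLike.star_def, Complex.conj_ofReal] using this
  have h1' : (c1 : ℂ) ^ 2 + (s1 : ℂ) ^ 2 = 1 := by exact_mod_cast h1
  have h2' : (c2 : ℂ) ^ 2 + (s2 : ℂ) ^ 2 = 1 := by exact_mod_cast h2
  have hsr : ∀ r : ℝ, star (r : ℂ) = (r : ℂ) := fun r => by
    rw [RCLike.star_def, Complex.conj_ofReal]
  refine ⟨![-(b0 * star e1 * c1) + b1 * star e0 * s1,
      -(star b1 * star e1 * c1) - star b0 * star e0 * s1,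
      star b1 * e0 * c1 - star b0 * e1 * s1],
    ![b0 * star e0 * s2 - b1 * star e1 * c2,
      star b1 * star e0 * s2 + star b0 * star e1 * c2,
      star b1 * e1 * s2 - star b0 * e0 * c2], ?_, ?_, ?_, ?_, ?_, ?_, ?_⟩
  · simp only [Fin.sum_univ_three, Matrix.cons_val_zero, Matrix.cons_val_one, Matrix.cons_val,
      star_add, star_sub, star_neg, star_mul', star_star, hsr]
    linear_combination (e1 * star e1 * (c1 : ℂ) ^ 2 + e0 * star e0 * (s1 : ℂ) ^ 2 +
      e0 * star e0 * (c1 : ℂ) ^ 2 + e1 * star e1 * (s1 : ℂ) ^ 2) * hB -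
      (star b0 * star e0 * c1 + star b1 * star e1 * s1) * hk1 +
      ((c1 : ℂ) ^ 2 + (s1 : ℂ) ^ 2) * hE + h1'
  · simp only [Fin.sum_univ_three, Matrix.cons_val_zero, Matrix.cons_val_one, Matrix.cons_val,
      star_add, star_sub, star_neg, star_mul', star_star, hsr]
    linear_combination (e0 * star e0 * (s2 : ℂ) ^ 2 + e1 * star e1 * (c2 : ℂ) ^ 2 +
      e1 * star e1 * (s2 : ℂ) ^ 2 + e0 * star e0 * (c2 : ℂ) ^ 2) * hB -
      (star b0 * star e1 * s2 + star b1 * star e0 * c2) * hk2 +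
      ((c2 : ℂ) ^ 2 + (s2 : ℂ) ^ 2) * hE + h2'
  · simp only [Fin.sum_univ_three, Matrix.cons_val_zero, Matrix.cons_val_one, Matrix.cons_val,
      star_add, star_sub, star_neg, star_mul', star_star, hsr]
    linear_combination (-(star b0 * star e1 * s2 + star b1 * star e0 * c2)) * hk1
  · simp only [Matrix.cons_val_zero, Matrix.cons_val]
    push_cast
    linear_combination (-(star b1 * star e1 * c1) - star b0 * star e0 * s1) * hk1 +
      (c1 : ℂ) * s1 * ((e0 * star e0 + e1 * star e1) * hB + hE)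
  · simp only [Matrix.cons_val_zero, Matrix.cons_val]
    push_cast
    linear_combination (star b1 * star e0 * s2 + star b0 * star e1 * c2) * hk2 -
      (c2 : ℂ) * s2 * ((e0 * star e0 + e1 * star e1) * hB + hE)
  · simp only [Matrix.cons_val_zero, Matrix.cons_val]
    linear_combination (star e0 * star b1 * s2 + star e1 * star b0 * c2) * hk1 +
      (-(star e1 * star b1 * c1) - star e0 * star b0 * s1) * hk2
  · intro x y
    simp only [Matrix.cons_val_zero, Matrix.cons_val_one, Matrix.cons_val]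
    set P : Matrix (ι ⊕ ι) κ ℂ := fromRows ((c1 : ℂ) • x) ((c2 : ℂ) • y) with hP
    set Q : Matrix (ι ⊕ ι) κ ℂ := fromRows ((s2 : ℂ) • y) ((s1 : ℂ) • x) with hQ
    have hmix := mix_kraus e0 e1 hE P Q
    have hkr : krM c1 s1 c2 s2 x y = P * Pᴴ + Q * Qᴴ := rfl
    set W : Matrix (ι ⊕ ι) (ι ⊕ ι) ℂ := fromBlocks (star b1 • 1) ((-star b0) • 1) (b0 • 1)
      (b1 • 1) with hW
    have hWmem : W ∈ Matrix.unitaryGroup (ι ⊕ ι) ℂ := by
      rw [Matrix.mem_unitaryGroup_iff, star_eq_conjTranspose, hW, fromBlocks_conjTranspose,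
        fromBlocks_multiply, ← fromBlocks_one]
      simp only [conjTranspose_smul, conjTranspose_one, Matrix.smul_mul, Matrix.mul_smul,
        Matrix.mul_one, smul_smul, star_neg, star_star, ← add_smul]
      have g1 : b1 * star b1 + -b0 * -star b0 = 1 := by linear_combination hB
      have g2 : star b0 * star b1 + star b1 * -star b0 = 0 := by ring
      have g3 : b1 * b0 + -b0 * b1 = 0 := by ring
      have g4 : star b0 * b0 + star b1 * b1 = 1 := by linear_combination hB
      rw [g1, g2, g3, g4, one_smul, zero_smul]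
    have hWF : W * (e0 • P + e1 • Q) =
        fromRows ((star b1 * e0 * c1 - star b0 * e1 * s1) • x +
          (star b1 * e1 * s2 - star b0 * e0 * c2) • y) 0 := by
      rw [Matrix.mul_add, Matrix.mul_smul, Matrix.mul_smul, hW, hP, hQ, fromBlocks_mul_fromRows,
        fromBlocks_mul_fromRows]
      simp only [Matrix.smul_mul, Matrix.one_mul, Matrix.mul_smul]
      ext i j
      rcases i with i | i
      · simp only [Matrix.add_apply, Matrix.smul_apply, fromRows_apply_inl, smul_eq_mul]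
        ring
      · simp only [Matrix.add_apply, Matrix.smul_apply, fromRows_apply_inr, smul_eq_mul,
          Matrix.zero_apply]
        linear_combination (x i j) * hk1 + (y i j) * hk2
    have hWG : W * ((-star e1) • P + star e0 • Q) =
        fromRows ((-(star b1 * star e1 * c1) - star b0 * star e0 * s1) • x +
          (star b1 * star e0 * s2 + star b0 * star e1 * c2) • y)
          ((-(b0 * star e1 * c1) + b1 * star e0 * s1) • x +
          (b0 * star e0 * s2 - b1 * star e1 * c2) • y) := by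
      rw [Matrix.mul_add, Matrix.mul_smul, Matrix.mul_smul, hW, hP, hQ, fromBlocks_mul_fromRows,
        fromBlocks_mul_fromRows]
      simp only [Matrix.smul_mul, Matrix.one_mul, Matrix.mul_smul]
      ext i j
      rcases i with i | i
      · simp only [Matrix.add_apply, Matrix.smul_apply, fromRows_apply_inl, smul_eq_mul]
        ring
      · simp only [Matrix.add_apply, Matrix.smul_apply, fromRows_apply_inr, smul_eq_mul]
        ring
    set L0 : Matrix ι κ ℂ := (-(b0 * star e1 * c1) + b1 * star e0 * s1) • x +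
          (b0 * star e0 * s2 - b1 * star e1 * c2) • y with hL0
    set L1 : Matrix ι κ ℂ := (-(star b1 * star e1 * c1) - star b0 * star e0 * s1) • x +
          (star b1 * star e0 * s2 + star b0 * star e1 * c2) • y with hL1
    set L2 : Matrix ι κ ℂ := (star b1 * e0 * c1 - star b0 * e1 * s1) • x +
          (star b1 * e1 * s2 - star b0 * e0 * c2) • y with hL2
    have hfin : p3M L1 L0 (L2 * L2ᴴ) = W * krM c1 s1 c2 s2 x y * Wᴴ := by
      rw [hkr, ← hmix]
      have g0 : ∀ A B : Matrix (ι ⊕ ι) (ι ⊕ ι) ℂ, W * (A + B) * Wᴴ = W * A * Wᴴ + W * B * Wᴴ := by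
        intro A B
        rw [Matrix.mul_add, Matrix.add_mul]
      rw [g0]
      have g1 : ∀ F : Matrix (ι ⊕ ι) κ ℂ, W * (F * Fᴴ) * Wᴴ = (W * F) * (W * F)ᴴ := by
        intro F
        rw [conjTranspose_mul]
        simp only [Matrix.mul_assoc]
      rw [g1, g1, hWF, hWG, p3M, conjTranspose_fromRows_eq_fromCols_conjTranspose,
        conjTranspose_fromRows_eq_fromCols_conjTranspose, fromRows_mul_fromCols,
        fromRows_mul_fromCols, fromBlocks_add]
      simp only [conjTranspose_zero, Matrix.mul_zero, Matrix.zero_mul, zero_add]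
      rw [add_comm (L2 * L2ᴴ)]
    have hH : (krM c1 s1 c2 s2 x y).IsHermitian :=
      ((posSemidef_self_mul_conjTranspose P).add (posSemidef_self_mul_conjTranspose Q)).isHermitian
    rw [hfin, entU_conj hH hWmem]

end Vale.Agent.P358
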