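import Vale.Agent.Lib.P358.Ent

/-!
# P358, module Upper: the entropy of a multi-qubit state is at most the sum of the binary
entropies of its populations
-/

namespace Vale.Agent.P358

open Matrix
open scoped ComplexOrder

/-- Gibbs inequality, termwise. -/
theorem negMulLog_le_of_pos {w Q : ℝ} (hw : 0 ≤ w) (hQ : 0 ≤ Q) (h : Q = 0 → w = 0) :
    Real.negMulLog w ≤ -(w * Real.log Q) + (Q - w) := by
  rcases hw.eq_or_lt with h0 | h0
  · rw [← h0]
    simp [hQ]
  · have hQ0 : 0 < Q := by
      rcases hQ.eq_or_lt with h1 | h1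
      · exact absurd (h h1.symm) h0.ne'
      · exact h1
    have h2 := Real.log_le_sub_one_of_pos (div_pos hQ0 h0)
    rw [Real.log_div hQ0.ne' h0.ne'] at h2
    have h3 := mul_le_mul_of_nonneg_left h2 h0.le
    have h4 : w * (Q / w - 1) = Q - w := by
      field_simp
    rw [h4] at h3
    unfold Real.negMulLog
    linarith

/-- Classical subadditivity for bit strings. -/
theorem sum_negMulLog_le_sum_binEntropy (n : ℕ) (w : (Fin n → Fin 2) → ℝ) (hw : ∀ x, 0 ≤ w x)
    (hsum : ∑ x, w x = 1) :
    ∑ x, Real.negMulLog (w x) ≤ ∑ i, Real.binEntropy (∑ x, if x i = 1 then w x else 0) := by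
  classical
  set q : Fin n → Fin 2 → ℝ := fun i b => ∑ x, if x i = b then w x else 0 with hq
  have hq0 : ∀ i b, 0 ≤ q i b := fun i b => Finset.sum_nonneg fun x _ => by
    split_ifs
    · exact hw x
    · exact le_rfl
  have hqsum : ∀ i, ∑ b, q i b = 1 := by
    intro i
    rw [← hsum]
    simp only [hq]
    rw [Finset.sum_comm]
    refine Finset.sum_congr rfl fun x _ => ?_
    simp
  have hle : ∀ x i, w x ≤ q i (x i) := by
    intro x i
    have h1 : (if x i = x i then w x else 0) ≤ q i (x i) :=
      Finset.single_le_sum (f := fun y : Fin n → Fin 2 => if y i = x i then w y else 0)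
        (fun y _ => by
          split_ifs
          · exact hw y
          · exact le_rfl) (Finset.mem_univ x)
    simpa using h1
  set Q : (Fin n → Fin 2) → ℝ := fun x => ∏ i, q i (x i) with hQ
  have hQ0 : ∀ x, 0 ≤ Q x := fun x => Finset.prod_nonneg fun i _ => hq0 i (x i)
  have hQsum : ∑ x, Q x = 1 := by
    have h1 := Finset.prod_univ_sum (fun _ : Fin n => (Finset.univ : Finset (Fin 2))) q
    rw [Fintype.piFinset_univ] at h1
    simp only [hQ]
    rw [← h1]
    exact Finset.prod_eq_one fun i _ => hqsum i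
  have hzero : ∀ x i, q i (x i) = 0 → w x = 0 := fun x i h =>
    le_antisymm ((hle x i).trans h.le) (hw x)
  have hQz : ∀ x, Q x = 0 → w x = 0 := by
    intro x h
    obtain ⟨i, _, hi⟩ := Finset.prod_eq_zero_iff.1 h
    exact hzero x i hi
  have hlog : ∀ x, w x * Real.log (Q x) = ∑ i, w x * Real.log (q i (x i)) := by
    intro x
    by_cases h : w x = 0
    · simp [h]
    · rw [← Finset.mul_sum, hQ]
      congr 1
      exact Real.log_prod fun i _ => fun h' => h (hzero x i h')
  have hb : ∀ i, ∑ x, w x * Real.log (q i (x i)) = ∑ b, q i b * Real.log (q i b) := by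
    intro i
    simp only [hq]
    simp_rw [Finset.sum_mul]
    rw [Finset.sum_comm]
    refine Finset.sum_congr rfl fun x _ => ?_
    simp only [ite_mul, zero_mul]
    rw [Finset.sum_ite_eq Finset.univ (x i)]
    simp
  have hbin : ∀ i, Real.binEntropy (∑ x, if x i = 1 then w x else 0) =
      -∑ b, q i b * Real.log (q i b) := by
    intro i
    have h1 := hqsum i
    rw [Fin.sum_univ_two] at h1 ⊢
    have h2 : q i 0 = 1 - q i 1 := by linarith
    change Real.binEntropy (q i 1) = _
    rw [Real.binEntropy_eq_negMulLog_add_negMulLog_one_sub, ← h2]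
    unfold Real.negMulLog
    ring
  calc ∑ x, Real.negMulLog (w x)
      ≤ ∑ x, (-(w x * Real.log (Q x)) + (Q x - w x)) :=
        Finset.sum_le_sum fun x _ => negMulLog_le_of_pos (hw x) (hQ0 x) (hQz x)
    _ = -∑ x, w x * Real.log (Q x) := by
        rw [Finset.sum_add_distrib, Finset.sum_sub_distrib, hQsum, hsum, Finset.sum_neg_distrib]
        ring
    _ = -∑ i, ∑ b, q i b * Real.log (q i b) := by
        congr 1
        rw [Finset.sum_congr rfl fun x _ => hlog x, Finset.sum_comm]
        exact Finset.sum_congr rfl fun i _ => hb i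
    _ = ∑ i, Real.binEntropy (∑ x, if x i = 1 then w x else 0) := by
        rw [Finset.sum_congr rfl fun i _ => hbin i, Finset.sum_neg_distrib]

theorem entU_le_sum_binEntropy (n : ℕ) {σ : Matrix (Fin n → Fin 2) (Fin n → Fin 2) ℂ}
    (hσ : σ.PosSemidef) (htr : σ.trace = 1) : entU σ ≤ ∑ i, Real.binEntropy (pop σ i) := by
  refine (entU_le_diag hσ).trans ?_
  refine sum_negMulLog_le_sum_binEntropy n (fun x => (σ x x).re) (fun x => ?_) ?_
  · have h := hσ.diag_nonneg (i := x)
    exact (Complex.le_def.1 h).1
  · have h := congrArg Complex.re htr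
    rw [Matrix.trace, Complex.re_sum] at h
    simpa using h

end Vale.Agent.P358
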