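import Vale.Agent.Lib.P358.Induct
import Vale.Agent.Lib.P358.Upper
import Vale.Agent.Lib.P358.Attain

/-!
# P358, module Main: capacity from the one-step inequality
-/

namespace Vale.Agent.P358

open Matrix
open scoped ComplexOrder

theorem continuousOn_gq {γ ν : ℝ} (hγ : γ ∈ Set.Icc (0 : ℝ) 1) (hν : ν ∈ Set.Icc (0 : ℝ) 1) :
    ContinuousOn (gq γ ν) (Set.Icc 0 1) := by
  obtain ⟨hγ0, hγ1⟩ := hγ
  obtain ⟨hν0, hν1⟩ := hν
  unfold gq
  apply ContinuousOn.sub
  · unfold tq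
    exact (Real.binEntropy_continuous.comp (by fun_prop)).continuousOn
  · unfold fq
    refine continuousOn_E2.comp (by fun_prop) ?_
    intro q hq
    obtain ⟨hq0, hq1⟩ := hq
    constructor
    · have h1 : 0 ≤ γ * (1 - γ) * (q - ν) ^ 2 :=
        mul_nonneg (mul_nonneg hγ0 (by linarith)) (sq_nonneg _)
      have h2 : 0 ≤ γ * ν * (1 - ν) := mul_nonneg (mul_nonneg hγ0 hν0) (by linarith)
      linarith
    · have h3 : γ * (1 - γ) * (q - ν) ^ 2 + γ * ν * (1 - ν) =
          1 / 4 - ((1 - γ) * q + γ * ν - 1 / 2) ^ 2 - (1 - γ) * (q * (1 - q)) := by ring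
      simp only
      rw [h3]
      have h4 : 0 ≤ (1 - γ) * (q * (1 - q)) :=
        mul_nonneg (by linarith) (mul_nonneg hq0 (by linarith))
      have h5 := sq_nonneg ((1 - γ) * q + γ * ν - 1 / 2)
      linarith

theorem holevo_le {γ ν : ℝ} (hγ : γ ∈ Set.Icc (0 : ℝ) 1) (hν : ν ∈ Set.Icc (0 : ℝ) 1)
    (h : OneStep γ ν) {q₀ : ℝ} (hmax : IsMaxOn (gq γ ν) (Set.Icc 0 1) q₀) (n : ℕ) {v : ℝ}
    (hv : v ∈ holevoSet (tensorPow (gad γ ν) n)) : v ≤ n * gq γ ν q₀ / Real.log 2 := by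
  obtain ⟨k, p, ρ, hp, hsum, hρ, rfl⟩ := hv
  have hlog : 0 < Real.log 2 := Real.log_pos (by norm_num)
  set σ := ∑ a, (p a : ℂ) • tensorPow (gad γ ν) n (ρ a) with hσ
  have hσp : σ.PosSemidef := by
    rw [hσ]
    refine Matrix.posSemidef_sum _ fun a _ => ?_
    apply (tensorPow_posSemidef hγ hν n (hρ a).1).smul
    exact_mod_cast hp a
  have hσt : σ.trace = 1 := by
    rw [hσ, Matrix.trace_sum]
    have h1 : ∀ a, ((p a : ℂ) • tensorPow (gad γ ν) n (ρ a)).trace = (p a : ℂ) := by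
      intro a
      rw [Matrix.trace_smul, tensorPow_trace, (hρ a).2, smul_eq_mul, mul_one]
    simp_rw [h1]
    exact_mod_cast congrArg (Complex.ofReal) hsum
  have hpop : ∀ i, pop σ i = tq γ ν (∑ a, p a * pop (ρ a) i) := by
    intro i
    rw [hσ, pop_sum]
    have h1 : ∀ a, pop ((p a : ℂ) • tensorPow (gad γ ν) n (ρ a)) i =
        (1 - γ) * (p a * pop (ρ a) i) + γ * ν * p a := by
      intro a
      rw [pop_smul, pop_tensorPow, (hρ a).2]
      simp only [Complex.one_re, mul_one]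
      ring
    simp_rw [h1]
    rw [Finset.sum_add_distrib, ← Finset.mul_sum, ← Finset.mul_sum, hsum]
    unfold tq; ring
  have hq : ∀ i a, pop (ρ a) i ∈ Set.Icc (0 : ℝ) 1 := by
    intro i a
    refine ⟨pop_nonneg (hρ a).1 i, ?_⟩
    have := pop_le_trace (hρ a).1 i
    rw [(hρ a).2] at this
    simpa using this
  have hup := entU_le_sum_binEntropy n hσp hσt
  have hlow : ∑ i, fq γ ν (∑ a, p a * pop (ρ a) i) ≤
      ∑ a, p a * entU (tensorPow (gad γ ν) n (ρ a)) := by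
    calc ∑ i, fq γ ν (∑ a, p a * pop (ρ a) i)
        ≤ ∑ i, ∑ a, p a * fq γ ν (pop (ρ a) i) := by
          refine Finset.sum_le_sum fun i _ => ?_
          have := (convexOn_fq hγ hν).map_sum_le (t := Finset.univ) (w := p)
            (p := fun a => pop (ρ a) i) (fun a _ => hp a) hsum (fun a _ => hq i a)
          simpa [smul_eq_mul] using this
      _ = ∑ a, p a * ∑ i, fq γ ν (pop (ρ a) i) := by
          rw [Finset.sum_comm]
          refine Finset.sum_congr rfl fun a _ => ?_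
          rw [Finset.mul_sum]
      _ ≤ _ := by
          refine Finset.sum_le_sum fun a _ => ?_
          exact mul_le_mul_of_nonneg_left (sum_fq_le_entU hγ hν h n (hρ a).1 (hρ a).2) (hp a)
  have hval : entropy σ - ∑ a, p a * entropy (tensorPow (gad γ ν) n (ρ a)) =
      (entU σ - ∑ a, p a * entU (tensorPow (gad γ ν) n (ρ a))) / Real.log 2 := by
    rw [entropy_eq, sub_div, Finset.sum_div]
    congr 1
    refine Finset.sum_congr rfl fun a _ => ?_
    rw [entropy_eq, mul_div_assoc]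
  rw [hval]
  apply div_le_div_of_nonneg_right _ hlog.le
  calc entU σ - ∑ a, p a * entU (tensorPow (gad γ ν) n (ρ a))
      ≤ ∑ i, Real.binEntropy (pop σ i) - ∑ i, fq γ ν (∑ a, p a * pop (ρ a) i) := by linarith
    _ = ∑ i : Fin n, gq γ ν (∑ a, p a * pop (ρ a) i) := by
        rw [← Finset.sum_sub_distrib]
        refine Finset.sum_congr rfl fun i _ => ?_
        rw [hpop]; rfl
    _ ≤ ∑ _i : Fin n, gq γ ν q₀ := by
        refine Finset.sum_le_sum fun i _ => ?_
        apply hmax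
        constructor
        · exact Finset.sum_nonneg fun a _ => mul_nonneg (hp a) (hq i a).1
        · calc ∑ a, p a * pop (ρ a) i ≤ ∑ a, p a * 1 :=
                Finset.sum_le_sum fun a _ => mul_le_mul_of_nonneg_left (hq i a).2 (hp a)
            _ = 1 := by simp [hsum]
    _ = n * gq γ ν q₀ := by simp

/-- Under the one-step inequality, everything in `holevoSet (A^{⊗n})` is at most
`n * sup gq / log 2`, and this value is attained. -/
theorem isGreatest_of_oneStep {γ ν : ℝ} (hγ : γ ∈ Set.Icc (0 : ℝ) 1) (hν : ν ∈ Set.Icc (0 : ℝ) 1)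
    (h : OneStep γ ν) : ∃ q₀ ∈ Set.Icc (0 : ℝ) 1, IsMaxOn (gq γ ν) (Set.Icc 0 1) q₀ ∧
      (∀ n : ℕ, IsGreatest (holevoSet (tensorPow (gad γ ν) n)) (n * gq γ ν q₀ / Real.log 2)) ∧
      IsGreatest (holevoSet (gad γ ν)) (gq γ ν q₀ / Real.log 2) := by
  obtain ⟨q₀, hq₀, hmax⟩ := isCompact_Icc.exists_isMaxOn
    (Set.nonempty_Icc.2 (zero_le_one (α := ℝ))) (continuousOn_gq hγ hν)
  have hall : ∀ n : ℕ, IsGreatest (holevoSet (tensorPow (gad γ ν) n))
      (n * gq γ ν q₀ / Real.log 2) := fun n =>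
    ⟨mem_holevoSet_tensorPow hγ hν n hq₀, fun v hv => holevo_le hγ hν h hmax n hv⟩
  refine ⟨q₀, hq₀, hmax, hall, ?_⟩
  have h1 := hall 1
  rw [holevoSet_tensorPow_one, Nat.cast_one, one_mul] at h1
  exact h1

/-- Capacity formula under the one-step inequality. -/
theorem capacity_of_oneStep {γ ν : ℝ} (hγ : γ ∈ Set.Icc (0 : ℝ) 1) (hν : ν ∈ Set.Icc (0 : ℝ) 1)
    (h : OneStep γ ν) :
    capacity (gad γ ν) = holevo (gad γ ν) ∧
      (∀ n : ℕ, holevo (tensorPow (gad γ ν) n) = n * holevo (gad γ ν)) := by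
  obtain ⟨q₀, -, -, hall, h1⟩ := isGreatest_of_oneStep hγ hν h
  have e1 : holevo (gad γ ν) = gq γ ν q₀ / Real.log 2 := h1.csSup_eq
  have e2 : ∀ n : ℕ, holevo (tensorPow (gad γ ν) n) = n * holevo (gad γ ν) := by
    intro n
    rw [e1, ← mul_div_assoc]
    exact (hall n).csSup_eq
  refine ⟨?_, e2⟩
  unfold capacity
  have e3 : ∀ n : ℕ, holevo (tensorPow (gad γ ν) (n + 1)) / ((n : ℝ) + 1) =
      holevo (gad γ ν) := by
    intro n
    rw [e2 (n + 1)]
    push_cast
    field_simp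
  simp_rw [e3]
  exact ciSup_const

end Vale.Agent.P358
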