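import Vale.Agent.Lib.P358.Kraus2
import Vale.Agent.Lib.P358.Chord
import Vale.Agent.Lib.P358.DefsG
import Vale.Agent.Lib.P358.Scalar

/-!
# P358, module OneStepG: the one-step inequality for all `γ, ν`
-/

namespace Vale.Agent.P358

open Matrix AD P3
open scoped ComplexOrder

section General

variable {ι κ : Type*} [Fintype ι] [DecidableEq ι] [Fintype κ] [DecidableEq κ]

/-- Concavity of the entropy. -/
theorem entU_concave {α : Type*} [Fintype α] (p : α → ℝ) (hp : ∀ i, 0 ≤ p i)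
    (hsum : ∑ i, p i = 1) (A : α → Matrix ι ι ℂ) (hA : ∀ i, (A i).PosSemidef) :
    ∑ i, p i * entU (A i) ≤ entU (∑ i, ((p i : ℝ) : ℂ) • A i) := by
  set M : Matrix ι ι ℂ := ∑ i, ((p i : ℝ) : ℂ) • A i with hM
  have hMp : M.PosSemidef := by
    rw [hM]
    refine Matrix.posSemidef_sum _ fun a _ => ?_
    exact (hA a).smul (by exact_mod_cast hp a)
  have hH := hMp.isHermitian
  set U : Matrix ι ι ℂ := (hH.eigenvectorUnitary : Matrix ι ι ℂ) with hU
  have hUU' : Uᴴ * U = 1 := Matrix.mem_unitaryGroup_iff'.1 hH.eigenvectorUnitary.2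
  have hUmem : Uᴴ ∈ Matrix.unitaryGroup ι ℂ := by
    rw [Matrix.mem_unitaryGroup_iff, star_eq_conjTranspose, conjTranspose_conjTranspose]
    exact hUU'
  have hspec : M = U * diagonal (fun i => ((hH.eigenvalues i : ℝ) : ℂ)) * Uᴴ := spectral_form hH
  have hd : Uᴴ * M * (Uᴴ)ᴴ = diagonal (fun i => ((hH.eigenvalues i : ℝ) : ℂ)) := by
    rw [conjTranspose_conjTranspose]
    have h1 : Uᴴ * M * U = Uᴴ * U * diagonal (fun i => ((hH.eigenvalues i : ℝ) : ℂ)) *
        (Uᴴ * U) := by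
      conv_lhs => rw [hspec]
      simp only [Matrix.mul_assoc]
    rw [h1, hUU', Matrix.one_mul, Matrix.mul_one]
  have hdj : ∀ j, hH.eigenvalues j = ∑ i, p i * ((Uᴴ * A i * (Uᴴ)ᴴ) j j).re := by
    intro j
    have h1 := congrFun (congrFun hd j) j
    rw [diagonal_apply_eq] at h1
    have h2 : Uᴴ * M * (Uᴴ)ᴴ = ∑ i, ((p i : ℝ) : ℂ) • (Uᴴ * A i * (Uᴴ)ᴴ) := by
      rw [hM, Matrix.mul_sum, Matrix.sum_mul]
      refine Finset.sum_congr rfl fun i _ => ?_
      rw [Matrix.mul_smul, Matrix.smul_mul]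
    rw [h2, Matrix.sum_apply] at h1
    have h3 := congrArg Complex.re h1
    rw [Complex.ofReal_re, Complex.re_sum] at h3
    rw [← h3]
    refine Finset.sum_congr rfl fun i _ => ?_
    rw [Matrix.smul_apply, smul_eq_mul, Complex.re_ofReal_mul]
  have h1 : entU M = ∑ j, Real.negMulLog (hH.eigenvalues j) := by rw [entU, dif_pos hH]
  rw [h1]
  have hpos : ∀ i j, 0 ≤ ((Uᴴ * A i * (Uᴴ)ᴴ) j j).re := fun i j =>
    AD.diag_re_nonneg ((hA i).mul_mul_conjTranspose_same Uᴴ) j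
  have h2 : ∀ j, ∑ i, p i * Real.negMulLog ((Uᴴ * A i * (Uᴴ)ᴴ) j j).re ≤
      Real.negMulLog (hH.eigenvalues j) := by
    intro j
    rw [hdj j]
    have := Real.concaveOn_negMulLog.le_map_sum (t := Finset.univ) (w := p)
      (p := fun i => ((Uᴴ * A i * (Uᴴ)ᴴ) j j).re) (fun i _ => hp i) hsum
      (fun i _ => hpos i j)
    simpa [smul_eq_mul] using this
  calc ∑ i, p i * entU (A i) = ∑ i, p i * entU (Uᴴ * A i * (Uᴴ)ᴴ) := by
        refine Finset.sum_congr rfl fun i _ => ?_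
        rw [entU_conj (hA i).isHermitian hUmem]
    _ ≤ ∑ i, p i * ∑ j, Real.negMulLog ((Uᴴ * A i * (Uᴴ)ᴴ) j j).re := by
        refine Finset.sum_le_sum fun i _ => mul_le_mul_of_nonneg_left ?_ (hp i)
        exact entU_le_diag ((hA i).mul_mul_conjTranspose_same Uᴴ)
    _ = ∑ j, ∑ i, p i * Real.negMulLog ((Uᴴ * A i * (Uᴴ)ᴴ) j j).re := by
        simp_rw [Finset.mul_sum]
        rw [Finset.sum_comm]
    _ ≤ _ := Finset.sum_le_sum fun j _ => h2 j

omit [Fintype ι] [DecidableEq ι] [DecidableEq κ] in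
theorem L_eq_povm (a b : ℂ) (x y : Matrix ι κ ℂ) :
    (a • x + b • y) * (a • x + b • y)ᴴ = povmBlock a b (x * xᴴ) (x * yᴴ) (y * yᴴ) := by
  rw [povmBlock, conjTranspose_add, conjTranspose_smul, conjTranspose_smul, conjTranspose_mul,
    conjTranspose_conjTranspose]
  simp only [Matrix.mul_add, Matrix.add_mul, Matrix.smul_mul, Matrix.mul_smul, smul_smul]
  module

theorem mul_star_eq (a : ℂ) : a * star a = ((Complex.normSq a : ℝ) : ℂ) := by
  rw [RCLike.star_def, Complex.mul_conj]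

omit [DecidableEq ι] [DecidableEq κ] in
theorem trace_L (x y : Matrix ι κ ℂ) {t : ℝ} (ht : (x * yᴴ).trace = (t : ℂ)) (a b : ℂ) :
    ((a • x + b • y) * (a • x + b • y)ᴴ).trace.re = Complex.normSq a * (x * xᴴ).trace.re +
      Complex.normSq b * (y * yᴴ).trace.re + 2 * (a * star b).re * t := by
  have ht' : ((x * yᴴ)ᴴ).trace = (t : ℂ) := by
    rw [trace_conjTranspose, ht, RCLike.star_def, Complex.conj_ofReal]
  rw [L_eq_povm, povmBlock, trace_add, trace_add, trace_add, trace_smul, trace_smul, trace_smul,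
    trace_smul, ht, ht', mul_star_eq, mul_star_eq]
  have h1 : (b * star a).re = (a * star b).re := by
    simp [Complex.mul_re]
    ring
  simp only [smul_eq_mul, Complex.add_re, Complex.re_ofReal_mul, Complex.re_mul_ofReal, h1]
  ring

omit [DecidableEq ι] [DecidableEq κ] in
theorem sq_le_of_trace (x y : Matrix ι κ ℂ) {t : ℝ} (ht : (x * yᴴ).trace = (t : ℂ)) :
    t ^ 2 ≤ (x * xᴴ).trace.re * (y * yᴴ).trace.re := by
  set p := (x * xᴴ).trace.re with hp
  set q := (y * yᴴ).trace.re with hq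
  have hq0 : 0 ≤ q := (Complex.le_def.1 (posSemidef_self_mul_conjTranspose y).trace_nonneg).1
  have hp0 : 0 ≤ p := (Complex.le_def.1 (posSemidef_self_mul_conjTranspose x).trace_nonneg).1
  have key : ∀ r s : ℝ, 0 ≤ r ^ 2 * p + s ^ 2 * q + 2 * (r * s) * t := by
    intro r s
    have h1 := trace_L x y ht (r : ℂ) (s : ℂ)
    have h2 := (Complex.le_def.1
      (posSemidef_self_mul_conjTranspose ((r : ℂ) • x + (s : ℂ) • y)).trace_nonneg).1
    rw [h1] at h2
    simp only [Complex.zero_re, Complex.normSq_ofReal] at h2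
    have h3 : ((r : ℂ) * star (s : ℂ)).re = r * s := by
      rw [RCLike.star_def, Complex.conj_ofReal, ← Complex.ofReal_mul, Complex.ofReal_re]
    rw [h3] at h2
    nlinarith [h2]
  rcases hq0.eq_or_lt with h0 | h0
  · -- q = 0
    have h1 : t = 0 := by
      by_contra hne
      have h2 := key 1 (-(p + 1) / (2 * t))
      rw [← h0] at h2
      have h3 : (1 : ℝ) ^ 2 * p + (-(p + 1) / (2 * t)) ^ 2 * 0 + 2 * (1 * (-(p + 1) / (2 * t))) * t
          = -1 := by
        field_simp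
        ring
      rw [h3] at h2
      linarith
    rw [h1, ← h0]
    simp
  · have h1 := key q (-t)
    have h2 : q ^ 2 * p + (-t) ^ 2 * q + 2 * (q * -t) * t = q * (p * q - t ^ 2) := by ring
    rw [h2] at h1
    have h3 := nonneg_of_mul_nonneg_right h1 h0
    linarith

/-- The real Cauchy-Schwarz inequality used for real reduced states. -/
theorem cs_real (a0 b0 a2 b2 : ℂ) (p q t A B : ℝ) (hpq : t ^ 2 ≤ p * q)
    (hA : a0 * a2 = (A : ℂ)) (hB : b0 * b2 = (B : ℂ)) (h0 : a0 * b2 + b0 * a2 = 0) :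
    (A * p + B * q) ^ 2 ≤
      (Complex.normSq a0 * p + Complex.normSq b0 * q + 2 * (a0 * star b0).re * t) *
      (Complex.normSq a2 * p + Complex.normSq b2 * q + 2 * (a2 * star b2).re * t) := by
  have hAr := congrArg Complex.re hA
  have hAi := congrArg Complex.im hA
  have hBr := congrArg Complex.re hB
  have hBi := congrArg Complex.im hB
  have h0r := congrArg Complex.re h0
  have h0i := congrArg Complex.im h0
  simp only [Complex.mul_re, Complex.mul_im, Complex.add_re, Complex.add_im, Complex.ofReal_re,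
    Complex.ofReal_im, Complex.zero_re, Complex.zero_im] at hAr hAi hBr hBi h0r h0i
  have e1 : (a0 * star b0).re = a0.re * b0.re + a0.im * b0.im := by
    simp [Complex.mul_re]
  have e2 : (a2 * star b2).re = a2.re * b2.re + a2.im * b2.im := by
    simp [Complex.mul_re]
  rw [e1, e2, Complex.normSq_apply, Complex.normSq_apply, Complex.normSq_apply,
    Complex.normSq_apply]
  have hid : ((a0.re * a0.re + a0.im * a0.im) * p + (b0.re * b0.re + b0.im * b0.im) * q +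
      2 * (a0.re * b0.re + a0.im * b0.im) * t) *
      ((a2.re * a2.re + a2.im * a2.im) * p + (b2.re * b2.re + b2.im * b2.im) * q +
      2 * (a2.re * b2.re + a2.im * b2.im) * t) =
      ((a0.re * a2.re - a0.im * a2.im) * p + (b0.re * b2.re - b0.im * b2.im) * q +
        (a0.re * b2.re - a0.im * b2.im + (b0.re * a2.re - b0.im * a2.im)) * t) ^ 2 +
      ((a0.re * a2.im + a0.im * a2.re) * p + (b0.re * b2.im + b0.im * b2.re) * q +
        (a0.re * b2.im + a0.im * b2.re + (b0.re * a2.im + b0.im * a2.re)) * t) ^ 2 +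
      (p * q - t ^ 2) * ((a0.re * b2.re + a0.im * b2.im - b0.re * a2.re - b0.im * a2.im) ^ 2 +
        (a0.re * b2.im - a0.im * b2.re - b0.re * a2.im + b0.im * a2.re) ^ 2) := by ring
  rw [hid, hAr, hAi, hBr, hBi, h0r, h0i]
  have h1 : 0 ≤ (p * q - t ^ 2) *
      ((a0.re * b2.re + a0.im * b2.im - b0.re * a2.re - b0.im * a2.im) ^ 2 +
        (a0.re * b2.im - a0.im * b2.re - b0.re * a2.im + b0.im * a2.re) ^ 2) :=
    mul_nonneg (by linarith) (by positivity)
  nlinarith [h1]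

/-- The one-step inequality for a channel with two Kraus operators, for a real reduced state. -/
theorem krM_ge {c1 s1 c2 s2 : ℝ} (h1 : c1 ^ 2 + s1 ^ 2 = 1) (h2 : c2 ^ 2 + s2 ^ 2 = 1)
    (x y : Matrix ι κ ℂ) {t : ℝ} (ht : (x * yᴴ).trace = (t : ℂ))
    (htr : (x * xᴴ).trace.re + (y * yᴴ).trace.re = 1) :
    ∃ a b : Fin 3 → ℂ, ∑ k, a k * star (a k) = 1 ∧ ∑ k, b k * star (b k) = 1 ∧
      ∑ k, a k * star (b k) = 0 ∧
      E2 ((c1 * s1 * (x * xᴴ).trace.re - c2 * s2 * (y * yᴴ).trace.re) ^ 2) +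
        ∑ k, (entU (povmBlock (a k) (b k) (x * xᴴ) (x * yᴴ) (y * yᴴ)) -
        Real.negMulLog (povmBlock (a k) (b k) (x * xᴴ) (x * yᴴ) (y * yᴴ)).trace.re) ≤
      entU (krM c1 s1 c2 s2 x y) := by
  obtain ⟨a, b, ha, hb, hab, hA, hB, h0, hent⟩ := exists_path_form (ι := ι) (κ := κ) h1 h2
  refine ⟨a, b, ha, hb, hab, ?_⟩
  rw [hent]
  set p := (x * xᴴ).trace.re with hp
  set q := (y * yᴴ).trace.re with hq
  have hT : ∀ k, ((a k • x + b k • y) * (a k • x + b k • y)ᴴ).trace.re =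
      Complex.normSq (a k) * p + Complex.normSq (b k) * q + 2 * (a k * star (b k)).re * t :=
    fun k => trace_L x y ht (a k) (b k)
  have ha' : ∑ k, Complex.normSq (a k) = 1 := by
    have h3 : ((∑ k, Complex.normSq (a k) : ℝ) : ℂ) = 1 := by
      rw [← ha]
      push_cast
      exact Finset.sum_congr rfl fun k _ => (mul_star_eq _).symm
    exact_mod_cast h3
  have hb' : ∑ k, Complex.normSq (b k) = 1 := by
    have h3 : ((∑ k, Complex.normSq (b k) : ℝ) : ℂ) = 1 := by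
      rw [← hb]
      push_cast
      exact Finset.sum_congr rfl fun k _ => (mul_star_eq _).symm
    exact_mod_cast h3
  have hab' : ∑ k, (a k * star (b k)).re = 0 := by
    rw [← Complex.re_sum, hab, Complex.zero_re]
  have hTsum : ∑ k, ((a k • x + b k • y) * (a k • x + b k • y)ᴴ).trace.re = 1 := by
    simp_rw [hT]
    rw [Finset.sum_add_distrib, Finset.sum_add_distrib, ← Finset.sum_mul, ← Finset.sum_mul,
      ← Finset.sum_mul, ← Finset.mul_sum, ha', hb', hab']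
    linarith
  set L : Fin 3 → Matrix ι κ ℂ := fun k => a k • x + b k • y with hL
  have hTsum' : (L 1 * (L 1)ᴴ).trace.re + (L 2 * (L 2)ᴴ).trace.re + (L 0 * (L 0)ᴴ).trace.re = 1 := by
    rw [Fin.sum_univ_three] at hTsum
    linarith
  have hpath := path3_one (L 1) (L 0) (L 2 * (L 2)ᴴ) (posSemidef_self_mul_conjTranspose _) hTsum'
  have hcs := cs_real (a 0) (b 0) (a 2) (b 2) p q t (c1 * s1) (-(c2 * s2)) (sq_le_of_trace x y ht)
    hA hB h0
  rw [← hT 0, ← hT 2] at hcs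
  have hn0 : 0 ≤ (L 0 * (L 0)ᴴ).trace.re :=
    (Complex.le_def.1 (posSemidef_self_mul_conjTranspose (L 0)).trace_nonneg).1
  have hn1 : 0 ≤ (L 1 * (L 1)ᴴ).trace.re :=
    (Complex.le_def.1 (posSemidef_self_mul_conjTranspose (L 1)).trace_nonneg).1
  have hn2 : 0 ≤ (L 2 * (L 2)ᴴ).trace.re :=
    (Complex.le_def.1 (posSemidef_self_mul_conjTranspose (L 2)).trace_nonneg).1
  have hmem2 : (L 2 * (L 2)ᴴ).trace.re * (L 0 * (L 0)ᴴ).trace.re ∈ Set.Icc (0 : ℝ) (1 / 4) := by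
    refine ⟨mul_nonneg hn2 hn0, ?_⟩
    nlinarith [sq_nonneg ((L 2 * (L 2)ᴴ).trace.re - (L 0 * (L 0)ᴴ).trace.re)]
  have hle : (c1 * s1 * p - c2 * s2 * q) ^ 2 ≤
      (L 2 * (L 2)ᴴ).trace.re * (L 0 * (L 0)ᴴ).trace.re := by
    calc (c1 * s1 * p - c2 * s2 * q) ^ 2 = (c1 * s1 * p + -(c2 * s2) * q) ^ 2 := by ring
      _ ≤ (L 0 * (L 0)ᴴ).trace.re * (L 2 * (L 2)ᴴ).trace.re := hcs
      _ = _ := mul_comm _ _
  have hmem1 : (c1 * s1 * p - c2 * s2 * q) ^ 2 ∈ Set.Icc (0 : ℝ) (1 / 4) :=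
    ⟨sq_nonneg _, hle.trans hmem2.2⟩
  have hmono := monotoneOn_E2 hmem1 hmem2 hle
  rw [Fin.sum_univ_three, ← L_eq_povm, ← L_eq_povm, ← L_eq_povm]
  have g0 : a 0 • x + b 0 • y = L 0 := rfl
  have g1 : a 1 • x + b 1 • y = L 1 := rfl
  have g2 : a 2 • x + b 2 • y = L 2 := rfl
  rw [g0, g1, g2]
  linarith

omit [DecidableEq κ] in
theorem krM_posSemidef (c1 s1 c2 s2 : ℝ) (x y : Matrix ι κ ℂ) :
    (krM c1 s1 c2 s2 x y).PosSemidef :=
  (posSemidef_self_mul_conjTranspose _).add (posSemidef_self_mul_conjTranspose _)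

omit [Fintype ι] [DecidableEq ι] [DecidableEq κ] in
theorem krM_eq (c1 s1 c2 s2 : ℝ) (x y : Matrix ι κ ℂ) :
    krM c1 s1 c2 s2 x y = fromBlocks
      (((c1 ^ 2 : ℝ) : ℂ) • (x * xᴴ) + ((s2 ^ 2 : ℝ) : ℂ) • (y * yᴴ))
      (((c1 * c2 : ℝ) : ℂ) • (x * yᴴ) + ((s1 * s2 : ℝ) : ℂ) • (y * xᴴ))
      (((c1 * c2 : ℝ) : ℂ) • (y * xᴴ) + ((s1 * s2 : ℝ) : ℂ) • (x * yᴴ))
      (((c2 ^ 2 : ℝ) : ℂ) • (y * yᴴ) + ((s1 ^ 2 : ℝ) : ℂ) • (x * xᴴ)) := by
  have hsr : ∀ r : ℝ, star (r : ℂ) = (r : ℂ) := fun r => by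
    rw [RCLike.star_def, Complex.conj_ofReal]
  rw [krM, conjTranspose_fromRows_eq_fromCols_conjTranspose,
    conjTranspose_fromRows_eq_fromCols_conjTranspose, fromRows_mul_fromCols,
    fromRows_mul_fromCols, fromBlocks_add]
  simp only [conjTranspose_smul, Matrix.smul_mul, Matrix.mul_smul, smul_smul, hsr]
  push_cast
  congr 1 <;> module

/-- The generalized amplitude-damping channel as a mixture. -/
theorem gadBlock_eq_sum {γ ν : ℝ} (p c1 s1 c2 s2 : Fin 2 → ℝ)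
    (g1 : ∑ i, p i * c1 i ^ 2 = 1 - γ * ν) (g2 : ∑ i, p i * s2 i ^ 2 = γ * (1 - ν))
    (g3 : ∑ i, p i * s1 i ^ 2 = γ * ν) (g4 : ∑ i, p i * c2 i ^ 2 = 1 - γ + γ * ν)
    (g5 : ∑ i, p i * (c1 i * c2 i) = Real.sqrt (1 - γ)) (g6 : ∑ i, p i * (s1 i * s2 i) = 0)
    (x y : Matrix ι κ ℂ) :
    gadBlock γ ν (x * xᴴ) (x * yᴴ) (y * xᴴ) (y * yᴴ) =
      ∑ i, ((p i : ℝ) : ℂ) • krM (c1 i) (s1 i) (c2 i) (s2 i) x y := by
  rw [gadBlock, ← g4, ← g1, ← g2, ← g3, ← g5]
  have g6' : ((∑ i, p i * (s1 i * s2 i) : ℝ) : ℂ) = 0 := by rw [g6]; simp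
  have e1 : ((∑ i, p i * (c1 i * c2 i) : ℝ) : ℂ) • (x * yᴴ) =
      ((∑ i, p i * (c1 i * c2 i) : ℝ) : ℂ) • (x * yᴴ) +
      ((∑ i, p i * (s1 i * s2 i) : ℝ) : ℂ) • (y * xᴴ) := by
    rw [g6', zero_smul, add_zero]
  have e2 : ((∑ i, p i * (c1 i * c2 i) : ℝ) : ℂ) • (y * xᴴ) =
      ((∑ i, p i * (c1 i * c2 i) : ℝ) : ℂ) • (y * xᴴ) +
      ((∑ i, p i * (s1 i * s2 i) : ℝ) : ℂ) • (x * yᴴ) := by
    rw [g6', zero_smul, add_zero]
  rw [e1, e2]
  simp only [Fin.sum_univ_two, krM_eq, fromBlocks_smul, fromBlocks_add]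
  push_cast
  congr 1 <;> module

theorem gadBlock_isHermitian (γ ν : ℝ) {X Y Z : Matrix ι ι ℂ} (hX : X.IsHermitian)
    (hZ : Z.IsHermitian) : (gadBlock γ ν X Y Yᴴ Z).IsHermitian := by
  have hsr : ∀ r : ℝ, star (r : ℂ) = (r : ℂ) := fun r => by
    rw [RCLike.star_def, Complex.conj_ofReal]
  rw [IsHermitian, gadBlock, fromBlocks_conjTranspose]
  simp only [conjTranspose_add, conjTranspose_smul, conjTranspose_conjTranspose, hsr, hX.eq,
    hZ.eq]

theorem exists_phase (τ : ℂ) : ∃ ω : ℂ, ω * star ω = 1 ∧ ∃ t : ℝ, star ω * τ = (t : ℂ) := by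
  by_cases h : τ = 0
  · exact ⟨1, by simp, 0, by simp [h]⟩
  · have hn : ((‖τ‖ : ℝ) : ℂ) ≠ 0 := by exact_mod_cast norm_ne_zero_iff.2 h
    have hst : star ((‖τ‖ : ℝ) : ℂ) = ((‖τ‖ : ℝ) : ℂ) := by
      rw [RCLike.star_def, Complex.conj_ofReal]
    have h2 : τ * star τ = ((‖τ‖ : ℝ) : ℂ) ^ 2 := by
      rw [RCLike.star_def, Complex.mul_conj, Complex.normSq_eq_norm_sq]
      push_cast
      rfl
    refine ⟨τ / (‖τ‖ : ℝ), ?_, ‖τ‖, ?_⟩
    · rw [star_div₀, hst]
      field_simp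
      rw [h2]
    · rw [star_div₀, hst]
      field_simp
      rw [mul_comm, h2]

end General

/-- **The one-step inequality for all parameters.** -/
theorem oneStepG {γ ν : ℝ} (hγ : γ ∈ Set.Icc (0 : ℝ) 1) (hν : ν ∈ Set.Icc (0 : ℝ) 1) :
    OneStepG γ ν := by
  intro m X Y Z hpsd htr
  obtain ⟨C, hC⟩ := exists_factor hpsd
  set x := C.toRows₁ with hx
  set y0 := C.toRows₂ with hy0
  have hCC : C = fromRows x y0 := (fromRows_toRows C).symm
  rw [hCC, conjTranspose_fromRows_eq_fromCols_conjTranspose, fromRows_mul_fromCols,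
    fromBlocks_inj] at hC
  obtain ⟨hX, hY, hY', hZ⟩ := hC
  have hXh : X.IsHermitian := by
    rw [hX]
    exact (posSemidef_self_mul_conjTranspose x).isHermitian
  have hZh : Z.IsHermitian := by
    rw [hZ]
    exact (posSemidef_self_mul_conjTranspose y0).isHermitian
  obtain ⟨ω, hω, t, ht⟩ := exists_phase Y.trace
  set y := ω • y0 with hy
  have hωω : star ω * ω = 1 := by rw [mul_comm]; exact hω
  have hyy : y * yᴴ = Z := by
    rw [hy, conjTranspose_smul, Matrix.smul_mul, Matrix.mul_smul, smul_smul, hω, one_smul, ← hZ]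
  have hxy : x * yᴴ = star ω • Y := by
    rw [hy, conjTranspose_smul, Matrix.mul_smul, ← hY]
  have hyx : y * xᴴ = ω • Yᴴ := by
    rw [hy, Matrix.smul_mul, ← hY']
  have htxy : (x * yᴴ).trace = (t : ℂ) := by
    rw [hxy, trace_smul, smul_eq_mul, ht]
  set q := Z.trace.re with hq
  have hp : (x * xᴴ).trace.re = 1 - q := by
    rw [← hX]
    have h1 := congrArg Complex.re htr
    rw [Complex.add_re, Complex.one_re] at h1
    linarith
  have hq' : (y * yᴴ).trace.re = q := by rw [hyy]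
  obtain ⟨p, c1, s1, c2, s2, hp0, hp1, h1, h2, g1, g2, g3, g4, g5, g6, hdet⟩ :=
    exists_decomp hγ hν q
  have hstep := fun i => krM_ge (h1 i) (h2 i) x y htxy (by rw [hp, hq']; ring)
  choose a b ha hb hab hge using hstep
  -- the entropy of the mixture
  have hconc := entU_concave p hp0 hp1 (fun i => krM (c1 i) (s1 i) (c2 i) (s2 i) x y)
    (fun i => krM_posSemidef _ _ _ _ _ _)
  rw [← gadBlock_eq_sum p c1 s1 c2 s2 g1 g2 g3 g4 g5 g6 x y] at hconc
  -- removing the phase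
  have hGh : (gadBlock γ ν X Y Yᴴ Z).IsHermitian := gadBlock_isHermitian γ ν hXh hZh
  set W : Matrix ((Fin m → Fin 2) ⊕ (Fin m → Fin 2)) ((Fin m → Fin 2) ⊕ (Fin m → Fin 2)) ℂ :=
    fromBlocks 1 0 0 (ω • 1) with hW
  have hWmem : W ∈ Matrix.unitaryGroup ((Fin m → Fin 2) ⊕ (Fin m → Fin 2)) ℂ := by
    rw [Matrix.mem_unitaryGroup_iff, star_eq_conjTranspose, hW, fromBlocks_conjTranspose,
      fromBlocks_multiply, ← fromBlocks_one]
    simp only [conjTranspose_zero, Matrix.mul_zero, Matrix.zero_mul, add_zero, zero_add,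
      conjTranspose_one, Matrix.mul_one, conjTranspose_smul, Matrix.smul_mul, Matrix.mul_smul,
      smul_smul, hωω, one_smul, smul_zero]
  have hGW : gadBlock γ ν (x * xᴴ) (x * yᴴ) (y * xᴴ) (y * yᴴ) =
      W * gadBlock γ ν X Y Yᴴ Z * Wᴴ := by
    rw [hxy, hyx, hyy, ← hX, gadBlock, gadBlock, hW, fromBlocks_conjTranspose,
      fromBlocks_multiply, fromBlocks_multiply]
    simp only [conjTranspose_zero, Matrix.mul_zero, Matrix.zero_mul, add_zero, zero_add,
      conjTranspose_one, Matrix.mul_one, Matrix.one_mul, conjTranspose_smul, Matrix.smul_mul,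
      Matrix.mul_smul, smul_smul, smul_add, smul_zero, add_zero, zero_add]
    have k1 : ∀ c : ℂ, star ω * (ω * c) = c := fun c => by
      rw [← mul_assoc, hωω, one_mul]
    congr 1
    all_goals first | rw [k1, k1] | rw [mul_comm]
  rw [hGW, entU_conj hGh hWmem] at hconc
  have hsr : ∀ i, ((Real.sqrt (p i) : ℝ) : ℂ) * ((Real.sqrt (p i) : ℝ) : ℂ) = ((p i : ℝ) : ℂ) :=
    fun i => by rw [← Complex.ofReal_mul, Real.mul_self_sqrt (hp0 i)]
  have hss : ∀ i, star ((Real.sqrt (p i) : ℝ) : ℂ) = ((Real.sqrt (p i) : ℝ) : ℂ) :=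
    fun i => by rw [RCLike.star_def, Complex.conj_ofReal]
  have hp1' : ∑ i, ((p i : ℝ) : ℂ) = 1 := by exact_mod_cast hp1
  refine ⟨fun k => ((Real.sqrt (p k.1) : ℝ) : ℂ) * a k.1 k.2,
    fun k => ((Real.sqrt (p k.1) : ℝ) : ℂ) * b k.1 k.2 * ω, ?_, ?_, ?_, ?_⟩
  · rw [Fintype.sum_prod_type, ← hp1']
    refine Finset.sum_congr rfl fun i _ => ?_
    have e1 : ∀ j, ((Real.sqrt (p i) : ℝ) : ℂ) * a i j *
        star (((Real.sqrt (p i) : ℝ) : ℂ) * a i j) = ((p i : ℝ) : ℂ) * (a i j * star (a i j)) := by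
      intro j
      rw [star_mul', hss, ← hsr]
      ring
    simp only [e1]
    rw [← Finset.mul_sum, ha i, mul_one]
  · rw [Fintype.sum_prod_type, ← hp1']
    refine Finset.sum_congr rfl fun i _ => ?_
    have e1 : ∀ j, ((Real.sqrt (p i) : ℝ) : ℂ) * b i j * ω *
        star (((Real.sqrt (p i) : ℝ) : ℂ) * b i j * ω) =
        ((p i : ℝ) : ℂ) * (b i j * star (b i j)) := by
      intro j
      rw [star_mul', star_mul', hss, ← hsr]
      linear_combination (((Real.sqrt (p i) : ℝ) : ℂ) * ((Real.sqrt (p i) : ℝ) : ℂ) * b i j *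
        star (b i j)) * hω
    simp only [e1]
    rw [← Finset.mul_sum, hb i, mul_one]
  · rw [Fintype.sum_prod_type]
    refine Finset.sum_eq_zero fun i _ => ?_
    have e1 : ∀ j, ((Real.sqrt (p i) : ℝ) : ℂ) * a i j *
        star (((Real.sqrt (p i) : ℝ) : ℂ) * b i j * ω) =
        (((p i : ℝ) : ℂ) * star ω) * (a i j * star (b i j)) := by
      intro j
      rw [star_mul', star_mul', hss, ← hsr]
      ring
    simp only [e1]
    rw [← Finset.mul_sum, hab i, mul_zero]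
  · -- the inequality
    have hpov : ∀ i j, povmBlock (((Real.sqrt (p i) : ℝ) : ℂ) * a i j)
        (((Real.sqrt (p i) : ℝ) : ℂ) * b i j * ω) X Y Z =
        ((p i : ℝ) : ℂ) • povmBlock (a i j) (b i j) (x * xᴴ) (x * yᴴ) (y * yᴴ) := by
      intro i j
      have hYx : (x * yᴴ)ᴴ = ω • Yᴴ := by
        rw [hxy, conjTranspose_smul, star_star]
      rw [povmBlock, povmBlock, hYx, hxy, hyy, ← hX]
      simp only [star_mul', hss, smul_add, smul_smul]
      rw [← hsr i]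
      have k1 : ((Real.sqrt (p i) : ℝ) : ℂ) * b i j * ω *
          (((Real.sqrt (p i) : ℝ) : ℂ) * star (b i j) * star ω) =
          ((Real.sqrt (p i) : ℝ) : ℂ) * ((Real.sqrt (p i) : ℝ) : ℂ) * (b i j * star (b i j)) := by
        linear_combination (((Real.sqrt (p i) : ℝ) : ℂ) * ((Real.sqrt (p i) : ℝ) : ℂ) * b i j *
          star (b i j)) * hω
      rw [k1]
      module
    have hterm : ∀ i j, entU (povmBlock (((Real.sqrt (p i) : ℝ) : ℂ) * a i j)
        (((Real.sqrt (p i) : ℝ) : ℂ) * b i j * ω) X Y Z) -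
        Real.negMulLog (povmBlock (((Real.sqrt (p i) : ℝ) : ℂ) * a i j)
        (((Real.sqrt (p i) : ℝ) : ℂ) * b i j * ω) X Y Z).trace.re =
        p i * (entU (povmBlock (a i j) (b i j) (x * xᴴ) (x * yᴴ) (y * yᴴ)) -
          Real.negMulLog (povmBlock (a i j) (b i j) (x * xᴴ) (x * yᴴ) (y * yᴴ)).trace.re) := by
      intro i j
      have hH : (povmBlock (a i j) (b i j) (x * xᴴ) (x * yᴴ) (y * yᴴ)).IsHermitian := by
        rw [← L_eq_povm]
        exact (posSemidef_self_mul_conjTranspose _).isHermitian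
      rw [hpov, entU_smul hH, trace_smul, smul_eq_mul, Complex.re_ofReal_mul, Real.negMulLog_mul]
      ring
    rw [Fintype.sum_prod_type]
    simp only [hterm]
    simp only [← Finset.mul_sum]
    have hfq : ∀ i, E2 ((c1 i * s1 i * (x * xᴴ).trace.re - c2 i * s2 i * (y * yᴴ).trace.re) ^ 2) =
        fq γ ν q := by
      intro i
      rw [hp, hq', hdet i, fq]
    have hsumfq : fq γ ν q = ∑ i, p i * fq γ ν q := by
      rw [← Finset.sum_mul, hp1, one_mul]
    rw [hsumfq, ← Finset.sum_add_distrib]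
    refine le_trans (Finset.sum_le_sum fun i _ => ?_) hconc
    rw [← mul_add]
    refine mul_le_mul_of_nonneg_left ?_ (hp0 i)
    have := hge i
    rw [hfq i] at this
    exact this

end Vale.Agent.P358
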