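import Vale.Agent.Lib.P358.Defs

/-!
# P358, module Pinch: the determinant pinching inequality
-/

namespace Vale.Agent.P358

open Matrix
open scoped ComplexOrder

variable {ι κ : Type*} [Fintype ι] [DecidableEq ι] [Fintype κ] [DecidableEq κ]

namespace Pinch

theorem pd_spec (A : Matrix ι ι ℂ) (hA : A.PosDef) :
    ∃ (U : Matrix ι ι ℂ) (d : ι → ℝ), Uᴴ * U = 1 ∧ U * Uᴴ = 1 ∧
      A = U * diagonal (fun i => (d i : ℂ)) * Uᴴ ∧ (∀ i, 0 < d i) ∧
      A.det = ((∏ i, d i : ℝ) : ℂ) := by
  refine ⟨(hA.1.eigenvectorUnitary : Matrix ι ι ℂ), hA.1.eigenvalues, ?_, ?_, ?_, ?_, ?_⟩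
  · exact Unitary.coe_star_mul_self hA.1.eigenvectorUnitary
  · exact Unitary.coe_mul_star_self hA.1.eigenvectorUnitary
  · have := hA.1.spectral_theorem
    rw [Unitary.conjStarAlgAut_apply] at this
    exact this
  · exact hA.eigenvalues_pos
  · rw [hA.1.det_eq_prod_eigenvalues]
    push_cast
    rfl

theorem conj_diag_apply {α β : Type*} [Fintype α] [DecidableEq α] (M : Matrix α β ℂ)
    (d : α → ℝ) (k : β) :
    (Mᴴ * diagonal (fun l => (d l : ℂ)) * M) k k =
      ((∑ l, d l * Complex.normSq (M l k) : ℝ) : ℂ) := by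
  rw [Matrix.mul_apply]
  push_cast
  refine Finset.sum_congr rfl fun l _ => ?_
  rw [mul_diagonal, conjTranspose_apply, Complex.normSq_eq_conj_mul_self]
  simp only [starRingEnd_apply]
  ring

theorem conj_diag_apply' {α β : Type*} [Fintype β] [DecidableEq β] (M : Matrix α β ℂ)
    (d : β → ℝ) (k : α) :
    (M * diagonal (fun l => (d l : ℂ)) * Mᴴ) k k =
      ((∑ l, d l * Complex.normSq (M k l) : ℝ) : ℂ) := by
  have := conj_diag_apply Mᴴ d k
  rw [conjTranspose_conjTranspose] at this
  rw [this]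
  congr 1
  refine Finset.sum_congr rfl fun l _ => ?_
  rw [conjTranspose_apply, ← starRingEnd_apply, Complex.normSq_conj]

theorem conj_one_apply {α β : Type*} [Fintype α] (M : Matrix α β ℂ) (k : β) :
    (Mᴴ * M) k k = ((∑ l, Complex.normSq (M l k) : ℝ) : ℂ) := by
  classical
  have := conj_diag_apply M (fun _ => 1) k
  simpa using this

theorem conj_one_apply' {α β : Type*} [Fintype β] (M : Matrix α β ℂ) (k : α) :
    (M * Mᴴ) k k = ((∑ l, Complex.normSq (M k l) : ℝ) : ℂ) := by
  classical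
  have := conj_diag_apply' M (fun _ => 1) k
  simpa using this

/-- the tangent line form of Jensen's inequality for the logarithm -/
theorem log_ge {α β : Type*} [Fintype α] [Fintype β] (w : α → ℝ) (v : β → ℝ) (l : α → ℝ)
    (m : β → ℝ) (hw : ∀ i, 0 ≤ w i) (hv : ∀ i, 0 ≤ v i) (hl : ∀ i, 0 < l i) (hm : ∀ i, 0 < m i)
    (τ : ℝ) (hτ : 0 < τ) (h1 : ∑ i, w i + ∑ i, v i = 1)
    (h2 : ∑ i, l i * w i + ∑ i, m i * v i = τ) :
    ∑ i, w i * Real.log (l i) + ∑ i, v i * Real.log (m i) ≤ Real.log τ := by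
  have key : ∀ x : ℝ, 0 < x → Real.log x ≤ Real.log τ + (x / τ - 1) := by
    intro x hx
    have := Real.log_le_sub_one_of_pos (div_pos hx hτ)
    rw [Real.log_div hx.ne' hτ.ne'] at this
    linarith
  calc ∑ i, w i * Real.log (l i) + ∑ i, v i * Real.log (m i)
      ≤ ∑ i, w i * (Real.log τ + (l i / τ - 1)) + ∑ i, v i * (Real.log τ + (m i / τ - 1)) := by
        refine add_le_add (Finset.sum_le_sum fun i _ => ?_) (Finset.sum_le_sum fun i _ => ?_)
        · exact mul_le_mul_of_nonneg_left (key _ (hl i)) (hw i)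
        · exact mul_le_mul_of_nonneg_left (key _ (hm i)) (hv i)
    _ = (Real.log τ - 1) * (∑ i, w i + ∑ i, v i) +
        (∑ i, l i * w i + ∑ i, m i * v i) / τ := by
        rw [mul_add, Finset.mul_sum, Finset.mul_sum, add_div, Finset.sum_div, Finset.sum_div]
        have e1 : ∑ i, w i * (Real.log τ + (l i / τ - 1)) =
            ∑ i, (Real.log τ - 1) * w i + ∑ i, l i * w i / τ := by
          rw [← Finset.sum_add_distrib]
          exact Finset.sum_congr rfl fun i _ => by ring
        have e2 : ∑ i, v i * (Real.log τ + (m i / τ - 1)) =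
            ∑ i, (Real.log τ - 1) * v i + ∑ i, m i * v i / τ := by
          rw [← Finset.sum_add_distrib]
          exact Finset.sum_congr rfl fun i _ => by ring
        rw [e1, e2]
        ring
    _ = Real.log τ := by
        rw [h1, h2, div_self hτ.ne']
        ring

/-- Jensen for the logarithm of the determinant. -/
theorem jensen_det (X : Matrix ι ι ℂ) (Z : Matrix κ κ ℂ) (V : Matrix ι κ ℂ) (c : ι → ℝ)
    (hX : X.PosDef) (hZ : Z.PosDef) (hX1 : ∀ j, X j j = 1) (hc0 : ∀ j, 0 < c j)
    (hc1 : ∀ j, c j ≤ 1) (hV : V * Vᴴ = diagonal (fun j => ((1 - c j : ℝ) : ℂ)))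
    (hT : (V * Z * Vᴴ).trace = (V * Vᴴ).trace) :
    X.det.re ≤ ((diagonal (fun j => ((Real.sqrt (c j) : ℝ) : ℂ))) * X *
      (diagonal (fun j => ((Real.sqrt (c j) : ℝ) : ℂ))) + V * Z⁻¹ * Vᴴ).det.re := by
  set K : Matrix ι ι ℂ := diagonal (fun j => ((Real.sqrt (c j) : ℝ) : ℂ)) with hK
  have hKH : Kᴴ = K := by
    rw [hK, diagonal_conjTranspose]
    congr 1
    funext j
    simp
  have hKK : K * K = diagonal (fun j => ((c j : ℝ) : ℂ)) := by
    rw [hK, diagonal_mul_diagonal]
    congr 1
    funext j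
    rw [← Complex.ofReal_mul, Real.mul_self_sqrt (hc0 j).le]
  have hB : (K * X * K + V * Z⁻¹ * Vᴴ).PosDef := by
    refine Matrix.PosDef.add_posSemidef ?_ ?_
    · have h1 := hX.conjTranspose_mul_mul_same (B := K) ?_
      · rwa [hKH] at h1
      · intro y y' hyy
        funext j
        have := congrFun hyy j
        simp only [hK, mulVec_diagonal] at this
        have hne : ((Real.sqrt (c j) : ℝ) : ℂ) ≠ 0 := by
          exact_mod_cast (Real.sqrt_pos.2 (hc0 j)).ne'
        exact mul_left_cancel₀ hne this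
    · exact hZ.inv.posSemidef.mul_mul_conjTranspose_same V
  obtain ⟨U, lam, hU1, hU2, hUX, hlam, hdetX⟩ := pd_spec X hX
  obtain ⟨W, mu, hW1, hW2, hWZ, hmu, -⟩ := pd_spec Z hZ
  obtain ⟨E, tau, hE1, hE2, hEB, htau, hdetB⟩ := pd_spec _ hB
  rw [hdetX, hdetB, Complex.ofReal_re, Complex.ofReal_re]
  have hZinv : Z⁻¹ = W * diagonal (fun i => (((mu i)⁻¹ : ℝ) : ℂ)) * Wᴴ := by
    refine Matrix.inv_eq_right_inv ?_
    rw [hWZ]
    calc W * diagonal (fun i => (mu i : ℂ)) * Wᴴ *
          (W * diagonal (fun i => (((mu i)⁻¹ : ℝ) : ℂ)) * Wᴴ)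
        = W * (diagonal (fun i => (mu i : ℂ)) * ((Wᴴ * W) *
          diagonal (fun i => (((mu i)⁻¹ : ℝ) : ℂ)))) * Wᴴ := by
          simp only [Matrix.mul_assoc]
      _ = W * Wᴴ := by
          rw [hW1, Matrix.one_mul, diagonal_mul_diagonal]
          have : (fun i => (mu i : ℂ) * (((mu i)⁻¹ : ℝ) : ℂ)) = fun _ => (1 : ℂ) := by
            funext i
            rw [← Complex.ofReal_mul, mul_inv_cancel₀ (hmu i).ne', Complex.ofReal_one]
          rw [this, diagonal_one, Matrix.mul_one]
      _ = 1 := hW2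
  set G : Matrix ι ι ℂ := Uᴴ * K * E with hG
  set F : Matrix κ ι ℂ := Wᴴ * Vᴴ * E with hF
  have hGH : Gᴴ = Eᴴ * K * U := by
    rw [hG, conjTranspose_mul, conjTranspose_mul, conjTranspose_conjTranspose, hKH,
      Matrix.mul_assoc]
  have hFH : Fᴴ = Eᴴ * V * W := by
    rw [hF, conjTranspose_mul, conjTranspose_mul, conjTranspose_conjTranspose,
      conjTranspose_conjTranspose, Matrix.mul_assoc]
  have hdiag : Gᴴ * diagonal (fun i => (lam i : ℂ)) * G +
      Fᴴ * diagonal (fun i => (((mu i)⁻¹ : ℝ) : ℂ)) * F = diagonal (fun i => (tau i : ℂ)) := by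
    have h1 : Eᴴ * (K * X * K + V * Z⁻¹ * Vᴴ) * E = diagonal (fun i => (tau i : ℂ)) := by
      rw [hEB]
      calc Eᴴ * (E * diagonal (fun i => (tau i : ℂ)) * Eᴴ) * E
          = (Eᴴ * E) * diagonal (fun i => (tau i : ℂ)) * (Eᴴ * E) := by
            simp only [Matrix.mul_assoc]
        _ = _ := by rw [hE1, Matrix.one_mul, Matrix.mul_one]
    rw [← h1, hGH, hFH, hG, hF, hZinv]
    conv_rhs => rw [hUX]
    simp only [Matrix.mul_add, Matrix.add_mul, Matrix.mul_assoc]
  have hone : Gᴴ * G + Fᴴ * F = 1 := by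
    have h1 : Gᴴ * G = Eᴴ * (K * K) * E := by
      rw [hGH, hG]
      calc Eᴴ * K * U * (Uᴴ * K * E) = Eᴴ * K * (U * Uᴴ) * K * E := by
            simp only [Matrix.mul_assoc]
        _ = _ := by rw [hU2, Matrix.mul_one]; simp only [Matrix.mul_assoc]
    have h2 : Fᴴ * F = Eᴴ * (V * Vᴴ) * E := by
      rw [hFH, hF]
      calc Eᴴ * V * W * (Wᴴ * Vᴴ * E) = Eᴴ * V * (W * Wᴴ) * Vᴴ * E := by
            simp only [Matrix.mul_assoc]
        _ = _ := by rw [hW2, Matrix.mul_one]; simp only [Matrix.mul_assoc]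
    have h3 : K * K + V * Vᴴ = 1 := by
      rw [hKK, hV, diagonal_add, ← diagonal_one]
      congr 1
      funext j
      push_cast
      ring
    rw [h1, h2, ← Matrix.add_mul, ← Matrix.mul_add, h3, Matrix.mul_one, hE1]
  -- the weights
  have hlog : ∀ k, ∑ l, Complex.normSq (G l k) * Real.log (lam l) +
      ∑ l, Complex.normSq (F l k) * Real.log ((mu l)⁻¹) ≤ Real.log (tau k) := by
    intro k
    refine log_ge _ _ lam (fun l => (mu l)⁻¹) (fun l => Complex.normSq_nonneg _)
      (fun l => Complex.normSq_nonneg _) hlam (fun l => inv_pos.2 (hmu l)) _ (htau k) ?_ ?_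
    · have := congrFun (congrFun hone k) k
      rw [Matrix.add_apply, conj_one_apply, conj_one_apply, one_apply_eq] at this
      exact_mod_cast this
    · have := congrFun (congrFun hdiag k) k
      rw [Matrix.add_apply, conj_diag_apply, conj_diag_apply, diagonal_apply_eq] at this
      exact_mod_cast this
  have hGG : ∀ l, ∑ k, Complex.normSq (G l k) = ∑ j, c j * Complex.normSq (U j l) := by
    intro l
    have h1 : G * Gᴴ = Uᴴ * diagonal (fun j => ((c j : ℝ) : ℂ)) * U := by
      rw [hGH, hG, ← hKK]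
      calc Uᴴ * K * E * (Eᴴ * K * U) = Uᴴ * K * (E * Eᴴ) * K * U := by
            simp only [Matrix.mul_assoc]
        _ = _ := by rw [hE2, Matrix.mul_one]; simp only [Matrix.mul_assoc]
    have h2 := congrFun (congrFun h1 l) l
    rw [conj_one_apply', conj_diag_apply] at h2
    exact_mod_cast h2
  have hFF : ∀ l, ∑ k, Complex.normSq (F l k) = ∑ j, Complex.normSq ((V * W) j l) := by
    intro l
    have h1 : F * Fᴴ = (V * W)ᴴ * (V * W) := by
      rw [hFH, hF, conjTranspose_mul]
      calc Wᴴ * Vᴴ * E * (Eᴴ * V * W) = Wᴴ * Vᴴ * (E * Eᴴ) * V * W := by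
            simp only [Matrix.mul_assoc]
        _ = _ := by rw [hE2, Matrix.mul_one]; simp only [Matrix.mul_assoc]
    have h2 := congrFun (congrFun h1 l) l
    rw [conj_one_apply', conj_one_apply] at h2
    exact_mod_cast h2
  -- Jensen in the other direction
  have hUrow : ∀ j, ∑ l, Complex.normSq (U j l) = 1 := by
    intro j
    have := congrFun (congrFun hU2 j) j
    rw [conj_one_apply', one_apply_eq] at this
    exact_mod_cast this
  have hUcol : ∀ l, ∑ j, Complex.normSq (U j l) = 1 := by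
    intro j
    have := congrFun (congrFun hU1 j) j
    rw [conj_one_apply, one_apply_eq] at this
    exact_mod_cast this
  have hUlam : ∀ j, ∑ l, lam l * Complex.normSq (U j l) = 1 := by
    intro j
    have := hX1 j
    rw [hUX, conj_diag_apply'] at this
    exact_mod_cast this
  have hneg : ∀ j, ∑ l, Complex.normSq (U j l) * Real.log (lam l) ≤ 0 := by
    intro j
    calc ∑ l, Complex.normSq (U j l) * Real.log (lam l)
        ≤ ∑ l, Complex.normSq (U j l) * (lam l - 1) :=
          Finset.sum_le_sum fun l _ => mul_le_mul_of_nonneg_left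
            (Real.log_le_sub_one_of_pos (hlam l)) (Complex.normSq_nonneg _)
      _ = ∑ l, lam l * Complex.normSq (U j l) - ∑ l, Complex.normSq (U j l) := by
          rw [← Finset.sum_sub_distrib]
          exact Finset.sum_congr rfl fun l _ => by ring
      _ = 0 := by rw [hUlam, hUrow, sub_self]
  have hV2 : ∑ j, ∑ l, Complex.normSq ((V * W) j l) * Real.log (mu l) ≤ 0 := by
    have h1 : (V * Z * Vᴴ).trace =
        ((∑ j, ∑ l, mu l * Complex.normSq ((V * W) j l) : ℝ) : ℂ) := by
      have h2 : V * Z * Vᴴ = (V * W) * diagonal (fun i => (mu i : ℂ)) * (V * W)ᴴ := by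
        rw [hWZ, conjTranspose_mul]
        simp only [Matrix.mul_assoc]
      rw [h2, Matrix.trace, Complex.ofReal_sum]
      refine Finset.sum_congr rfl fun j _ => ?_
      rw [Matrix.diag_apply, conj_diag_apply']
    have h3 : (V * Vᴴ).trace = ((∑ j, ∑ l, Complex.normSq ((V * W) j l) : ℝ) : ℂ) := by
      have h2 : V * Vᴴ = (V * W) * (V * W)ᴴ := by
        rw [conjTranspose_mul]
        calc V * Vᴴ = V * (W * Wᴴ) * Vᴴ := by rw [hW2, Matrix.mul_one]
          _ = _ := by simp only [Matrix.mul_assoc]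
      rw [h2, Matrix.trace, Complex.ofReal_sum]
      refine Finset.sum_congr rfl fun j _ => ?_
      rw [Matrix.diag_apply, conj_one_apply']
    rw [h1, h3] at hT
    have hT' : ∑ j, ∑ l, mu l * Complex.normSq ((V * W) j l) =
      ∑ j, ∑ l, Complex.normSq ((V * W) j l) := by exact_mod_cast hT
    calc ∑ j, ∑ l, Complex.normSq ((V * W) j l) * Real.log (mu l)
        ≤ ∑ j, ∑ l, Complex.normSq ((V * W) j l) * (mu l - 1) :=
          Finset.sum_le_sum fun j _ => Finset.sum_le_sum fun l _ => mul_le_mul_of_nonneg_left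
            (Real.log_le_sub_one_of_pos (hmu l)) (Complex.normSq_nonneg _)
      _ = ∑ j, ∑ l, mu l * Complex.normSq ((V * W) j l) -
          ∑ j, ∑ l, Complex.normSq ((V * W) j l) := by
          rw [← Finset.sum_sub_distrib]
          refine Finset.sum_congr rfl fun j _ => ?_
          rw [← Finset.sum_sub_distrib]
          exact Finset.sum_congr rfl fun l _ => by ring
      _ = 0 := by rw [hT', sub_self]
  have hmain : Real.log (∏ i, lam i) ≤ Real.log (∏ i, tau i) := by
    rw [Real.log_prod (fun i _ => (hlam i).ne'), Real.log_prod (fun i _ => (htau i).ne')]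
    have h1 : ∑ k, (∑ l, Complex.normSq (G l k) * Real.log (lam l) +
        ∑ l, Complex.normSq (F l k) * Real.log ((mu l)⁻¹)) ≤ ∑ k, Real.log (tau k) :=
      Finset.sum_le_sum fun k _ => hlog k
    have s1 : ∑ k, ∑ l, Complex.normSq (G l k) * Real.log (lam l) =
      ∑ l, ∑ k, Complex.normSq (G l k) * Real.log (lam l) := Finset.sum_comm
    have s2 : ∑ k, ∑ l, Complex.normSq (F l k) * Real.log ((mu l)⁻¹) =
      ∑ l, ∑ k, Complex.normSq (F l k) * Real.log ((mu l)⁻¹) := Finset.sum_comm
    rw [Finset.sum_add_distrib, s1, s2] at h1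
    have h2 : ∑ l, ∑ k, Complex.normSq (G l k) * Real.log (lam l) =
        ∑ l, Real.log (lam l) - ∑ j, (1 - c j) *
          ∑ l, Complex.normSq (U j l) * Real.log (lam l) := by
      have h3 : ∀ l, ∑ k, Complex.normSq (G l k) * Real.log (lam l) =
          Real.log (lam l) - ∑ j, (1 - c j) * (Complex.normSq (U j l) * Real.log (lam l)) := by
        intro l
        rw [← Finset.sum_mul, hGG]
        have h4 : ∑ j, (1 - c j) * (Complex.normSq (U j l) * Real.log (lam l)) =
            (∑ j, Complex.normSq (U j l)) * Real.log (lam l) -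
            (∑ j, c j * Complex.normSq (U j l)) * Real.log (lam l) := by
          rw [Finset.sum_mul, Finset.sum_mul, ← Finset.sum_sub_distrib]
          exact Finset.sum_congr rfl fun j _ => by ring
        rw [h4, hUcol]
        ring
      rw [Finset.sum_congr rfl fun l _ => h3 l, Finset.sum_sub_distrib, Finset.sum_comm]
      congr 1
      exact Finset.sum_congr rfl fun j _ => by rw [Finset.mul_sum]
    have h5 : ∑ l, ∑ k, Complex.normSq (F l k) * Real.log ((mu l)⁻¹) =
        -∑ j, ∑ l, Complex.normSq ((V * W) j l) * Real.log (mu l) := by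
      have s3 : ∑ j, ∑ l, Complex.normSq ((V * W) j l) * Real.log (mu l) =
        ∑ l, ∑ j, Complex.normSq ((V * W) j l) * Real.log (mu l) := Finset.sum_comm
      rw [s3, ← Finset.sum_neg_distrib]
      refine Finset.sum_congr rfl fun l _ => ?_
      rw [← Finset.sum_mul, hFF, Real.log_inv, ← Finset.sum_mul]
      ring
    have h6 : ∑ j, (1 - c j) * ∑ l, Complex.normSq (U j l) * Real.log (lam l) ≤ 0 :=
      Finset.sum_nonpos fun j _ => mul_nonpos_of_nonneg_of_nonpos (sub_nonneg.2 (hc1 j)) (hneg j)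
    rw [h2, h5] at h1
    linarith
  exact (Real.log_le_log_iff (Finset.prod_pos fun i _ => hlam i)
    (Finset.prod_pos fun i _ => htau i)).1 hmain

end Pinch

open Pinch in
/-- Let `N, P > 0` and let `x` have orthogonal rows with squared lengths `a j`. Then
`det (N + x P⁻¹ xᴴ) ≥ det N * ∏ (1 + a_j² / (N_jj (x P xᴴ)_jj))`. -/
theorem det_pinch (N : Matrix ι ι ℂ) (P : Matrix κ κ ℂ) (x : Matrix ι κ ℂ) (a : ι → ℝ)
    (hN : N.PosDef) (hP : P.PosDef) (hx : x * xᴴ = diagonal (fun j => (a j : ℂ))) :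
    N.det.re * ∏ j, (1 + (a j) ^ 2 / ((N j j).re * ((x * P * xᴴ) j j).re)) ≤
      ((N + x * P⁻¹ * xᴴ).det).re := by
  -- notation
  set n : ι → ℝ := fun j => (N j j).re with hn
  set π : ι → ℝ := fun j => ((x * P * xᴴ) j j).re with hπ
  have hNjj : ∀ j, N j j = (n j : ℂ) := by
    intro j
    have h := hN.1.apply j j
    exact (Complex.conj_eq_iff_real.1 h).elim fun r hr => by rw [hn]; simp [hr]
  have hnpos : ∀ j, 0 < n j := by
    intro j
    have := hN.diag_pos (i := j)
    rw [hNjj] at this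
    exact_mod_cast this
  have ha0 : ∀ j, 0 ≤ a j := by
    intro j
    have := congrFun (congrFun hx j) j
    rw [conj_one_apply', diagonal_apply_eq] at this
    have h2 : ∑ l, Complex.normSq (x j l) = a j := by exact_mod_cast this
    rw [← h2]
    exact Finset.sum_nonneg fun _ _ => Complex.normSq_nonneg _
  have hrow : ∀ j, a j = 0 → ∀ l, x j l = 0 := by
    intro j hj l
    have := congrFun (congrFun hx j) j
    rw [conj_one_apply', diagonal_apply_eq] at this
    have h2 : ∑ l, Complex.normSq (x j l) = 0 := by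
      rw [← hj]; exact_mod_cast this
    have h3 := (Finset.sum_eq_zero_iff_of_nonneg
      (fun l _ => Complex.normSq_nonneg (x j l))).1 h2 l (Finset.mem_univ l)
    exact Complex.normSq_eq_zero.1 h3
  have hPsd : (x * P * xᴴ).PosSemidef := hP.posSemidef.mul_mul_conjTranspose_same x
  have hπjj : ∀ j, (x * P * xᴴ) j j = (π j : ℂ) := by
    intro j
    have h := hPsd.1.apply j j
    exact (Complex.conj_eq_iff_real.1 h).elim fun r hr => by rw [hπ]; simp [hr]
  have hπpos : ∀ j, a j ≠ 0 → 0 < π j := by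
    intro j hj
    obtain ⟨W, mu, hW1, hW2, hWP, hmu, -⟩ := pd_spec P hP
    have h1 : π j = ∑ l, mu l * Complex.normSq ((x * W) j l) := by
      have h2 : x * P * xᴴ = (x * W) * diagonal (fun i => (mu i : ℂ)) * (x * W)ᴴ := by
        rw [hWP, conjTranspose_mul]
        simp only [Matrix.mul_assoc]
      have h3 := hπjj j
      rw [h2, conj_diag_apply'] at h3
      exact_mod_cast h3.symm
    have h4 : a j = ∑ l, Complex.normSq ((x * W) j l) := by
      have h2 : x * xᴴ = (x * W) * (x * W)ᴴ := by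
        rw [conjTranspose_mul]
        calc x * xᴴ = x * (W * Wᴴ) * xᴴ := by rw [hW2, Matrix.mul_one]
          _ = _ := by simp only [Matrix.mul_assoc]
      have h3 := congrFun (congrFun hx j) j
      rw [h2, conj_one_apply', diagonal_apply_eq] at h3
      exact_mod_cast h3.symm
    have h5 : 0 ≤ π j := by
      rw [h1]
      exact Finset.sum_nonneg fun l _ => mul_nonneg (hmu l).le (Complex.normSq_nonneg _)
    refine lt_of_le_of_ne h5 fun h0 => hj ?_
    rw [h1] at h0
    rw [h4]
    refine Finset.sum_eq_zero fun l _ => ?_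
    have h6 := (Finset.sum_eq_zero_iff_of_nonneg
      (fun l _ => mul_nonneg (hmu l).le (Complex.normSq_nonneg ((x * W) j l)))).1 h0.symm l
      (Finset.mem_univ l)
    exact (mul_eq_zero.1 h6).resolve_left (hmu l).ne'
  have hπ0 : ∀ j, a j = 0 → π j = 0 := by
    intro j hj
    have : (x * P * xᴴ) j j = 0 := by
      rw [Matrix.mul_assoc, Matrix.mul_apply]
      exact Finset.sum_eq_zero fun l _ => by rw [hrow j hj l, zero_mul]
    rw [hπ]
    simp only [this, Complex.zero_re]
  set r : ι → ℝ := fun j => a j ^ 2 / (n j * π j) with hr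
  have hr0 : ∀ j, 0 ≤ r j := by
    intro j
    by_cases hj : a j = 0
    · simp [hr, hj]
    · have := hπpos j hj
      have := hnpos j
      simp only [hr]
      positivity
  set c : ι → ℝ := fun j => 1 / (1 + r j) with hc
  have hc0 : ∀ j, 0 < c j := fun j => by have := hr0 j; simp only [hc]; positivity
  have hc1 : ∀ j, c j ≤ 1 := fun j => by
    have := hr0 j
    simp only [hc]
    rw [div_le_one (by positivity)]
    linarith
  have hcr : ∀ j, c j * r j = 1 - c j := fun j => by
    have := hr0 j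
    have h2 : 1 + r j ≠ 0 := by positivity
    simp only [hc]
    field_simp
    ring
  set θ : ι → ℝ := fun j => if a j = 0 then 1 else Real.sqrt (a j / π j) with hθ
  have hθpos : ∀ j, 0 < θ j := by
    intro j
    simp only [hθ]
    split_ifs with h
    · exact one_pos
    · exact Real.sqrt_pos.2 (div_pos (lt_of_le_of_ne (ha0 j) (Ne.symm h)) (hπpos j h))
  have hθsq : ∀ j, a j ≠ 0 → θ j ^ 2 = a j / π j := by
    intro j hj
    simp only [hθ, if_neg hj]
    exact Real.sq_sqrt (div_nonneg (ha0 j) (hπpos j hj).le)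
  set γ : ι → ℝ := fun j => (θ j - 1) / a j with hγ
  set γ' : ι → ℝ := fun j => ((θ j)⁻¹ - 1) / a j with hγ'
  set g : Matrix κ κ ℂ := 1 + xᴴ * diagonal (fun j => (γ j : ℂ)) * x with hg
  set g' : Matrix κ κ ℂ := 1 + xᴴ * diagonal (fun j => (γ' j : ℂ)) * x with hg'
  have hdH : ∀ d : ι → ℝ, (diagonal (fun j => (d j : ℂ)))ᴴ = diagonal (fun j => (d j : ℂ)) := by
    intro d
    rw [diagonal_conjTranspose]
    congr 1
    funext j
    simp
  have hgH : gᴴ = g := by
    rw [hg, conjTranspose_add, conjTranspose_one, conjTranspose_mul, conjTranspose_mul,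
      conjTranspose_conjTranspose, hdH, Matrix.mul_assoc]
  have hprod : ∀ d d' : ι → ℝ, (∀ j, d j + d' j + d j * (a j * d' j) = 0) →
      (1 + xᴴ * diagonal (fun j => (d j : ℂ)) * x) * (1 + xᴴ * diagonal (fun j => (d' j : ℂ)) * x)
        = 1 := by
    intro d d' hdd
    have h1 : xᴴ * diagonal (fun j => (d j : ℂ)) * x * (xᴴ * diagonal (fun j => (d' j : ℂ)) * x) =
        xᴴ * diagonal (fun j => ((d j * (a j * d' j) : ℝ) : ℂ)) * x := by
      calc xᴴ * diagonal (fun j => (d j : ℂ)) * x * (xᴴ * diagonal (fun j => (d' j : ℂ)) * x)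
          = xᴴ * (diagonal (fun j => (d j : ℂ)) * ((x * xᴴ) *
            diagonal (fun j => (d' j : ℂ)))) * x := by simp only [Matrix.mul_assoc]
        _ = _ := by
          rw [hx, diagonal_mul_diagonal, diagonal_mul_diagonal]
          push_cast
          rfl
    rw [Matrix.add_mul, Matrix.one_mul, Matrix.mul_add, Matrix.mul_one, h1]
    have h2 : xᴴ * diagonal (fun j => (d' j : ℂ)) * x + (xᴴ * diagonal (fun j => (d j : ℂ)) * x +
        xᴴ * diagonal (fun j => ((d j * (a j * d' j) : ℝ) : ℂ)) * x) = 0 := by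
      rw [← Matrix.add_mul, ← Matrix.add_mul, ← Matrix.mul_add, ← Matrix.mul_add, diagonal_add,
        diagonal_add]
      have h3 : (fun j => (d' j : ℂ) + ((d j : ℂ) + ((d j * (a j * d' j) : ℝ) : ℂ))) =
          fun _ => 0 := by
        funext j
        have := hdd j
        have h4 : ((d j + d' j + d j * (a j * d' j) : ℝ) : ℂ) = 0 := by rw [this]; simp
        push_cast at h4 ⊢
        linear_combination h4
      rw [h3, diagonal_zero, Matrix.mul_zero, Matrix.zero_mul]
    rw [add_assoc, h2, add_zero]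
  have hid : ∀ j, γ j + γ' j + γ j * (a j * γ' j) = 0 := by
    intro j
    by_cases hj : a j = 0
    · simp [hγ, hγ', hj]
    · have := (hθpos j).ne'
      simp only [hγ, hγ']
      field_simp
      ring
  have hgg' : g * g' = 1 := hprod γ γ' hid
  have hg'g : g' * g = 1 := hprod γ' γ fun j => by have := hid j; linear_combination this
  have hxg : x * g = diagonal (fun j => (θ j : ℂ)) * x := by
    rw [hg, Matrix.mul_add, Matrix.mul_one]
    have h1 : x * (xᴴ * diagonal (fun j => (γ j : ℂ)) * x) =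
        diagonal (fun j => (a j : ℂ)) * diagonal (fun j => (γ j : ℂ)) * x := by
      rw [← hx]
      simp only [Matrix.mul_assoc]
    rw [h1, diagonal_mul_diagonal]
    ext j l
    rw [Matrix.add_apply, diagonal_mul, diagonal_mul]
    by_cases hj : a j = 0
    · rw [hrow j hj l]; ring
    · have h2 : (a j : ℂ) * (γ j : ℂ) = (θ j : ℂ) - 1 := by
        have : a j * γ j = θ j - 1 := by
          simp only [hγ]
          field_simp
        rw [← Complex.ofReal_mul, this]
        push_cast
        rfl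
      rw [h2]
      ring
  have hgx : g * xᴴ = xᴴ * diagonal (fun j => (θ j : ℂ)) := by
    have := congrArg conjTranspose hxg
    rwa [conjTranspose_mul, conjTranspose_mul, hgH, hdH] at this
  set D : ι → ℝ := fun j => Real.sqrt (c j) * (Real.sqrt (n j))⁻¹ with hD
  have hDsq : ∀ j, D j * D j = c j / n j := by
    intro j
    have h1 := Real.mul_self_sqrt (hc0 j).le
    have h2 := Real.mul_self_sqrt (hnpos j).le
    have h3 : Real.sqrt (n j) ≠ 0 := (Real.sqrt_pos.2 (hnpos j)).ne'
    simp only [hD]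
    rw [div_eq_mul_inv, ← h1, ← h2, mul_inv]
    rw [h1, h2]
    nth_rewrite 3 [← h1]
    ring
  set Dd : Matrix ι ι ℂ := diagonal (fun j => (D j : ℂ)) with hDd
  set V : Matrix ι κ ℂ := Dd * x * g with hVdef
  have hVH : Vᴴ = g * xᴴ * Dd := by
    rw [hVdef, conjTranspose_mul, conjTranspose_mul, hgH, hDd, hdH, Matrix.mul_assoc]
  set Z : Matrix κ κ ℂ := g * P * g with hZdef
  have hZ : Z.PosDef := by
    have h1 := hP.conjTranspose_mul_mul_same (B := g) ?_
    · rwa [hgH] at h1
    · intro y y' hyy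
      have h2 : g' *ᵥ (g *ᵥ y) = g' *ᵥ (g *ᵥ y') := congrArg _ hyy
      rwa [mulVec_mulVec, mulVec_mulVec, hg'g, one_mulVec, one_mulVec] at h2
  have hPP : P * P⁻¹ = 1 := Matrix.mul_nonsing_inv P ((Matrix.isUnit_iff_isUnit_det P).1 hP.isUnit)
  have hZinv : Z⁻¹ = g' * P⁻¹ * g' := by
    refine Matrix.inv_eq_right_inv ?_
    calc Z * (g' * P⁻¹ * g') = g * P * (g * g') * P⁻¹ * g' := by
          rw [hZdef]; simp only [Matrix.mul_assoc]
      _ = g * (P * P⁻¹) * g' := by rw [hgg', Matrix.mul_one]; simp only [Matrix.mul_assoc]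
      _ = 1 := by rw [hPP, Matrix.mul_one, hgg']
  have hVZ : V * Z⁻¹ * Vᴴ = Dd * (x * P⁻¹ * xᴴ) * Dd := by
    rw [hZinv, hVH, hVdef]
    calc Dd * x * g * (g' * P⁻¹ * g') * (g * xᴴ * Dd)
        = Dd * x * (g * g') * P⁻¹ * (g' * g) * xᴴ * Dd := by simp only [Matrix.mul_assoc]
      _ = _ := by rw [hgg', hg'g, Matrix.mul_one, Matrix.mul_one]; simp only [Matrix.mul_assoc]
  have hVV : V * Vᴴ = diagonal (fun j => ((1 - c j : ℝ) : ℂ)) := by
    have h1 : V * Vᴴ = Dd * (diagonal (fun j => (θ j : ℂ)) * (x * xᴴ) *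
        diagonal (fun j => (θ j : ℂ))) * Dd := by
      rw [hVH, hVdef, Matrix.mul_assoc Dd x g, hxg, hgx]
      simp only [Matrix.mul_assoc]
    rw [h1, hx, hDd, diagonal_mul_diagonal, diagonal_mul_diagonal, diagonal_mul_diagonal,
      diagonal_mul_diagonal]
    congr 1
    funext j
    rw [← Complex.ofReal_mul, ← Complex.ofReal_mul, ← Complex.ofReal_mul, ← Complex.ofReal_mul]
    congr 1
    rw [← hcr]
    have h2 : D j * (θ j * a j * θ j) * D j = (D j * D j) * (θ j ^ 2 * a j) := by ring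
    rw [h2, hDsq]
    by_cases hj : a j = 0
    · simp [hj, hr]
    · rw [hθsq j hj]
      have := (hπpos j hj).ne'
      have := (hnpos j).ne'
      simp only [hr]
      field_simp
  have htr : (V * Z * Vᴴ).trace = (V * Vᴴ).trace := by
    have h1 : V * Z * Vᴴ = Dd * (diagonal (fun j => (θ j : ℂ)) * (diagonal (fun j => (θ j : ℂ)) *
        (x * P * xᴴ) * diagonal (fun j => (θ j : ℂ))) * diagonal (fun j => (θ j : ℂ))) * Dd := by
      rw [hVH, hVdef, hZdef]
      calc Dd * x * g * (g * P * g) * (g * xᴴ * Dd)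
          = Dd * ((x * g) * g * P * (g * (g * xᴴ))) * Dd := by simp only [Matrix.mul_assoc]
        _ = Dd * (diagonal (fun j => (θ j : ℂ)) * (x * g) * P * ((g * xᴴ) *
            diagonal (fun j => (θ j : ℂ)))) * Dd := by
            rw [hxg, hgx]
            simp only [Matrix.mul_assoc]
            rw [← Matrix.mul_assoc x g, hxg, ← Matrix.mul_assoc g xᴴ, hgx]
            simp only [Matrix.mul_assoc]
        _ = _ := by
            rw [hxg, hgx]
            simp only [Matrix.mul_assoc]
    rw [hVV, h1, Matrix.trace, Matrix.trace]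
    refine Finset.sum_congr rfl fun j _ => ?_
    rw [Matrix.diag_apply, Matrix.diag_apply, hDd, diagonal_apply_eq]
    simp only [mul_diagonal, diagonal_mul]
    rw [hπjj, ← Complex.ofReal_mul, ← Complex.ofReal_mul, ← Complex.ofReal_mul,
      ← Complex.ofReal_mul, ← Complex.ofReal_mul, ← Complex.ofReal_mul]
    congr 1
    rw [← hcr]
    have h2 : D j * (θ j * (θ j * π j * θ j) * θ j) * D j =
      (D j * D j) * (θ j ^ 2 * θ j ^ 2 * π j) := by ring
    rw [h2, hDsq]
    by_cases hj : a j = 0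
    · simp [hj, hπ0 j hj, hr]
    · rw [hθsq j hj]
      have := (hπpos j hj).ne'
      have := (hnpos j).ne'
      simp only [hr]
      field_simp
  set S : Matrix ι ι ℂ := diagonal (fun j => (((Real.sqrt (n j))⁻¹ : ℝ) : ℂ)) with hS
  set X : Matrix ι ι ℂ := S * N * S with hXdef
  have hX : X.PosDef := by
    have h1 := hN.conjTranspose_mul_mul_same (B := S) ?_
    · rwa [hS, hdH] at h1
    · intro y y' hyy
      funext j
      have := congrFun hyy j
      simp only [hS, mulVec_diagonal] at this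
      have hne : (((Real.sqrt (n j))⁻¹ : ℝ) : ℂ) ≠ 0 := by
        exact_mod_cast (inv_pos.2 (Real.sqrt_pos.2 (hnpos j))).ne'
      exact mul_left_cancel₀ hne this
  have hX1 : ∀ j, X j j = 1 := by
    intro j
    rw [hXdef, hS, mul_diagonal, diagonal_mul, hNjj, ← Complex.ofReal_mul, ← Complex.ofReal_mul]
    have h2 := Real.mul_self_sqrt (hnpos j).le
    have h3 : Real.sqrt (n j) ≠ 0 := (Real.sqrt_pos.2 (hnpos j)).ne'
    have h4 : (Real.sqrt (n j))⁻¹ * n j * (Real.sqrt (n j))⁻¹ = 1 := by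
      nth_rewrite 2 [← h2]
      field_simp
    rw [h4, Complex.ofReal_one]
  have hJ := jensen_det X Z V c hX hZ hX1 hc0 hc1 hVV htr
  have hKX : (diagonal (fun j => ((Real.sqrt (c j) : ℝ) : ℂ))) * X *
      (diagonal (fun j => ((Real.sqrt (c j) : ℝ) : ℂ))) = Dd * N * Dd := by
    have h1 : (diagonal (fun j => ((Real.sqrt (c j) : ℝ) : ℂ))) * S = Dd := by
      rw [hS, hDd, diagonal_mul_diagonal]
      congr 1
      funext j
      rw [← Complex.ofReal_mul]
    have h2 : S * (diagonal (fun j => ((Real.sqrt (c j) : ℝ) : ℂ))) = Dd := by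
      rw [hS, hDd, diagonal_mul_diagonal]
      congr 1
      funext j
      rw [← Complex.ofReal_mul, mul_comm]
    calc (diagonal (fun j => ((Real.sqrt (c j) : ℝ) : ℂ))) * X *
        (diagonal (fun j => ((Real.sqrt (c j) : ℝ) : ℂ)))
        = ((diagonal (fun j => ((Real.sqrt (c j) : ℝ) : ℂ))) * S) * N *
          (S * (diagonal (fun j => ((Real.sqrt (c j) : ℝ) : ℂ)))) := by
          rw [hXdef]; simp only [Matrix.mul_assoc]
      _ = _ := by rw [h1, h2]
  rw [hKX, hVZ, ← Matrix.add_mul, ← Matrix.mul_add, det_mul, det_mul, det_mul, det_mul] at hJ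
  have hdD : Dd.det = ((∏ j, D j : ℝ) : ℂ) := by
    rw [hDd, det_diagonal]; push_cast; rfl
  have hdS : S.det = ((∏ j, (Real.sqrt (n j))⁻¹ : ℝ) : ℂ) := by
    rw [hS, det_diagonal]; push_cast; rfl
  rw [hdD, hdS] at hJ
  have e1 : (((∏ j, (Real.sqrt (n j))⁻¹ : ℝ) : ℂ) * N.det *
      ((∏ j, (Real.sqrt (n j))⁻¹ : ℝ) : ℂ)).re = (∏ j, (n j)⁻¹) * N.det.re := by
    rw [mul_comm, ← mul_assoc, ← Complex.ofReal_mul, Complex.re_ofReal_mul,
      ← Finset.prod_mul_distrib]
    congr 1
    refine Finset.prod_congr rfl fun j _ => ?_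
    rw [← mul_inv, Real.mul_self_sqrt (hnpos j).le]
  have e2 : (((∏ j, D j : ℝ) : ℂ) * (N + x * P⁻¹ * xᴴ).det * ((∏ j, D j : ℝ) : ℂ)).re =
      (∏ j, c j / n j) * (N + x * P⁻¹ * xᴴ).det.re := by
    rw [mul_comm, ← mul_assoc, ← Complex.ofReal_mul, Complex.re_ofReal_mul,
      ← Finset.prod_mul_distrib]
    congr 1
    exact Finset.prod_congr rfl fun j _ => hDsq j
  rw [e1, e2] at hJ
  have hfac : 0 < ∏ j, (n j * (1 + r j)) := Finset.prod_pos fun j _ => by
    have := hr0 j
    have := hnpos j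
    positivity
  have hfin := mul_le_mul_of_nonneg_left hJ hfac.le
  have f1 : (∏ j, (n j * (1 + r j))) * ((∏ j, (n j)⁻¹) * N.det.re) =
      N.det.re * ∏ j, (1 + r j) := by
    rw [← mul_assoc, ← Finset.prod_mul_distrib, mul_comm]
    congr 1
    refine Finset.prod_congr rfl fun j _ => ?_
    have := (hnpos j).ne'
    field_simp
  have f2 : (∏ j, (n j * (1 + r j))) * ((∏ j, c j / n j) * (N + x * P⁻¹ * xᴴ).det.re) =
      (N + x * P⁻¹ * xᴴ).det.re := by
    rw [← mul_assoc, ← Finset.prod_mul_distrib]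
    have : ∏ j, (n j * (1 + r j) * (c j / n j)) = 1 := by
      refine Finset.prod_eq_one fun j _ => ?_
      have := (hnpos j).ne'
      have h2 : 1 + r j ≠ 0 := by have := hr0 j; positivity
      simp only [hc]
      field_simp
    rw [this, one_mul]
  rw [f1, f2] at hfin
  exact hfin

end Vale.Agent.P358
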