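import Vale.Agent.Lib.P358.Ent
import Vale.Agent.Lib.P358.Compare
import Vale.Agent.Lib.P358.Pinch
import Vale.Agent.Lib.P358.Gam

/-!
# P358, module OneStepAD: the one-step inequality for amplitude damping (`ν = 0`)
-/

namespace Vale.Agent.P358

open Matrix
open scoped ComplexOrder

variable {ι κ : Type*} [Fintype ι] [DecidableEq ι] [Fintype κ] [DecidableEq κ]

namespace AD

theorem posDef_one_add_mul_conj {t : ℝ} (ht : 0 ≤ t) (y : Matrix ι κ ℂ) :
    (1 + (t : ℂ) • (y * yᴴ)).PosDef :=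
  PosDef.one.add_posSemidef ((posSemidef_self_mul_conjTranspose y).smul (by exact_mod_cast ht))

theorem posDef_one_add_conj_mul {t : ℝ} (ht : 0 ≤ t) (y : Matrix ι κ ℂ) :
    (1 + (t : ℂ) • (yᴴ * y)).PosDef :=
  PosDef.one.add_posSemidef ((posSemidef_conjTranspose_mul_self y).smul (by exact_mod_cast ht))

theorem posDef_det_re_pos {A : Matrix ι ι ℂ} (hA : A.PosDef) : 0 < A.det.re :=
  (Complex.lt_def.1 hA.det_pos).1

theorem posDef_det_im {A : Matrix ι ι ℂ} (hA : A.PosDef) : A.det.im = 0 :=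
  ((Complex.lt_def.1 hA.det_pos).2).symm

theorem push_through {t : ℝ} (ht : 0 ≤ t) (y : Matrix ι κ ℂ) :
    (1 + (t : ℂ) • (yᴴ * y))⁻¹ = 1 - (t : ℂ) • (yᴴ * (1 + (t : ℂ) • (y * yᴴ))⁻¹ * y) := by
  have hD := posDef_one_add_mul_conj ht y
  set D : Matrix ι ι ℂ := 1 + (t : ℂ) • (y * yᴴ) with hDdef
  have hDu : IsUnit D.det := (Matrix.isUnit_iff_isUnit_det D).1 hD.isUnit
  apply Matrix.inv_eq_left_inv
  have h1 : D⁻¹ * D = 1 := Matrix.nonsing_inv_mul D hDu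
  have h2 : yᴴ * D⁻¹ * y + (t : ℂ) • (yᴴ * D⁻¹ * y * (yᴴ * y)) = yᴴ * y := by
    have h3 : yᴴ * D⁻¹ * y + (t : ℂ) • (yᴴ * D⁻¹ * y * (yᴴ * y)) = yᴴ * (D⁻¹ * D) * y := by
      rw [hDdef]
      simp only [Matrix.mul_add, Matrix.mul_one, Matrix.mul_smul, Matrix.add_mul,
        Matrix.smul_mul, Matrix.mul_assoc]
    rw [h3, h1, Matrix.mul_one]
  calc (1 - (t : ℂ) • (yᴴ * D⁻¹ * y)) * (1 + (t : ℂ) • (yᴴ * y))
      = 1 + (t : ℂ) • (yᴴ * y) -
          (t : ℂ) • (yᴴ * D⁻¹ * y + (t : ℂ) • (yᴴ * D⁻¹ * y * (yᴴ * y))) := by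
        simp only [Matrix.sub_mul, Matrix.mul_add, Matrix.mul_one, Matrix.one_mul,
          Matrix.mul_smul, Matrix.smul_mul]
        module
    _ = 1 := by
        rw [h2]
        abel

theorem gadBlock_zero (γ : ℝ) (X Y Y' Z : Matrix ι ι ℂ) :
    gadBlock γ 0 X Y Y' Z = fromBlocks (X + (γ : ℂ) • Z)
    (((Real.sqrt (1 - γ) : ℝ) : ℂ) • Y) (((Real.sqrt (1 - γ) : ℝ) : ℂ) • Y')
    (((1 - γ : ℝ) : ℂ) • Z) := by
  unfold gadBlock
  simp

theorem one_add_gadBlock (γ : ℝ) (X Y Y' Z : Matrix ι ι ℂ) (s : ℝ) :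
    1 + (s : ℂ) • gadBlock γ 0 X Y Y' Z = fromBlocks (1 + (s : ℂ) • (X + (γ : ℂ) • Z))
    ((s : ℂ) • ((Real.sqrt (1 - γ) : ℝ) : ℂ) • Y) ((s : ℂ) • ((Real.sqrt (1 - γ) : ℝ) : ℂ) • Y')
    (1 + (s : ℂ) • ((1 - γ : ℝ) : ℂ) • Z) := by
  rw [gadBlock_zero, ← fromBlocks_one, fromBlocks_smul, fromBlocks_add]
  simp

/-- the rows of `x` of zero length vanish -/
theorem row_eq_zero {x : Matrix ι κ ℂ} {a : ι → ℝ}
    (hx : x * xᴴ = diagonal (fun j => (a j : ℂ))) {j : ι} (hj : a j = 0) (k : κ) : x j k = 0 := by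
  have h := congrFun (congrFun hx j) j
  rw [diagonal_apply_eq, hj, mul_apply] at h
  have h2 : ∑ k, Complex.normSq (x j k) = 0 := by
    have h3 : ((∑ k, Complex.normSq (x j k) : ℝ) : ℂ) = 0 := by
      rw [← Complex.ofReal_zero, ← h]
      push_cast
      refine Finset.sum_congr rfl fun k _ => ?_
      rw [conjTranspose_apply, RCLike.star_def, Complex.mul_conj]
    exact_mod_cast h3
  have h4 := (Finset.sum_eq_zero_iff_of_nonneg (fun k _ => Complex.normSq_nonneg _)).1 h2 k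
    (Finset.mem_univ k)
  exact Complex.normSq_eq_zero.1 h4

theorem a_nonneg {x : Matrix ι κ ℂ} {a : ι → ℝ}
    (hx : x * xᴴ = diagonal (fun j => (a j : ℂ))) (j : ι) : 0 ≤ a j := by
  have h1 := (posSemidef_self_mul_conjTranspose x).diag_nonneg (i := j)
  rw [hx, diagonal_apply_eq] at h1
  exact_mod_cast h1

theorem diag_re_nonneg {A : Matrix ι ι ℂ} (hA : A.PosSemidef) (j : ι) : 0 ≤ (A j j).re :=
  (Complex.le_def.1 (hA.diag_nonneg (i := j))).1

end AD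

open AD

/-- Pointwise determinant inequality. `x xᴴ = diagonal a`. -/
theorem det_ad_ge (γ : ℝ) (hγ : γ ∈ Set.Icc (0 : ℝ) 1) (x y : Matrix ι κ ℂ) (a : ι → ℝ)
    (hx : x * xᴴ = diagonal (fun j => (a j : ℂ))) {s : ℝ} (hs : 0 < s) :
    (1 + (s : ℂ) • (((1 - γ : ℝ) : ℂ) • (y * yᴴ))).det.re *
      (1 + (s : ℂ) • (((γ : ℝ) : ℂ) • (y * yᴴ))).det.re *
      ∏ j, (1 + s * a j / ((1 + s * (γ * ((y * yᴴ) j j).re)) *
        (1 + s * ((1 - γ) * ((x * yᴴ * (x * yᴴ)ᴴ) j j).re / a j)))) ≤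
    (1 + (s : ℂ) • gadBlock γ 0 (x * xᴴ) (x * yᴴ) (y * xᴴ) (y * yᴴ)).det.re := by
  obtain ⟨hγ0, hγ1⟩ := hγ
  have hc0 : 0 ≤ 1 - γ := by linarith
  have hsc : 0 ≤ s * (1 - γ) := by positivity
  have hsg : 0 ≤ s * γ := by positivity
  have e1 : (s : ℂ) • (((1 - γ : ℝ) : ℂ) • (y * yᴴ)) = ((s * (1 - γ) : ℝ) : ℂ) • (y * yᴴ) := by
    rw [smul_smul]
    push_cast
    rfl
  have e2 : (s : ℂ) • (((γ : ℝ) : ℂ) • (y * yᴴ)) = ((s * γ : ℝ) : ℂ) • (y * yᴴ) := by
    rw [smul_smul]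
    push_cast
    rfl
  rw [one_add_gadBlock, e1, e2]
  have hD := posDef_one_add_mul_conj hsc y
  have hN := posDef_one_add_mul_conj hsg y
  have hP := posDef_one_add_conj_mul hsc y
  have hpush := push_through hsc y
  set D : Matrix ι ι ℂ := 1 + ((s * (1 - γ) : ℝ) : ℂ) • (y * yᴴ) with hDdef
  set N : Matrix ι ι ℂ := 1 + ((s * γ : ℝ) : ℂ) • (y * yᴴ) with hNdef
  set P : Matrix κ κ ℂ := 1 + ((s * (1 - γ) : ℝ) : ℂ) • (yᴴ * y) with hPdef
  have : Invertible D := hD.isUnit.invertible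
  have hsq : (Real.sqrt s : ℂ) * (Real.sqrt s : ℂ) = (s : ℂ) := by
    rw [← Complex.ofReal_mul, Real.mul_self_sqrt hs.le]
  have hsq' : ∀ c : ℂ, (Real.sqrt s : ℂ) * (c * (Real.sqrt s : ℂ)) = (s : ℂ) * c := by
    intro c
    rw [← hsq]
    ring
  have hcq : (Real.sqrt (1 - γ) : ℂ) * (Real.sqrt (1 - γ) : ℂ) = ((1 - γ : ℝ) : ℂ) := by
    rw [← Complex.ofReal_mul, Real.mul_self_sqrt hc0]
  have hschur : (1 + (s : ℂ) • (x * xᴴ + (γ : ℂ) • (y * yᴴ))) -
      ((s : ℂ) • ((Real.sqrt (1 - γ) : ℝ) : ℂ) • (x * yᴴ)) * ⅟D *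
        ((s : ℂ) • ((Real.sqrt (1 - γ) : ℝ) : ℂ) • (y * xᴴ)) =
      N + ((Real.sqrt s : ℂ) • x) * P⁻¹ * ((Real.sqrt s : ℂ) • x)ᴴ := by
    rw [invOf_eq_nonsing_inv, hpush, hNdef]
    have h1 : ((s : ℂ) • ((Real.sqrt (1 - γ) : ℝ) : ℂ) • (x * yᴴ)) * D⁻¹ *
        ((s : ℂ) • ((Real.sqrt (1 - γ) : ℝ) : ℂ) • (y * xᴴ)) =
        ((s : ℂ) * s * ((1 - γ : ℝ) : ℂ)) • (x * (yᴴ * (D⁻¹ * (y * xᴴ)))) := by
      simp only [Matrix.smul_mul, Matrix.mul_smul, smul_smul, Matrix.mul_assoc]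
      congr 1
      rw [← hcq]
      ring
    have h2 : ((Real.sqrt s : ℂ) • x) * (1 - ((s * (1 - γ) : ℝ) : ℂ) • (yᴴ * D⁻¹ * y)) *
        ((Real.sqrt s : ℂ) • x)ᴴ = (s : ℂ) • (x * xᴴ) -
        ((s : ℂ) * ((s * (1 - γ) : ℝ) : ℂ)) • (x * (yᴴ * (D⁻¹ * (y * xᴴ)))) := by
      simp only [conjTranspose_smul, Matrix.smul_mul, Matrix.mul_smul, smul_smul, Matrix.mul_sub,
        Matrix.sub_mul, Matrix.mul_one, smul_sub, RCLike.star_def, Complex.conj_ofReal,
        Matrix.mul_assoc]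
      rw [hsq, hsq']
    rw [h1, h2]
    push_cast
    module
  rw [det_fromBlocks₂₂, hschur]
  have hx' : ((Real.sqrt s : ℂ) • x) * ((Real.sqrt s : ℂ) • x)ᴴ =
      diagonal (fun j => ((s * a j : ℝ) : ℂ)) := by
    simp only [conjTranspose_smul, Matrix.smul_mul, Matrix.mul_smul, smul_smul, RCLike.star_def,
      Complex.conj_ofReal]
    rw [hsq, hx]
    ext i j
    by_cases h : i = j
    · subst h; simp
    · simp [h]
  have hpinch := det_pinch N P ((Real.sqrt s : ℂ) • x) (fun j => s * a j) hN hP hx'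
  have hprod : ∏ j, (1 + s * a j / ((1 + s * (γ * ((y * yᴴ) j j).re)) *
        (1 + s * ((1 - γ) * ((x * yᴴ * (x * yᴴ)ᴴ) j j).re / a j)))) =
      ∏ j, (1 + (s * a j) ^ 2 / ((N j j).re *
        ((((Real.sqrt s : ℂ) • x) * P * ((Real.sqrt s : ℂ) • x)ᴴ) j j).re)) := by
    refine Finset.prod_congr rfl fun j _ => ?_
    have hNj : (N j j).re = 1 + s * (γ * ((y * yᴴ) j j).re) := by
      rw [hNdef]
      simp [Matrix.add_apply, Matrix.smul_apply]
      ring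
    have hPx : ((((Real.sqrt s : ℂ) • x) * P * ((Real.sqrt s : ℂ) • x)ᴴ) j j).re =
        s * (a j + s * (1 - γ) * ((x * yᴴ * (x * yᴴ)ᴴ) j j).re) := by
      have h3 : ((Real.sqrt s : ℂ) • x) * P * ((Real.sqrt s : ℂ) • x)ᴴ =
          (s : ℂ) • (diagonal (fun j => (a j : ℂ)) +
            ((s * (1 - γ) : ℝ) : ℂ) • (x * yᴴ * (x * yᴴ)ᴴ)) := by
        rw [hPdef, ← hx]
        simp only [conjTranspose_smul, Matrix.smul_mul, Matrix.mul_smul, smul_smul,
          Matrix.mul_add, Matrix.add_mul, Matrix.mul_one, smul_add, RCLike.star_def,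
          Complex.conj_ofReal, conjTranspose_mul, conjTranspose_conjTranspose, Matrix.mul_assoc]
        rw [hsq, hsq']
      rw [h3]
      simp [Matrix.add_apply, Matrix.smul_apply]
    rw [hNj, hPx]
    have hz : 0 ≤ ((y * yᴴ) j j).re := diag_re_nonneg (posSemidef_self_mul_conjTranspose y) j
    have hb : 0 ≤ ((x * yᴴ * (x * yᴴ)ᴴ) j j).re :=
      diag_re_nonneg (posSemidef_self_mul_conjTranspose (x * yᴴ)) j
    rcases (a_nonneg hx j).eq_or_lt with h0 | h0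
    · rw [← h0]
      simp
    · have e3 : 0 < 1 + s * (γ * ((y * yᴴ) j j).re) := by positivity
      field_simp
  rw [hprod]
  have hre : (D.det * (N + ((Real.sqrt s : ℂ) • x) * P⁻¹ * ((Real.sqrt s : ℂ) • x)ᴴ).det).re =
      D.det.re * (N + ((Real.sqrt s : ℂ) • x) * P⁻¹ * ((Real.sqrt s : ℂ) • x)ᴴ).det.re := by
    rw [Complex.mul_re, posDef_det_im hD]
    ring
  rw [hre, mul_assoc]
  exact mul_le_mul_of_nonneg_left hpinch (posDef_det_re_pos hD).le

namespace AD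

/-- Bessel inequality for orthogonal rows. -/
theorem bessel_rows (x y : Matrix ι κ ℂ) (a : ι → ℝ)
    (hx : x * xᴴ = diagonal (fun j => (a j : ℂ))) :
    ∑ j, ((x * yᴴ * (x * yᴴ)ᴴ) j j).re / a j ≤ (y * yᴴ).trace.re := by
  set E : Matrix ι ι ℂ := diagonal (fun j => (((a j)⁻¹ : ℝ) : ℂ)) with hE
  set Q : Matrix κ κ ℂ := xᴴ * E * x with hQ
  have hEE : E * (x * xᴴ) * E = E := by
    rw [hx, hE, diagonal_mul_diagonal, diagonal_mul_diagonal]
    congr 1
    funext j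
    by_cases h : a j = 0
    · simp [h]
    · have h' : (a j : ℂ) ≠ 0 := by exact_mod_cast h
      push_cast
      field_simp
  have hEH : Eᴴ = E := (isHermitian_diagonal_real (fun j => (a j)⁻¹))
  have hQH : Qᴴ = Q := by
    rw [hQ, conjTranspose_mul, conjTranspose_mul, conjTranspose_conjTranspose, hEH,
      Matrix.mul_assoc]
  have hQQ : Q * Q = Q := by
    have h1 : Q * Q = xᴴ * (E * (x * xᴴ) * E) * x := by
      rw [hQ]
      simp only [Matrix.mul_assoc]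
    rw [h1, hEE]
  have h1 : (y * (1 - Q)) * (y * (1 - Q))ᴴ = y * yᴴ - y * Q * yᴴ := by
    have h2 : (1 - Q) * (1 - Q) = 1 - Q := by
      simp only [Matrix.sub_mul, Matrix.mul_sub, Matrix.one_mul, Matrix.mul_one, hQQ]
      abel
    rw [conjTranspose_mul, conjTranspose_sub, conjTranspose_one, hQH]
    calc y * (1 - Q) * ((1 - Q) * yᴴ) = y * ((1 - Q) * (1 - Q)) * yᴴ := by
          simp only [Matrix.mul_assoc]
      _ = y * yᴴ - y * Q * yᴴ := by
          rw [h2, Matrix.mul_sub, Matrix.sub_mul, Matrix.mul_one]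
  have h2 := (posSemidef_self_mul_conjTranspose (y * (1 - Q))).trace_nonneg
  rw [h1, trace_sub] at h2
  have h3 : (y * Q * yᴴ).trace = ∑ j, (x * yᴴ * (x * yᴴ)ᴴ) j j * (((a j)⁻¹ : ℝ) : ℂ) := by
    have h4 : y * Q * yᴴ = (y * xᴴ * E) * (x * yᴴ) := by
      rw [hQ]
      simp only [Matrix.mul_assoc]
    have h5 : (x * yᴴ) * (y * xᴴ * E) = (x * yᴴ * (x * yᴴ)ᴴ) * E := by
      rw [conjTranspose_mul, conjTranspose_conjTranspose]
      simp only [Matrix.mul_assoc]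
    rw [h4, trace_mul_comm, h5, hE, trace]
    refine Finset.sum_congr rfl fun j _ => ?_
    rw [diag_apply, mul_diagonal]
  have h4 := (Complex.le_def.1 h2).1
  rw [Complex.sub_re, h3, Complex.re_sum, Complex.zero_re] at h4
  have h5 : ∑ j, ((x * yᴴ * (x * yᴴ)ᴴ) j j).re / a j =
      ∑ j, ((x * yᴴ * (x * yᴴ)ᴴ) j j * (((a j)⁻¹ : ℝ) : ℂ)).re := by
    refine Finset.sum_congr rfl fun j _ => ?_
    rw [Complex.re_mul_ofReal, div_eq_mul_inv]
  rw [h5]
  linarith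

theorem gadBlock_posSemidef {γ : ℝ} (hγ : γ ∈ Set.Icc (0 : ℝ) 1) (x y : Matrix ι κ ℂ) :
    (gadBlock γ 0 (x * xᴴ) (x * yᴴ) (y * xᴴ) (y * yᴴ)).PosSemidef := by
  obtain ⟨hγ0, hγ1⟩ := hγ
  have hc0 : 0 ≤ 1 - γ := by linarith
  set K1 : Matrix (ι ⊕ ι) κ ℂ := fromRows x (((Real.sqrt (1 - γ) : ℝ) : ℂ) • y) with hK1
  set K2 : Matrix (ι ⊕ ι) κ ℂ := fromRows (((Real.sqrt γ : ℝ) : ℂ) • y) 0 with hK2
  have hcq : (Real.sqrt (1 - γ) : ℂ) * (Real.sqrt (1 - γ) : ℂ) = ((1 - γ : ℝ) : ℂ) := by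
    rw [← Complex.ofReal_mul, Real.mul_self_sqrt hc0]
  have hgq : (Real.sqrt γ : ℂ) * (Real.sqrt γ : ℂ) = (γ : ℂ) := by
    rw [← Complex.ofReal_mul, Real.mul_self_sqrt hγ0]
  have h1 : gadBlock γ 0 (x * xᴴ) (x * yᴴ) (y * xᴴ) (y * yᴴ) = K1 * K1ᴴ + K2 * K2ᴴ := by
    rw [gadBlock_zero, hK1, hK2, conjTranspose_fromRows_eq_fromCols_conjTranspose,
      conjTranspose_fromRows_eq_fromCols_conjTranspose, fromRows_mul_fromCols,
      fromRows_mul_fromCols, fromBlocks_add]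
    simp only [conjTranspose_smul, Matrix.smul_mul, Matrix.mul_smul, smul_smul, RCLike.star_def,
      Complex.conj_ofReal, conjTranspose_zero, Matrix.mul_zero, Matrix.zero_mul, smul_zero,
      add_zero, hcq, hgq]
  rw [h1]
  exact (posSemidef_self_mul_conjTranspose K1).add (posSemidef_self_mul_conjTranspose K2)

theorem trace_blocks (A B C D : Matrix ι ι ℂ) :
    (fromBlocks A B C D).trace = A.trace + D.trace := by
  simp [trace, Fintype.sum_sum_type]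

/-- The two roots of `l² - (a + n + p) l + n p`. -/
theorem roots_facts {a n p : ℝ} (ha : 0 ≤ a) (hn : 0 ≤ n) (hp : 0 ≤ p) :
    0 ≤ (a + n + p + Real.sqrt ((a + n + p) ^ 2 - 4 * (n * p))) / 2 ∧
    0 ≤ (a + n + p - Real.sqrt ((a + n + p) ^ 2 - 4 * (n * p))) / 2 ∧
    ∀ s : ℝ, (1 + s * ((a + n + p + Real.sqrt ((a + n + p) ^ 2 - 4 * (n * p))) / 2)) *
      (1 + s * ((a + n + p - Real.sqrt ((a + n + p) ^ 2 - 4 * (n * p))) / 2)) =
      (1 + s * n) * (1 + s * p) + s * a := by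
  have hd : 0 ≤ (a + n + p) ^ 2 - 4 * (n * p) := by nlinarith [sq_nonneg (n - p)]
  have hs := Real.sq_sqrt hd
  have hs0 := Real.sqrt_nonneg ((a + n + p) ^ 2 - 4 * (n * p))
  refine ⟨by positivity, ?_, ?_⟩
  · have h1 : Real.sqrt ((a + n + p) ^ 2 - 4 * (n * p)) ≤ a + n + p := by
      rw [show a + n + p = Real.sqrt ((a + n + p) ^ 2) from
        (Real.sqrt_sq (by positivity)).symm]
      refine Real.sqrt_le_sqrt ?_
      rw [Real.sqrt_sq (by positivity)]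
      have : 0 ≤ n * p := mul_nonneg hn hp
      linarith
    linarith
  · intro s
    linear_combination (-(s ^ 2) / 4) * hs

/-- The entropy through the eigenvalues, and the trace. -/
theorem entU_eq_sum {A : Matrix ι ι ℂ} (hA : A.IsHermitian) :
    entU A = ∑ i, Real.negMulLog (hA.eigenvalues i) := by
  rw [entU, dif_pos hA]

theorem sum_eigenvalues {A : Matrix ι ι ℂ} (hA : A.IsHermitian) :
    ∑ i, hA.eigenvalues i = A.trace.re := by
  rw [hA.trace_eq_sum_eigenvalues]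
  simp

theorem prod_one_add_eigenvalues {A : Matrix ι ι ℂ} (hA : A.IsHermitian) (s : ℝ) :
    ∏ i, (1 + s * hA.eigenvalues i) = (1 + (s : ℂ) • A).det.re := by
  rw [det_one_add_smul hA s, Complex.ofReal_re]

theorem entU_ad_ge {γ : ℝ} (hγ : γ ∈ Set.Icc (0 : ℝ) 1) (x y : Matrix ι κ ℂ) (a : ι → ℝ)
    (hx : x * xᴴ = diagonal (fun j => (a j : ℂ))) :
    entU (((1 - γ : ℝ) : ℂ) • (y * yᴴ)) + entU (((γ : ℝ) : ℂ) • (y * yᴴ)) +
      ∑ j, ent2 (a j + γ * ((y * yᴴ) j j).re +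
          (1 - γ) * ((x * yᴴ * (x * yᴴ)ᴴ) j j).re / a j)
        (γ * ((y * yᴴ) j j).re * ((1 - γ) * ((x * yᴴ * (x * yᴴ)ᴴ) j j).re / a j)) ≤
    entU (gadBlock γ 0 (x * xᴴ) (x * yᴴ) (y * xᴴ) (y * yᴴ)) +
      ∑ j, Real.negMulLog (γ * ((y * yᴴ) j j).re) +
      ∑ j, Real.negMulLog ((1 - γ) * ((x * yᴴ * (x * yᴴ)ᴴ) j j).re / a j) := by
  have hγ0 := hγ.1
  have hγ1 := hγ.2
  have hc0 : 0 ≤ 1 - γ := by linarith
  have hZ : (y * yᴴ).PosSemidef := posSemidef_self_mul_conjTranspose y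
  have hcZ : (((1 - γ : ℝ) : ℂ) • (y * yᴴ)).PosSemidef := hZ.smul (by exact_mod_cast hc0)
  have hgZ : (((γ : ℝ) : ℂ) • (y * yᴴ)).PosSemidef := hZ.smul (by exact_mod_cast hγ0)
  have hM := gadBlock_posSemidef hγ x y
  set M := gadBlock γ 0 (x * xᴴ) (x * yᴴ) (y * xᴴ) (y * yᴴ) with hMdef
  obtain ⟨n, hn⟩ : ∃ n : ι → ℝ, n = fun j => γ * ((y * yᴴ) j j).re := ⟨_, rfl⟩
  obtain ⟨p, hp⟩ : ∃ p : ι → ℝ, p = fun j => (1 - γ) * ((x * yᴴ * (x * yᴴ)ᴴ) j j).re / a j :=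
    ⟨_, rfl⟩
  have ha0 : ∀ j, 0 ≤ a j := a_nonneg hx
  have hn0 : ∀ j, 0 ≤ n j := fun j => by
    rw [hn]
    exact mul_nonneg hγ0 (diag_re_nonneg hZ j)
  have hp0 : ∀ j, 0 ≤ p j := fun j => by
    rw [hp]
    exact div_nonneg (mul_nonneg hc0
      (diag_re_nonneg (posSemidef_self_mul_conjTranspose (x * yᴴ)) j)) (ha0 j)
  set R1 : ι → ℝ := fun j =>
    (a j + n j + p j + Real.sqrt ((a j + n j + p j) ^ 2 - 4 * (n j * p j))) / 2 with hR1
  set R2 : ι → ℝ := fun j =>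
    (a j + n j + p j - Real.sqrt ((a j + n j + p j) ^ 2 - 4 * (n j * p j))) / 2 with hR2
  have hR := fun j => roots_facts (ha0 j) (hn0 j) (hp0 j)
  have key := sum_negMulLog_le_of_prod_le
    (Sum.elim hM.isHermitian.eigenvalues (Sum.elim n p))
    (Sum.elim (Sum.elim hcZ.isHermitian.eigenvalues hgZ.isHermitian.eigenvalues)
      (Sum.elim R1 R2)) ?_ ?_ ?_ ?_
  · simp only [Fintype.sum_sum_type, Sum.elim_inl, Sum.elim_inr] at key
    have hs1 := Fintype.sum_sum_type (fun i => Real.negMulLog (hM.isHermitian.eigenvalues i))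
    rw [entU_eq_sum hcZ.isHermitian, entU_eq_sum hgZ.isHermitian, entU_eq_sum hM.isHermitian]
    have e1 : ∑ j, ent2 (a j + γ * ((y * yᴴ) j j).re +
          (1 - γ) * ((x * yᴴ * (x * yᴴ)ᴴ) j j).re / a j)
        (γ * ((y * yᴴ) j j).re * ((1 - γ) * ((x * yᴴ * (x * yᴴ)ᴴ) j j).re / a j)) =
        ∑ j, Real.negMulLog (R1 j) + ∑ j, Real.negMulLog (R2 j) := by
      rw [← Finset.sum_add_distrib]
      refine Finset.sum_congr rfl fun j _ => ?_
      rw [ent2, hR1, hR2, hn, hp]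
    rw [e1]
    have e2 : ∑ j, Real.negMulLog (γ * ((y * yᴴ) j j).re) = ∑ j, Real.negMulLog (n j) := by
      rw [hn]
    have e3 : ∑ j, Real.negMulLog ((1 - γ) * ((x * yᴴ * (x * yᴴ)ᴴ) j j).re / a j) =
        ∑ j, Real.negMulLog (p j) := by
      rw [hp]
    rw [e2, e3]
    linarith
  · rintro (i | i | i)
    · exact hM.eigenvalues_nonneg i
    · exact hn0 i
    · exact hp0 i
  · rintro ((i | i) | i | i)
    · exact hcZ.eigenvalues_nonneg i
    · exact hgZ.eigenvalues_nonneg i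
    · exact (hR i).1
    · exact (hR i).2.1
  · simp only [Fintype.sum_sum_type, Sum.elim_inl, Sum.elim_inr]
    rw [← Fintype.sum_sum_type hM.isHermitian.eigenvalues]
    rw [sum_eigenvalues, sum_eigenvalues, sum_eigenvalues]
    have hRs : ∑ j, R1 j + ∑ j, R2 j = ∑ j, a j + ∑ j, n j + ∑ j, p j := by
      rw [← Finset.sum_add_distrib, ← Finset.sum_add_distrib, ← Finset.sum_add_distrib]
      refine Finset.sum_congr rfl fun j _ => ?_
      simp only [hR1, hR2]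
      ring
    have hns : ∑ j, n j = γ * (y * yᴴ).trace.re := by
      rw [hn, ← Finset.mul_sum, trace, Complex.re_sum]
      rfl
    have has : (x * xᴴ).trace.re = ∑ j, a j := by
      rw [hx, trace_diagonal, ← Complex.ofReal_sum, Complex.ofReal_re]
    have hMt : M.trace.re = (x * xᴴ).trace.re + (y * yᴴ).trace.re := by
      rw [hMdef, gadBlock_zero, trace_blocks, trace_add, trace_smul, trace_smul,
        Complex.add_re, Complex.add_re, smul_eq_mul, smul_eq_mul, Complex.re_ofReal_mul,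
        Complex.re_ofReal_mul]
      ring
    rw [hMt, has, trace_smul, trace_smul, smul_eq_mul, smul_eq_mul, Complex.re_ofReal_mul,
      Complex.re_ofReal_mul]
    linarith
  · intro s hs
    simp only [Fintype.prod_sum_type, Sum.elim_inl, Sum.elim_inr]
    rw [← Fintype.prod_sum_type (fun i => 1 + s * hM.isHermitian.eigenvalues i)]
    rw [prod_one_add_eigenvalues, prod_one_add_eigenvalues, prod_one_add_eigenvalues]
    have hdet := det_ad_ge γ hγ x y a hx hs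
    have hRp : (∏ j, (1 + s * R1 j)) * ∏ j, (1 + s * R2 j) =
        (∏ j, (1 + s * a j / ((1 + s * (γ * ((y * yᴴ) j j).re)) *
        (1 + s * ((1 - γ) * ((x * yᴴ * (x * yᴴ)ᴴ) j j).re / a j))))) *
        ((∏ j, (1 + s * n j)) * ∏ j, (1 + s * p j)) := by
      rw [← Finset.prod_mul_distrib, ← Finset.prod_mul_distrib, ← Finset.prod_mul_distrib]
      refine Finset.prod_congr rfl fun j _ => ?_
      rw [(hR j).2.2 s]
      have hn1 : 0 < 1 + s * n j := by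
        have := hn0 j
        positivity
      have hp1 : 0 < 1 + s * p j := by
        have := hp0 j
        positivity
      have e1 : γ * ((y * yᴴ) j j).re = n j := by rw [hn]
      have e2 : (1 - γ) * ((x * yᴴ * (x * yᴴ)ᴴ) j j).re / a j = p j := by rw [hp]
      rw [e1, e2]
      field_simp
    rw [hRp, ← mul_assoc]
    refine mul_le_mul_of_nonneg_right hdet ?_
    refine mul_nonneg (Finset.prod_nonneg fun j _ => ?_) (Finset.prod_nonneg fun j _ => ?_)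
    · have := hn0 j
      positivity
    · have := hp0 j
      positivity

/-- The one-step inequality when `x xᴴ` is diagonal. -/
theorem oneStep_ad_diag {γ : ℝ} (hγ : γ ∈ Set.Icc (0 : ℝ) 1) (x y : Matrix ι κ ℂ) (a : ι → ℝ)
    (hx : x * xᴴ = diagonal (fun j => (a j : ℂ)))
    (htr : (x * xᴴ).trace.re + (y * yᴴ).trace.re = 1) :
    fq γ 0 (y * yᴴ).trace.re + (entU (x * xᴴ) - Real.negMulLog (x * xᴴ).trace.re) +
      (entU (y * yᴴ) - Real.negMulLog (y * yᴴ).trace.re) ≤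
      entU (gadBlock γ 0 (x * xᴴ) (x * yᴴ) (y * xᴴ) (y * yᴴ)) := by
  have hγ0 := hγ.1
  have hγ1 := hγ.2
  have hc0 : 0 ≤ 1 - γ := by linarith
  have hmain := entU_ad_ge hγ x y a hx
  have hZ : (y * yᴴ).PosSemidef := posSemidef_self_mul_conjTranspose y
  obtain ⟨q, hq⟩ : ∃ q : ℝ, q = (y * yᴴ).trace.re := ⟨_, rfl⟩
  obtain ⟨n, hn⟩ : ∃ n : ι → ℝ, n = fun j => γ * ((y * yᴴ) j j).re := ⟨_, rfl⟩
  obtain ⟨p, hp⟩ : ∃ p : ι → ℝ, p = fun j => (1 - γ) * ((x * yᴴ * (x * yᴴ)ᴴ) j j).re / a j :=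
    ⟨_, rfl⟩
  have ha0 : ∀ j, 0 ≤ a j := a_nonneg hx
  have hn0 : ∀ j, 0 ≤ n j := fun j => by
    rw [hn]
    exact mul_nonneg hγ0 (diag_re_nonneg hZ j)
  have hp0 : ∀ j, 0 ≤ p j := fun j => by
    rw [hp]
    exact div_nonneg (mul_nonneg hc0
      (diag_re_nonneg (posSemidef_self_mul_conjTranspose (x * yᴴ)) j)) (ha0 j)
  have hns : ∑ j, n j = γ * q := by
    rw [hn, hq, ← Finset.mul_sum, trace, Complex.re_sum]
    rfl
  have has : (x * xᴴ).trace.re = ∑ j, a j := by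
    rw [hx, trace_diagonal, ← Complex.ofReal_sum, Complex.ofReal_re]
  have hps : ∑ j, p j ≤ (1 - γ) * q := by
    have hb := bessel_rows x y a hx
    rw [← hq] at hb
    have h1 : ∑ j, p j = (1 - γ) * ∑ j, ((x * yᴴ * (x * yᴴ)ᴴ) j j).re / a j := by
      rw [hp, Finset.mul_sum]
      refine Finset.sum_congr rfl fun j _ => ?_
      ring
    rw [h1]
    exact mul_le_mul_of_nonneg_left hb hc0
  have hq0 : 0 ≤ q := by
    rw [hq]
    exact (Complex.le_def.1 hZ.trace_nonneg).1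
  have ha1 : ∑ j, a j = 1 - q := by
    rw [← has, hq]
    linarith
  have hq1 : q ≤ 1 := by
    have : 0 ≤ ∑ j, a j := Finset.sum_nonneg fun j _ => ha0 j
    linarith
  -- superadditivity of Gam over Option
  have hG := sum_Gam_le (Finset.univ : Finset (Option ι))
    (fun o => o.elim 0 a) (fun o => o.elim 0 n)
    (fun o => o.elim ((1 - γ) * q - ∑ j, p j) p)
    (by rintro (_ | i) _ <;> simp [ha0]) (by rintro (_ | i) _ <;> simp [hn0])
    (by
      rintro (_ | i) _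
      · simpa using hps
      · simpa using hp0 i)
  simp only [Fintype.sum_option, Option.elim] at hG
  rw [Gam_zero_zero (by linarith), zero_add, zero_add, zero_add, sub_add_cancel, ha1, hns] at hG
  -- rewrite everything
  have e1 : entU (((1 - γ : ℝ) : ℂ) • (y * yᴴ)) =
      (1 - γ) * entU (y * yᴴ) + Real.negMulLog (1 - γ) * q := by
    rw [entU_smul hZ.isHermitian, hq]
  have e2 : entU (((γ : ℝ) : ℂ) • (y * yᴴ)) =
      γ * entU (y * yᴴ) + Real.negMulLog γ * q := by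
    rw [entU_smul hZ.isHermitian, hq]
  have e3 : entU (x * xᴴ) = ∑ j, Real.negMulLog (a j) := by
    rw [hx, entU_diagonal]
  have e4 : ∑ j, ent2 (a j + γ * ((y * yᴴ) j j).re +
          (1 - γ) * ((x * yᴴ * (x * yᴴ)ᴴ) j j).re / a j)
        (γ * ((y * yᴴ) j j).re * ((1 - γ) * ((x * yᴴ * (x * yᴴ)ᴴ) j j).re / a j)) =
      ∑ j, Real.negMulLog (a j) + ∑ j, Real.negMulLog (n j) + ∑ j, Real.negMulLog (p j) -
        ∑ j, Gam (a j) (n j) (p j) := by
    rw [← Finset.sum_add_distrib, ← Finset.sum_add_distrib, ← Finset.sum_sub_distrib]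
    refine Finset.sum_congr rfl fun j _ => ?_
    rw [Gam, hn, hp]
    ring
  have e5 : ∑ j, Real.negMulLog (γ * ((y * yᴴ) j j).re) = ∑ j, Real.negMulLog (n j) := by
    rw [hn]
  have e6 : ∑ j, Real.negMulLog ((1 - γ) * ((x * yᴴ * (x * yᴴ)ᴴ) j j).re / a j) =
      ∑ j, Real.negMulLog (p j) := by
    rw [hp]
  rw [e1, e2, e4, e5, e6] at hmain
  have e7 : Gam (1 - q) (γ * q) ((1 - γ) * q) = Real.negMulLog (1 - q) + Real.negMulLog q +
      q * (Real.negMulLog γ + Real.negMulLog (1 - γ)) - fq γ 0 q := by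
    rw [Gam, Real.negMulLog_mul, Real.negMulLog_mul]
    have h1 : 1 - q + γ * q + (1 - γ) * q = 1 := by ring
    have h2 : γ * q * ((1 - γ) * q) = γ * (1 - γ) * q ^ 2 := by ring
    have h3 : γ * (1 - γ) * q ^ 2 ≤ 1 / 4 := by
      have h4 : γ * (1 - γ) ≤ 1 / 4 := by nlinarith [sq_nonneg (γ - 1 / 2)]
      have h5 : q ^ 2 ≤ 1 := by nlinarith
      have h6 : 0 ≤ γ * (1 - γ) := mul_nonneg hγ0 hc0
      nlinarith
    have h4 : 0 ≤ γ * (1 - γ) * q ^ 2 := by positivity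
    rw [h1, h2, ent2_one h4 h3, fq]
    have h5 : γ * (1 - γ) * (q - 0) ^ 2 + γ * 0 * (1 - 0) = γ * (1 - γ) * q ^ 2 := by ring
    rw [h5]
    ring
  rw [e7] at hG
  rw [e3, has, ha1, ← hq]
  linarith

theorem exists_factor {A : Matrix ι ι ℂ} (hA : A.PosSemidef) : ∃ C : Matrix ι ι ℂ, A = C * Cᴴ := by
  refine ⟨(hA.isHermitian.eigenvectorUnitary : Matrix ι ι ℂ) *
    diagonal (fun i => ((Real.sqrt (hA.isHermitian.eigenvalues i) : ℝ) : ℂ)), ?_⟩
  have h1 : (diagonal (fun i => ((Real.sqrt (hA.isHermitian.eigenvalues i) : ℝ) : ℂ)))ᴴ =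
      diagonal (fun i => ((Real.sqrt (hA.isHermitian.eigenvalues i) : ℝ) : ℂ)) :=
    isHermitian_diagonal_real _
  have h2 : diagonal (fun i => ((Real.sqrt (hA.isHermitian.eigenvalues i) : ℝ) : ℂ)) *
      diagonal (fun i => ((Real.sqrt (hA.isHermitian.eigenvalues i) : ℝ) : ℂ)) =
      diagonal (fun i => ((hA.isHermitian.eigenvalues i : ℝ) : ℂ)) := by
    rw [diagonal_mul_diagonal]
    congr 1
    funext i
    rw [← Complex.ofReal_mul, Real.mul_self_sqrt (hA.eigenvalues_nonneg i)]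
  conv_lhs => rw [spectral_form hA.isHermitian, ← h2]
  rw [conjTranspose_mul, h1]
  simp only [Matrix.mul_assoc]

end AD

/-- The one-step inequality for amplitude damping. -/
theorem oneStep_ad {γ : ℝ} (hγ : γ ∈ Set.Icc (0 : ℝ) 1) : OneStep γ 0 := by
  intro m X Y Z hpsd htr
  -- factor the block matrix
  obtain ⟨C, hC⟩ := exists_factor hpsd
  set x0 := C.toRows₁ with hx0
  set y0 := C.toRows₂ with hy0
  have hCC : C = fromRows x0 y0 := (fromRows_toRows C).symm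
  rw [hCC, conjTranspose_fromRows_eq_fromCols_conjTranspose, fromRows_mul_fromCols,
    fromBlocks_inj] at hC
  obtain ⟨hX, hY, hY', hZ⟩ := hC
  have hXh : X.IsHermitian := by
    rw [hX]
    exact (posSemidef_self_mul_conjTranspose x0).isHermitian
  have hZh : Z.IsHermitian := by
    rw [hZ]
    exact (posSemidef_self_mul_conjTranspose y0).isHermitian
  set U : Matrix (Fin m → Fin 2) (Fin m → Fin 2) ℂ :=
    (hXh.eigenvectorUnitary : Matrix (Fin m → Fin 2) (Fin m → Fin 2) ℂ) with hU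
  have hUU : U * Uᴴ = 1 := Matrix.mem_unitaryGroup_iff.1 hXh.eigenvectorUnitary.2
  have hUU' : Uᴴ * U = 1 := Matrix.mem_unitaryGroup_iff'.1 hXh.eigenvectorUnitary.2
  have hUmem : Uᴴ ∈ Matrix.unitaryGroup (Fin m → Fin 2) ℂ := by
    rw [Matrix.mem_unitaryGroup_iff, star_eq_conjTranspose, conjTranspose_conjTranspose]
    exact hUU'
  have hspec : X = U * diagonal (fun i => ((hXh.eigenvalues i : ℝ) : ℂ)) * Uᴴ := spectral_form hXh
  set x := Uᴴ * x0 with hx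
  set y := Uᴴ * y0 with hy
  have hxx : x * xᴴ = Uᴴ * X * (Uᴴ)ᴴ := by
    rw [hx, conjTranspose_mul, hX]
    simp only [Matrix.mul_assoc]
  have hxy : x * yᴴ = Uᴴ * Y * (Uᴴ)ᴴ := by
    rw [hx, hy, conjTranspose_mul, hY]
    simp only [Matrix.mul_assoc]
  have hyx : y * xᴴ = Uᴴ * Yᴴ * (Uᴴ)ᴴ := by
    rw [hx, hy, conjTranspose_mul, hY']
    simp only [Matrix.mul_assoc]
  have hyy : y * yᴴ = Uᴴ * Z * (Uᴴ)ᴴ := by
    rw [hy, conjTranspose_mul, hZ]
    simp only [Matrix.mul_assoc]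
  have hdiag : x * xᴴ = diagonal (fun i => ((hXh.eigenvalues i : ℝ) : ℂ)) := by
    rw [hxx, conjTranspose_conjTranspose]
    have h1 : Uᴴ * X * U = Uᴴ * U * diagonal (fun i => ((hXh.eigenvalues i : ℝ) : ℂ)) *
        (Uᴴ * U) := by
      conv_lhs => rw [hspec]
      simp only [Matrix.mul_assoc]
    rw [h1, hUU', Matrix.one_mul, Matrix.mul_one]
  have htrc : ∀ A : Matrix (Fin m → Fin 2) (Fin m → Fin 2) ℂ,
      (Uᴴ * A * (Uᴴ)ᴴ).trace = A.trace := by
    intro A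
    rw [trace_mul_comm, ← Matrix.mul_assoc, conjTranspose_conjTranspose, hUU, Matrix.one_mul]
  have htrx : (x * xᴴ).trace = X.trace := by rw [hxx, htrc]
  have htry : (y * yᴴ).trace = Z.trace := by rw [hyy, htrc]
  have hex : entU (x * xᴴ) = entU X := by rw [hxx, entU_conj hXh hUmem]
  have hey : entU (y * yᴴ) = entU Z := by rw [hyy, entU_conj hZh hUmem]
  have hGh : (gadBlock γ 0 X Y Yᴴ Z).IsHermitian := by
    rw [hX, hY', hY, hZ]
    exact (gadBlock_posSemidef hγ x0 y0).isHermitian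
  set W : Matrix ((Fin m → Fin 2) ⊕ (Fin m → Fin 2)) ((Fin m → Fin 2) ⊕ (Fin m → Fin 2)) ℂ :=
    fromBlocks Uᴴ 0 0 Uᴴ with hW
  have hWmem : W ∈ Matrix.unitaryGroup ((Fin m → Fin 2) ⊕ (Fin m → Fin 2)) ℂ := by
    rw [Matrix.mem_unitaryGroup_iff, star_eq_conjTranspose, hW, fromBlocks_conjTranspose,
      fromBlocks_multiply]
    simp only [conjTranspose_conjTranspose, hUU', conjTranspose_zero, Matrix.mul_zero,
      Matrix.zero_mul, add_zero, zero_add, fromBlocks_one]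
  have hGW : gadBlock γ 0 (x * xᴴ) (x * yᴴ) (y * xᴴ) (y * yᴴ) =
      W * gadBlock γ 0 X Y Yᴴ Z * Wᴴ := by
    rw [gadBlock_zero, gadBlock_zero, hW, fromBlocks_conjTranspose, fromBlocks_multiply,
      fromBlocks_multiply, hxx, hxy, hyx, hyy]
    simp only [conjTranspose_zero, Matrix.mul_zero, Matrix.zero_mul, add_zero, zero_add,
      Matrix.mul_add, Matrix.add_mul, Matrix.mul_smul, Matrix.smul_mul, smul_zero]
  have heG : entU (gadBlock γ 0 (x * xᴴ) (x * yᴴ) (y * xᴴ) (y * yᴴ)) =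
      entU (gadBlock γ 0 X Y Yᴴ Z) := by
    rw [hGW, entU_conj hGh hWmem]
  have htr' : (x * xᴴ).trace.re + (y * yᴴ).trace.re = 1 := by
    rw [htrx, htry, ← Complex.add_re, htr, Complex.one_re]
  have hfin := oneStep_ad_diag hγ x y (fun i => hXh.eigenvalues i) hdiag htr'
  rw [htrx, htry, hex, hey, heG] at hfin
  exact hfin

end Vale.Agent.P358
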