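import Vale.Agent.Lib.P358.OneStepAD

/-!
# P358, module Path3: the entropy inequality for a path of three independent blocks

For `W = [[x, √N], [w, 0]]` the entropy of `W Wᴴ` is at least the sum of the entropies of the
three blocks minus `Gam` of the three traces.
-/

namespace Vale.Agent.P358

open Matrix AD
open scoped ComplexOrder

variable {ι κ : Type*} [Fintype ι] [DecidableEq ι] [Fintype κ] [DecidableEq κ]

/-- `W Wᴴ` for the path `W = [[x, √N], [w, 0]]`. -/
noncomputable def p3M (x w : Matrix ι κ ℂ) (N : Matrix ι ι ℂ) : Matrix (ι ⊕ ι) (ι ⊕ ι) ℂ :=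
  fromBlocks (x * xᴴ + N) (x * wᴴ) (w * xᴴ) (w * wᴴ)

namespace P3

theorem one_add_p3M (x w : Matrix ι κ ℂ) (N : Matrix ι ι ℂ) (s : ℝ) :
    1 + (s : ℂ) • p3M x w N = fromBlocks (1 + (s : ℂ) • (x * xᴴ + N))
    ((s : ℂ) • (x * wᴴ)) ((s : ℂ) • (w * xᴴ)) (1 + (s : ℂ) • (w * wᴴ)) := by
  rw [p3M, ← fromBlocks_one, fromBlocks_smul, fromBlocks_add]
  simp

theorem p3M_posSemidef (x w : Matrix ι κ ℂ) {N : Matrix ι ι ℂ} (hN : N.PosSemidef) :
    (p3M x w N).PosSemidef := by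
  obtain ⟨C, hC⟩ := exists_factor hN
  set K1 : Matrix (ι ⊕ ι) κ ℂ := fromRows x w with hK1
  set K2 : Matrix (ι ⊕ ι) ι ℂ := fromRows C 0 with hK2
  have h1 : p3M x w N = K1 * K1ᴴ + K2 * K2ᴴ := by
    rw [p3M, hK1, hK2, conjTranspose_fromRows_eq_fromCols_conjTranspose,
      conjTranspose_fromRows_eq_fromCols_conjTranspose, fromRows_mul_fromCols,
      fromRows_mul_fromCols, fromBlocks_add, hC]
    simp
  rw [h1]
  exact (posSemidef_self_mul_conjTranspose K1).add (posSemidef_self_mul_conjTranspose K2)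

theorem det_p3_ge (x w : Matrix ι κ ℂ) (N : Matrix ι ι ℂ) (hN0 : N.PosSemidef) (a : ι → ℝ)
    (hx : x * xᴴ = diagonal (fun j => (a j : ℂ))) {s : ℝ} (hs : 0 < s) :
    (1 + (s : ℂ) • (w * wᴴ)).det.re * (1 + (s : ℂ) • N).det.re *
      ∏ j, (1 + s * a j / ((1 + s * (N j j).re) *
        (1 + s * (((x * wᴴ * (x * wᴴ)ᴴ) j j).re / a j)))) ≤
    (1 + (s : ℂ) • p3M x w N).det.re := by
  rw [one_add_p3M]
  have hD := posDef_one_add_mul_conj hs.le w
  have hN : (1 + (s : ℂ) • N).PosDef :=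
    PosDef.one.add_posSemidef (hN0.smul (by exact_mod_cast hs.le))
  have hP := posDef_one_add_conj_mul hs.le w
  have hpush := push_through hs.le w
  set D : Matrix ι ι ℂ := 1 + (s : ℂ) • (w * wᴴ) with hDdef
  set N' : Matrix ι ι ℂ := 1 + (s : ℂ) • N with hNdef
  set P : Matrix κ κ ℂ := 1 + (s : ℂ) • (wᴴ * w) with hPdef
  have : Invertible D := hD.isUnit.invertible
  have hsq : (Real.sqrt s : ℂ) * (Real.sqrt s : ℂ) = (s : ℂ) := by
    rw [← Complex.ofReal_mul, Real.mul_self_sqrt hs.le]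
  have hsq' : ∀ c : ℂ, (Real.sqrt s : ℂ) * (c * (Real.sqrt s : ℂ)) = (s : ℂ) * c := by
    intro c
    rw [← hsq]
    ring
  have hschur : (1 + (s : ℂ) • (x * xᴴ + N)) -
      ((s : ℂ) • (x * wᴴ)) * ⅟D * ((s : ℂ) • (w * xᴴ)) =
      N' + ((Real.sqrt s : ℂ) • x) * P⁻¹ * ((Real.sqrt s : ℂ) • x)ᴴ := by
    rw [invOf_eq_nonsing_inv, hpush, hNdef]
    have h1 : ((s : ℂ) • (x * wᴴ)) * D⁻¹ * ((s : ℂ) • (w * xᴴ)) =
        ((s : ℂ) * s) • (x * (wᴴ * (D⁻¹ * (w * xᴴ)))) := by
      simp only [Matrix.smul_mul, Matrix.mul_smul, smul_smul, Matrix.mul_assoc]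
    have h2 : ((Real.sqrt s : ℂ) • x) * (1 - (s : ℂ) • (wᴴ * D⁻¹ * w)) *
        ((Real.sqrt s : ℂ) • x)ᴴ = (s : ℂ) • (x * xᴴ) -
        ((s : ℂ) * (s : ℂ)) • (x * (wᴴ * (D⁻¹ * (w * xᴴ)))) := by
      simp only [conjTranspose_smul, Matrix.smul_mul, Matrix.mul_smul, smul_smul, Matrix.mul_sub,
        Matrix.sub_mul, Matrix.mul_one, smul_sub, RCLike.star_def, Complex.conj_ofReal,
        Matrix.mul_assoc]
      rw [hsq, hsq']
    rw [h1, h2]
    module
  rw [det_fromBlocks₂₂, hschur]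
  have hx' : ((Real.sqrt s : ℂ) • x) * ((Real.sqrt s : ℂ) • x)ᴴ =
      diagonal (fun j => ((s * a j : ℝ) : ℂ)) := by
    simp only [conjTranspose_smul, Matrix.smul_mul, Matrix.mul_smul, smul_smul, RCLike.star_def,
      Complex.conj_ofReal]
    rw [hsq, hx]
    ext i j
    by_cases h : i = j
    · subst h; simp
    · simp [h]
  have hpinch := det_pinch N' P ((Real.sqrt s : ℂ) • x) (fun j => s * a j) hN hP hx'
  have hprod : ∏ j, (1 + s * a j / ((1 + s * (N j j).re) *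
        (1 + s * (((x * wᴴ * (x * wᴴ)ᴴ) j j).re / a j)))) =
      ∏ j, (1 + (s * a j) ^ 2 / ((N' j j).re *
        ((((Real.sqrt s : ℂ) • x) * P * ((Real.sqrt s : ℂ) • x)ᴴ) j j).re)) := by
    refine Finset.prod_congr rfl fun j _ => ?_
    have hNj : (N' j j).re = 1 + s * (N j j).re := by
      rw [hNdef]
      simp [Matrix.add_apply, Matrix.smul_apply]
    have hPx : ((((Real.sqrt s : ℂ) • x) * P * ((Real.sqrt s : ℂ) • x)ᴴ) j j).re =
        s * (a j + s * ((x * wᴴ * (x * wᴴ)ᴴ) j j).re) := by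
      have h3 : ((Real.sqrt s : ℂ) • x) * P * ((Real.sqrt s : ℂ) • x)ᴴ =
          (s : ℂ) • (diagonal (fun j => (a j : ℂ)) + (s : ℂ) • (x * wᴴ * (x * wᴴ)ᴴ)) := by
        rw [hPdef, ← hx]
        simp only [conjTranspose_smul, Matrix.smul_mul, Matrix.mul_smul, smul_smul,
          Matrix.mul_add, Matrix.add_mul, Matrix.mul_one, smul_add, RCLike.star_def,
          Complex.conj_ofReal, conjTranspose_mul, conjTranspose_conjTranspose, Matrix.mul_assoc]
        rw [hsq, hsq']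
      rw [h3]
      simp [Matrix.add_apply, Matrix.smul_apply]
    rw [hNj, hPx]
    have hz : 0 ≤ (N j j).re := AD.diag_re_nonneg hN0 j
    have hb : 0 ≤ ((x * wᴴ * (x * wᴴ)ᴴ) j j).re :=
      AD.diag_re_nonneg (posSemidef_self_mul_conjTranspose (x * wᴴ)) j
    rcases (a_nonneg hx j).eq_or_lt with h0 | h0
    · rw [← h0]
      simp
    · have e3 : 0 < 1 + s * (N j j).re := by positivity
      field_simp
  rw [hprod]
  have hre : (D.det * (N' + ((Real.sqrt s : ℂ) • x) * P⁻¹ * ((Real.sqrt s : ℂ) • x)ᴴ).det).re =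
      D.det.re * (N' + ((Real.sqrt s : ℂ) • x) * P⁻¹ * ((Real.sqrt s : ℂ) • x)ᴴ).det.re := by
    rw [Complex.mul_re, posDef_det_im hD]
    ring
  rw [hre, mul_assoc]
  exact mul_le_mul_of_nonneg_left hpinch (posDef_det_re_pos hD).le

theorem entU_p3_ge (x w : Matrix ι κ ℂ) (N : Matrix ι ι ℂ) (hN0 : N.PosSemidef) (a : ι → ℝ)
    (hx : x * xᴴ = diagonal (fun j => (a j : ℂ))) :
    entU (w * wᴴ) + entU N +
      ∑ j, ent2 (a j + (N j j).re + ((x * wᴴ * (x * wᴴ)ᴴ) j j).re / a j)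
        ((N j j).re * (((x * wᴴ * (x * wᴴ)ᴴ) j j).re / a j)) ≤
    entU (p3M x w N) + ∑ j, Real.negMulLog (N j j).re +
      ∑ j, Real.negMulLog (((x * wᴴ * (x * wᴴ)ᴴ) j j).re / a j) := by
  have hZ : (w * wᴴ).PosSemidef := posSemidef_self_mul_conjTranspose w
  have hM := p3M_posSemidef x w hN0
  set M := p3M x w N with hMdef
  obtain ⟨n, hn⟩ : ∃ n : ι → ℝ, n = fun j => (N j j).re := ⟨_, rfl⟩
  obtain ⟨p, hp⟩ : ∃ p : ι → ℝ, p = fun j => ((x * wᴴ * (x * wᴴ)ᴴ) j j).re / a j :=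
    ⟨_, rfl⟩
  have ha0 : ∀ j, 0 ≤ a j := a_nonneg hx
  have hn0 : ∀ j, 0 ≤ n j := fun j => by
    rw [hn]
    exact AD.diag_re_nonneg hN0 j
  have hp0 : ∀ j, 0 ≤ p j := fun j => by
    rw [hp]
    exact div_nonneg (AD.diag_re_nonneg (posSemidef_self_mul_conjTranspose (x * wᴴ)) j) (ha0 j)
  set R1 : ι → ℝ := fun j =>
    (a j + n j + p j + Real.sqrt ((a j + n j + p j) ^ 2 - 4 * (n j * p j))) / 2 with hR1
  set R2 : ι → ℝ := fun j =>
    (a j + n j + p j - Real.sqrt ((a j + n j + p j) ^ 2 - 4 * (n j * p j))) / 2 with hR2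
  have hR := fun j => roots_facts (ha0 j) (hn0 j) (hp0 j)
  have key := sum_negMulLog_le_of_prod_le
    (Sum.elim hM.isHermitian.eigenvalues (Sum.elim n p))
    (Sum.elim (Sum.elim hZ.isHermitian.eigenvalues hN0.isHermitian.eigenvalues)
      (Sum.elim R1 R2)) ?_ ?_ ?_ ?_
  · simp only [Fintype.sum_sum_type, Sum.elim_inl, Sum.elim_inr] at key
    have hs1 := Fintype.sum_sum_type (fun i => Real.negMulLog (hM.isHermitian.eigenvalues i))
    rw [entU_eq_sum hZ.isHermitian, entU_eq_sum hN0.isHermitian, entU_eq_sum hM.isHermitian]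
    have e1 : ∑ j, ent2 (a j + (N j j).re + ((x * wᴴ * (x * wᴴ)ᴴ) j j).re / a j)
        ((N j j).re * (((x * wᴴ * (x * wᴴ)ᴴ) j j).re / a j)) =
        ∑ j, Real.negMulLog (R1 j) + ∑ j, Real.negMulLog (R2 j) := by
      rw [← Finset.sum_add_distrib]
      refine Finset.sum_congr rfl fun j _ => ?_
      rw [ent2, hR1, hR2, hn, hp]
    rw [e1]
    have e2 : ∑ j, Real.negMulLog (N j j).re = ∑ j, Real.negMulLog (n j) := by
      rw [hn]
    have e3 : ∑ j, Real.negMulLog (((x * wᴴ * (x * wᴴ)ᴴ) j j).re / a j) =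
        ∑ j, Real.negMulLog (p j) := by
      rw [hp]
    rw [e2, e3]
    linarith
  · rintro (i | i | i)
    · exact hM.eigenvalues_nonneg i
    · exact hn0 i
    · exact hp0 i
  · rintro ((i | i) | i | i)
    · exact hZ.eigenvalues_nonneg i
    · exact hN0.eigenvalues_nonneg i
    · exact (hR i).1
    · exact (hR i).2.1
  · simp only [Fintype.sum_sum_type, Sum.elim_inl, Sum.elim_inr]
    rw [← Fintype.sum_sum_type hM.isHermitian.eigenvalues]
    rw [sum_eigenvalues, sum_eigenvalues, sum_eigenvalues]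
    have hRs : ∑ j, R1 j + ∑ j, R2 j = ∑ j, a j + ∑ j, n j + ∑ j, p j := by
      rw [← Finset.sum_add_distrib, ← Finset.sum_add_distrib, ← Finset.sum_add_distrib]
      refine Finset.sum_congr rfl fun j _ => ?_
      simp only [hR1, hR2]
      ring
    have hns : ∑ j, n j = N.trace.re := by
      rw [hn, trace, Complex.re_sum]
      rfl
    have has : (x * xᴴ).trace.re = ∑ j, a j := by
      rw [hx, trace_diagonal, ← Complex.ofReal_sum, Complex.ofReal_re]
    have hMt : M.trace.re = (x * xᴴ).trace.re + N.trace.re + (w * wᴴ).trace.re := by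
      rw [hMdef, p3M, trace_blocks, trace_add, Complex.add_re, Complex.add_re]
    rw [hMt, has]
    linarith
  · intro s hs
    simp only [Fintype.prod_sum_type, Sum.elim_inl, Sum.elim_inr]
    rw [← Fintype.prod_sum_type (fun i => 1 + s * hM.isHermitian.eigenvalues i)]
    rw [prod_one_add_eigenvalues, prod_one_add_eigenvalues, prod_one_add_eigenvalues]
    have hdet := det_p3_ge x w N hN0 a hx hs
    have hRp : (∏ j, (1 + s * R1 j)) * ∏ j, (1 + s * R2 j) =
        (∏ j, (1 + s * a j / ((1 + s * (N j j).re) *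
        (1 + s * (((x * wᴴ * (x * wᴴ)ᴴ) j j).re / a j))))) *
        ((∏ j, (1 + s * n j)) * ∏ j, (1 + s * p j)) := by
      rw [← Finset.prod_mul_distrib, ← Finset.prod_mul_distrib, ← Finset.prod_mul_distrib]
      refine Finset.prod_congr rfl fun j _ => ?_
      rw [(hR j).2.2 s]
      have hn1 : 0 < 1 + s * n j := by
        have := hn0 j
        positivity
      have hp1 : 0 < 1 + s * p j := by
        have := hp0 j
        positivity
      have e1 : (N j j).re = n j := by rw [hn]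
      have e2 : ((x * wᴴ * (x * wᴴ)ᴴ) j j).re / a j = p j := by rw [hp]
      rw [e1, e2]
      field_simp
    rw [hRp, ← mul_assoc]
    refine mul_le_mul_of_nonneg_right hdet ?_
    refine mul_nonneg (Finset.prod_nonneg fun j _ => ?_) (Finset.prod_nonneg fun j _ => ?_)
    · have := hn0 j
      positivity
    · have := hp0 j
      positivity

/-- The path inequality when `x xᴴ` is diagonal. -/
theorem path3_diag (x w : Matrix ι κ ℂ) (N : Matrix ι ι ℂ) (hN0 : N.PosSemidef) (a : ι → ℝ)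
    (hx : x * xᴴ = diagonal (fun j => (a j : ℂ))) :
    entU (x * xᴴ) + entU N + entU (w * wᴴ) -
      Gam (x * xᴴ).trace.re N.trace.re (w * wᴴ).trace.re ≤ entU (p3M x w N) := by
  have hmain := entU_p3_ge x w N hN0 a hx
  obtain ⟨n, hn⟩ : ∃ n : ι → ℝ, n = fun j => (N j j).re := ⟨_, rfl⟩
  obtain ⟨p, hp⟩ : ∃ p : ι → ℝ, p = fun j => ((x * wᴴ * (x * wᴴ)ᴴ) j j).re / a j :=
    ⟨_, rfl⟩
  have ha0 : ∀ j, 0 ≤ a j := a_nonneg hx
  have hn0 : ∀ j, 0 ≤ n j := fun j => by
    rw [hn]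
    exact AD.diag_re_nonneg hN0 j
  have hp0 : ∀ j, 0 ≤ p j := fun j => by
    rw [hp]
    exact div_nonneg (AD.diag_re_nonneg (posSemidef_self_mul_conjTranspose (x * wᴴ)) j) (ha0 j)
  have hns : ∑ j, n j = N.trace.re := by
    rw [hn, trace, Complex.re_sum]
    rfl
  have has : (x * xᴴ).trace.re = ∑ j, a j := by
    rw [hx, trace_diagonal, ← Complex.ofReal_sum, Complex.ofReal_re]
  have hps : ∑ j, p j ≤ (w * wᴴ).trace.re := by
    have hb := bessel_rows x w a hx
    rw [hp]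
    exact hb
  -- superadditivity of Gam over Option
  have hG := sum_Gam_le (Finset.univ : Finset (Option ι))
    (fun o => o.elim 0 a) (fun o => o.elim 0 n)
    (fun o => o.elim ((w * wᴴ).trace.re - ∑ j, p j) p)
    (by rintro (_ | i) _ <;> simp [ha0]) (by rintro (_ | i) _ <;> simp [hn0])
    (by
      rintro (_ | i) _
      · simpa using hps
      · simpa using hp0 i)
  simp only [Fintype.sum_option, Option.elim] at hG
  rw [Gam_zero_zero (by linarith), zero_add, zero_add, zero_add, sub_add_cancel, ← has, hns] at hG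
  have e3 : entU (x * xᴴ) = ∑ j, Real.negMulLog (a j) := by
    rw [hx, entU_diagonal]
  have e4 : ∑ j, ent2 (a j + (N j j).re + ((x * wᴴ * (x * wᴴ)ᴴ) j j).re / a j)
        ((N j j).re * (((x * wᴴ * (x * wᴴ)ᴴ) j j).re / a j)) =
      ∑ j, Real.negMulLog (a j) + ∑ j, Real.negMulLog (n j) + ∑ j, Real.negMulLog (p j) -
        ∑ j, Gam (a j) (n j) (p j) := by
    rw [← Finset.sum_add_distrib, ← Finset.sum_add_distrib, ← Finset.sum_sub_distrib]
    refine Finset.sum_congr rfl fun j _ => ?_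
    rw [Gam, hn, hp]
    ring
  have e5 : ∑ j, Real.negMulLog (N j j).re = ∑ j, Real.negMulLog (n j) := by
    rw [hn]
  have e6 : ∑ j, Real.negMulLog (((x * wᴴ * (x * wᴴ)ᴴ) j j).re / a j) =
      ∑ j, Real.negMulLog (p j) := by
    rw [hp]
  rw [e4, e5, e6] at hmain
  rw [e3]
  linarith

end P3

open P3

/-- **The three-path entropy inequality.** For arbitrary `x`, `w` and positive semidefinite `N`. -/
theorem path3 (x0 w : Matrix ι κ ℂ) (N0 : Matrix ι ι ℂ) (hN0 : N0.PosSemidef) :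
    entU (x0 * x0ᴴ) + entU N0 + entU (w * wᴴ) -
      Gam (x0 * x0ᴴ).trace.re N0.trace.re (w * wᴴ).trace.re ≤ entU (p3M x0 w N0) := by
  have hX : (x0 * x0ᴴ).PosSemidef := posSemidef_self_mul_conjTranspose x0
  have hXh := hX.isHermitian
  set U : Matrix ι ι ℂ := (hXh.eigenvectorUnitary : Matrix ι ι ℂ) with hU
  have hUU : U * Uᴴ = 1 := Matrix.mem_unitaryGroup_iff.1 hXh.eigenvectorUnitary.2
  have hUU' : Uᴴ * U = 1 := Matrix.mem_unitaryGroup_iff'.1 hXh.eigenvectorUnitary.2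
  have hUmem : Uᴴ ∈ Matrix.unitaryGroup ι ℂ := by
    rw [Matrix.mem_unitaryGroup_iff, star_eq_conjTranspose, conjTranspose_conjTranspose]
    exact hUU'
  have hspec : x0 * x0ᴴ = U * diagonal (fun i => ((hXh.eigenvalues i : ℝ) : ℂ)) * Uᴴ :=
    spectral_form hXh
  set x := Uᴴ * x0 with hx
  set N := Uᴴ * N0 * (Uᴴ)ᴴ with hN
  have hNp : N.PosSemidef := hN0.mul_mul_conjTranspose_same _
  have hxx : x * xᴴ = Uᴴ * (x0 * x0ᴴ) * (Uᴴ)ᴴ := by
    rw [hx, conjTranspose_mul]
    simp only [Matrix.mul_assoc]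
  have hdiag : x * xᴴ = diagonal (fun i => ((hXh.eigenvalues i : ℝ) : ℂ)) := by
    rw [hxx, conjTranspose_conjTranspose]
    have h1 : Uᴴ * (x0 * x0ᴴ) * U =
        Uᴴ * U * diagonal (fun i => ((hXh.eigenvalues i : ℝ) : ℂ)) * (Uᴴ * U) := by
      conv_lhs => rw [hspec]
      simp only [Matrix.mul_assoc]
    rw [h1, hUU', Matrix.one_mul, Matrix.mul_one]
  have htrc : ∀ A : Matrix ι ι ℂ, (Uᴴ * A * (Uᴴ)ᴴ).trace = A.trace := by
    intro A
    rw [trace_mul_comm, ← Matrix.mul_assoc, conjTranspose_conjTranspose, hUU, Matrix.one_mul]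
  have htrx : (x * xᴴ).trace = (x0 * x0ᴴ).trace := by rw [hxx, htrc]
  have htrN : N.trace = N0.trace := by rw [hN, htrc]
  have hex : entU (x * xᴴ) = entU (x0 * x0ᴴ) := by rw [hxx, entU_conj hXh hUmem]
  have heN : entU N = entU N0 := by rw [hN, entU_conj hN0.isHermitian hUmem]
  set W : Matrix (ι ⊕ ι) (ι ⊕ ι) ℂ := fromBlocks Uᴴ 0 0 1 with hW
  have hWmem : W ∈ Matrix.unitaryGroup (ι ⊕ ι) ℂ := by
    rw [Matrix.mem_unitaryGroup_iff, star_eq_conjTranspose, hW, fromBlocks_conjTranspose,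
      fromBlocks_multiply]
    simp only [conjTranspose_conjTranspose, hUU', conjTranspose_zero, Matrix.mul_zero,
      Matrix.zero_mul, add_zero, zero_add, conjTranspose_one, Matrix.mul_one, fromBlocks_one]
  have hGW : p3M x w N = W * p3M x0 w N0 * Wᴴ := by
    rw [p3M, p3M, hW, fromBlocks_conjTranspose, fromBlocks_multiply, fromBlocks_multiply, hxx, hN,
      hx]
    simp only [conjTranspose_zero, Matrix.mul_zero, Matrix.zero_mul, add_zero, zero_add,
      Matrix.mul_add, Matrix.add_mul, conjTranspose_one, Matrix.mul_one, Matrix.one_mul,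
      conjTranspose_mul, Matrix.mul_assoc]
  have heG : entU (p3M x w N) = entU (p3M x0 w N0) := by
    rw [hGW, entU_conj (p3M_posSemidef x0 w hN0).isHermitian hWmem]
  have hfin := path3_diag x w N hNp (fun i => hXh.eigenvalues i) hdiag
  rw [htrx, htrN, hex, heN, heG] at hfin
  exact hfin

/-- The normalised form: if the three traces add up to one. -/
theorem path3_one (x w : Matrix ι κ ℂ) (N : Matrix ι ι ℂ) (hN : N.PosSemidef)
    (htr : (x * xᴴ).trace.re + N.trace.re + (w * wᴴ).trace.re = 1) :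
    E2 (N.trace.re * (w * wᴴ).trace.re) + (entU (x * xᴴ) - Real.negMulLog (x * xᴴ).trace.re) +
      (entU N - Real.negMulLog N.trace.re) + (entU (w * wᴴ) - Real.negMulLog (w * wᴴ).trace.re) ≤
      entU (p3M x w N) := by
  have h := path3 x w N hN
  have ha : 0 ≤ (x * xᴴ).trace.re :=
    (Complex.le_def.1 (posSemidef_self_mul_conjTranspose x).trace_nonneg).1
  have hw : 0 ≤ (w * wᴴ).trace.re :=
    (Complex.le_def.1 (posSemidef_self_mul_conjTranspose w).trace_nonneg).1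
  have hn : 0 ≤ N.trace.re := (Complex.le_def.1 hN.trace_nonneg).1
  rw [Gam, htr, ent2_one (mul_nonneg hn hw) (by nlinarith [sq_nonneg (N.trace.re - (w * wᴴ).trace.re)])] at h
  linarith

end Vale.Agent.P358
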