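import Vale.Agent.Lib.P358.EntConc
import Vale.Agent.Lib.P358.Path3

/-!
# P358, module OneStepGAD: the one-step inequality for the generalized amplitude-damping channel
with arbitrary parameters

For a fixed population `q` the block output `M` of `A_{γ,ν} ⊗ id` is the sum of two matrices of
path form, whose normalised scalar determinants both equal the determinant
`D = γ(1-γ)(q-ν)² + γν(1-ν)` of the output on a pure state of population `q`.
-/

namespace Vale.Agent.P358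

open Matrix
open scoped ComplexOrder

variable {ι κ : Type*} [Fintype ι] [DecidableEq ι] [Fintype κ] [DecidableEq κ]

/-- Homogeneity of `ent2`. -/
theorem ent2_sub {S D : ℝ} (hS : 0 < S) :
    ent2 S D - Real.negMulLog S = S * ent2 1 (D / S ^ 2) := by
  have hr : Real.sqrt (S ^ 2 - 4 * D) = S * Real.sqrt (1 - 4 * (D / S ^ 2)) := by
    have h1 : S ^ 2 - 4 * D = S ^ 2 * (1 - 4 * (D / S ^ 2)) := by
      field_simp
    rw [h1, Real.sqrt_mul (by positivity), Real.sqrt_sq hS.le]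
  set r := Real.sqrt (1 - 4 * (D / S ^ 2)) with hrdef
  have h1 : (S + Real.sqrt (S ^ 2 - 4 * D)) / 2 = S * ((1 + r) / 2) := by rw [hr]; ring
  have h2 : (S - Real.sqrt (S ^ 2 - 4 * D)) / 2 = S * ((1 - r) / 2) := by rw [hr]; ring
  have h3 : ent2 1 (D / S ^ 2) =
      Real.negMulLog ((1 + r) / 2) + Real.negMulLog ((1 - r) / 2) := by
    rw [ent2, one_pow, ← hrdef]
  rw [h3, ent2, h1, h2, Real.negMulLog_mul, Real.negMulLog_mul]
  ring

theorem smul_mul_smul_conj (r s : ℝ) (x y : Matrix ι κ ℂ) :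
    ((r : ℂ) • x) * ((s : ℂ) • y)ᴴ = ((r * s : ℝ) : ℂ) • (x * yᴴ) := by
  rw [conjTranspose_smul, Matrix.smul_mul, Matrix.mul_smul, smul_smul, Complex.ofReal_mul]
  congr 2
  exact Complex.conj_ofReal s

/-- Path inequality with scalar weights. -/
theorem weighted_path (x y : Matrix ι κ ℂ) {k1 k2 k3 : ℝ} (h1 : 0 ≤ k1) (h2 : 0 ≤ k2)
    (h3 : 0 ≤ k3) {D : ℝ}
    (hD : k2 * k3 * ((y * yᴴ).trace.re) ^ 2 =
      D * (k1 * (x * xᴴ).trace.re + (k2 + k3) * (y * yᴴ).trace.re) ^ 2) :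
    k1 * sU (x * xᴴ) + (k2 + k3) * sU (y * yᴴ) +
      (k1 * (x * xᴴ).trace.re + (k2 + k3) * (y * yᴴ).trace.re) * E2 D ≤
    sU (fromBlocks ((k1 : ℂ) • (x * xᴴ) + (k2 : ℂ) • (y * yᴴ))
      (((Real.sqrt (k1 * k3) : ℝ) : ℂ) • (x * yᴴ))
      (((Real.sqrt (k1 * k3) : ℝ) : ℂ) • (y * xᴴ)) ((k3 : ℂ) • (y * yᴴ))) := by
  have hX : (x * xᴴ).PosSemidef := posSemidef_self_mul_conjTranspose x
  have hZ : (y * yᴴ).PosSemidef := posSemidef_self_mul_conjTranspose y
  have hp0 : 0 ≤ (x * xᴴ).trace.re := (Complex.le_def.1 hX.trace_nonneg).1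
  have hq0 : 0 ≤ (y * yᴴ).trace.re := (Complex.le_def.1 hZ.trace_nonneg).1
  set p := (x * xᴴ).trace.re with hp
  set q := (y * yᴴ).trace.re with hq
  set x' : Matrix ι κ ℂ := ((Real.sqrt k1 : ℝ) : ℂ) • x with hx'
  set w' : Matrix ι κ ℂ := ((Real.sqrt k3 : ℝ) : ℂ) • y with hw'
  set N' : Matrix ι ι ℂ := (k2 : ℂ) • (y * yᴴ) with hN'
  have hN'psd : N'.PosSemidef := by
    have : (0 : ℂ) ≤ (k2 : ℂ) := by exact_mod_cast h2
    exact hZ.smul this
  have hxx : x' * x'ᴴ = (k1 : ℂ) • (x * xᴴ) := by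
    rw [hx', smul_mul_smul_conj, Real.mul_self_sqrt h1]
  have hww : w' * w'ᴴ = (k3 : ℂ) • (y * yᴴ) := by
    rw [hw', smul_mul_smul_conj, Real.mul_self_sqrt h3]
  have hxw : x' * w'ᴴ = ((Real.sqrt (k1 * k3) : ℝ) : ℂ) • (x * yᴴ) := by
    rw [hx', hw', smul_mul_smul_conj, Real.sqrt_mul h1]
  have hwx : w' * x'ᴴ = ((Real.sqrt (k1 * k3) : ℝ) : ℂ) • (y * xᴴ) := by
    rw [hx', hw', smul_mul_smul_conj, Real.sqrt_mul h1, mul_comm (Real.sqrt k3)]
  have hM : p3M x' w' N' = fromBlocks ((k1 : ℂ) • (x * xᴴ) + (k2 : ℂ) • (y * yᴴ))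
      (((Real.sqrt (k1 * k3) : ℝ) : ℂ) • (x * yᴴ))
      (((Real.sqrt (k1 * k3) : ℝ) : ℂ) • (y * xᴴ)) ((k3 : ℂ) • (y * yᴴ)) := by
    rw [p3M, hxx, hxw, hwx, hww]
  have hpath := path3 x' w' N' hN'psd
  have ht1 : (x' * x'ᴴ).trace.re = k1 * p := by
    rw [hxx, trace_smul, smul_eq_mul, Complex.re_ofReal_mul]
  have ht2 : N'.trace.re = k2 * q := by
    rw [hN', trace_smul, smul_eq_mul, Complex.re_ofReal_mul]
  have ht3 : (w' * w'ᴴ).trace.re = k3 * q := by
    rw [hww, trace_smul, smul_eq_mul, Complex.re_ofReal_mul]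
  rw [Gam, ht1, ht2, ht3] at hpath
  have he1 : entU (x' * x'ᴴ) - Real.negMulLog (k1 * p) = k1 * sU (x * xᴴ) := by
    rw [← ht1, ← sU_smul hX.isHermitian k1, ← hxx, sU]
  have he2 : entU N' - Real.negMulLog (k2 * q) = k2 * sU (y * yᴴ) := by
    rw [← ht2, ← sU_smul hZ.isHermitian k2, sU]
  have he3 : entU (w' * w'ᴴ) - Real.negMulLog (k3 * q) = k3 * sU (y * yᴴ) := by
    rw [← ht3, ← sU_smul hZ.isHermitian k3, ← hww, sU]
  have htr : (p3M x' w' N').trace.re = k1 * p + (k2 + k3) * q := by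
    rw [p3M, AD.trace_blocks, Matrix.trace_add, Complex.add_re, Complex.add_re, ht1, ht2, ht3]
    ring
  have hS : sU (p3M x' w' N') =
      entU (p3M x' w' N') - Real.negMulLog (k1 * p + (k2 + k3) * q) := by rw [sU, htr]
  rw [← hM, hS]
  set T := k1 * p + (k2 + k3) * q with hT
  have hT0 : 0 ≤ T := by positivity
  have hTeq : k1 * p + k2 * q + k3 * q = T := by rw [hT]; ring
  rw [hTeq] at hpath
  rcases hT0.eq_or_lt with hz | hz
  · have hk1p : k1 * p = 0 := by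
      have : 0 ≤ k1 * p := by positivity
      have h' : 0 ≤ (k2 + k3) * q := by positivity
      linarith
    have hk2q : k2 * q = 0 := by
      have : 0 ≤ k1 * p := by positivity
      have h' : 0 ≤ k2 * q := by positivity
      have h'' : 0 ≤ k3 * q := by positivity
      linarith
    have hE : ent2 T (k2 * q * (k3 * q)) = 0 := by
      rw [← hz, hk2q, zero_mul, ent2]
      simp
    rw [hE] at hpath
    have hη : Real.negMulLog T = 0 := by rw [← hz, Real.negMulLog_zero]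
    have hTE : T * E2 D = 0 := by rw [← hz, zero_mul]
    rw [hη, hTE]
    linarith
  · have hkey := ent2_sub (S := T) (D := k2 * q * (k3 * q)) hz
    have hDD : k2 * q * (k3 * q) / T ^ 2 = D := by
      rw [div_eq_iff (by positivity), ← hD]
      ring
    rw [hDD] at hkey
    have hD0 : 0 ≤ D := by
      rw [← hDD]
      positivity
    have hD1 : D ≤ 1 / 4 := by
      rw [← hDD, div_le_iff₀ (by positivity)]
      have hk1p : 0 ≤ k1 * p := by positivity
      have hk2q : 0 ≤ k2 * q := by positivity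
      have hk3q : 0 ≤ k3 * q := by positivity
      have hT' : k2 * q + k3 * q ≤ T := by linarith
      have hT'' : (k2 * q + k3 * q) ^ 2 ≤ T ^ 2 := pow_le_pow_left₀ (by positivity) hT' 2
      have h4 : 4 * (k2 * q * (k3 * q)) ≤ (k2 * q + k3 * q) ^ 2 := by
        have h5 : (k2 * q + k3 * q) ^ 2 - 4 * (k2 * q * (k3 * q)) = (k2 * q - k3 * q) ^ 2 := by
          ring
        have h6 := sq_nonneg (k2 * q - k3 * q)
        linarith
      linarith
    rw [ent2_one hD0 hD1] at hkey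
    have h7 : k1 * sU (x * xᴴ) + (k2 + k3) * sU (y * yᴴ) =
        k1 * sU (x * xᴴ) + k2 * sU (y * yᴴ) + k3 * sU (y * yᴴ) := by ring
    rw [h7, ← he1, ← he2, ← he3, ← hkey]
    linarith

/-- Positivity of the weighted path matrix. -/
theorem weighted_posSemidef (x y : Matrix ι κ ℂ) {k1 k2 k3 : ℝ} (h1 : 0 ≤ k1) (h2 : 0 ≤ k2)
    (h3 : 0 ≤ k3) : (fromBlocks ((k1 : ℂ) • (x * xᴴ) + (k2 : ℂ) • (y * yᴴ))
      (((Real.sqrt (k1 * k3) : ℝ) : ℂ) • (x * yᴴ))
      (((Real.sqrt (k1 * k3) : ℝ) : ℂ) • (y * xᴴ)) ((k3 : ℂ) • (y * yᴴ))).PosSemidef := by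
  have hZ : (y * yᴴ).PosSemidef := posSemidef_self_mul_conjTranspose y
  set x' : Matrix ι κ ℂ := ((Real.sqrt k1 : ℝ) : ℂ) • x with hx'
  set w' : Matrix ι κ ℂ := ((Real.sqrt k3 : ℝ) : ℂ) • y with hw'
  set N' : Matrix ι ι ℂ := (k2 : ℂ) • (y * yᴴ) with hN'
  have hN'psd : N'.PosSemidef := by
    have : (0 : ℂ) ≤ (k2 : ℂ) := by exact_mod_cast h2
    exact hZ.smul this
  have hM : p3M x' w' N' = fromBlocks ((k1 : ℂ) • (x * xᴴ) + (k2 : ℂ) • (y * yᴴ))
      (((Real.sqrt (k1 * k3) : ℝ) : ℂ) • (x * yᴴ))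
      (((Real.sqrt (k1 * k3) : ℝ) : ℂ) • (y * xᴴ)) ((k3 : ℂ) • (y * yᴴ)) := by
    rw [p3M, hx', hw', smul_mul_smul_conj, smul_mul_smul_conj, smul_mul_smul_conj,
      smul_mul_smul_conj, Real.mul_self_sqrt h1, Real.mul_self_sqrt h3, Real.sqrt_mul h1,
      mul_comm (Real.sqrt k3)]
  rw [← hM]
  exact P3.p3M_posSemidef x' w' hN'psd

/-- Scalar identities behind the decomposition. `a = γν`, `b = γ(1-ν)`, `p = 1 - q`,
`t = a p + (1-b) q`, `D = b q t + a p (1-t)`. -/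
theorem gad_scalars {a b q D t : ℝ} (ht : t = a * (1 - q) + (1 - b) * q)
    (hD : D = b * q * t + a * (1 - q) * (1 - t)) :
    (b * (1 - a - b) * q ^ 2 + a * (1 - t) ^ 2 = (1 - a) * D) ∧
    (b * t ^ 2 + a * (1 - a - b) * (1 - q) ^ 2 = (1 - b) * D) := by
  subst hD
  subst ht
  constructor <;> ring

/-- The one-step inequality for `A_{γ,ν}` in the interior `0 < γ`, `0 < ν < 1`. -/
theorem oneStep_interior {γ ν : ℝ} (hγ0 : 0 < γ) (hγ1 : γ ≤ 1) (hν0 : 0 < ν) (hν1 : ν < 1) :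
    OneStep γ ν := by
  intro m X Y Z hpsd htr
  -- factor the input
  obtain ⟨x, y, hX, hY, hZ⟩ : ∃ x y : Matrix (Fin m → Fin 2)
      ((Fin m → Fin 2) ⊕ (Fin m → Fin 2)) ℂ,
      X = x * xᴴ ∧ Y = x * yᴴ ∧ Z = y * yᴴ := by
    obtain ⟨C, hC⟩ := AD.exists_factor hpsd
    refine ⟨C.toRows₁, C.toRows₂, ?_, ?_, ?_⟩
    · have := congrArg toBlocks₁₁ hC
      rw [toBlocks_fromBlocks₁₁] at this
      rw [this]
      ext i j
      simp [toBlocks₁₁, toRows₁, Matrix.mul_apply]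
    · have := congrArg toBlocks₁₂ hC
      rw [toBlocks_fromBlocks₁₂] at this
      rw [this]
      ext i j
      simp [toBlocks₁₂, toRows₁, toRows₂, Matrix.mul_apply]
    · have := congrArg toBlocks₂₂ hC
      rw [toBlocks_fromBlocks₂₂] at this
      rw [this]
      ext i j
      simp [toBlocks₂₂, toRows₂, Matrix.mul_apply]
  have hYh : Yᴴ = y * xᴴ := by rw [hY, conjTranspose_mul, conjTranspose_conjTranspose]
  set q := Z.trace.re with hq
  have hXp : X.PosSemidef := by rw [hX]; exact posSemidef_self_mul_conjTranspose x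
  have hZp : Z.PosSemidef := by rw [hZ]; exact posSemidef_self_mul_conjTranspose y
  have hp : X.trace.re = 1 - q := by
    have := congrArg Complex.re htr
    rw [Complex.add_re, Complex.one_re] at this
    linarith
  have hq0 : 0 ≤ q := (Complex.le_def.1 hZp.trace_nonneg).1
  have hp0 : 0 ≤ 1 - q := by
    rw [← hp]
    exact (Complex.le_def.1 hXp.trace_nonneg).1
  set a := γ * ν with ha
  set b := γ * (1 - ν) with hb
  have ha0 : 0 < a := by positivity
  have hb0 : 0 < b := mul_pos hγ0 (by linarith)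
  have hab : a + b = γ := by rw [ha, hb]; ring
  have hc0 : 0 ≤ 1 - a - b := by linarith
  set t := a * (1 - q) + (1 - b) * q with ht
  have h1t : 1 - t = (1 - a) * (1 - q) + b * q := by rw [ht]; ring
  have ht0 : 0 ≤ t := by
    rw [ht]
    have : 0 ≤ 1 - b := by linarith
    positivity
  have ht1 : 0 ≤ 1 - t := by
    rw [h1t]
    have : 0 ≤ 1 - a := by linarith
    positivity
  set D := γ * (1 - γ) * (q - ν) ^ 2 + γ * ν * (1 - ν) with hDdef
  have hDpos : 0 < D := by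
    have h1 : 0 ≤ γ * (1 - γ) * (q - ν) ^ 2 :=
      mul_nonneg (mul_nonneg hγ0.le (by linarith)) (sq_nonneg _)
    have h2 : 0 < γ * ν * (1 - ν) := mul_pos (mul_pos hγ0 hν0) (by linarith)
    linarith
  have hDeq : D = b * q * t + a * (1 - q) * (1 - t) := by
    rw [hDdef, ht, ha, hb]
    ring
  obtain ⟨hs1, hs2⟩ := gad_scalars ht hDeq
  set c := Real.sqrt (1 - γ) with hc
  have hc' : 0 ≤ c := Real.sqrt_nonneg _
  have hcc : c * c = 1 - a - b := by
    rw [hc, Real.mul_self_sqrt (by linarith), ← hab]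
    ring
  -- the weights
  set k1 := b * (1 - a - b) * q ^ 2 / D with hk1
  set k3 := b * t ^ 2 / D with hk3
  set l1 := a * (1 - a - b) * (1 - q) ^ 2 / D with hl1
  set l3 := a * (1 - t) ^ 2 / D with hl3
  have hk1' : 0 ≤ k1 := by rw [hk1]; positivity
  have hk3' : 0 ≤ k3 := by rw [hk3]; positivity
  have hl1' : 0 ≤ l1 := by rw [hl1]; positivity
  have hl3' : 0 ≤ l3 := by rw [hl3]; positivity
  have hkk : Real.sqrt (k1 * k3) = b * q * t * c / D := by
    have : k1 * k3 = (b * q * t * c / D) ^ 2 := by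
      rw [hk1, hk3, ← hcc]
      field_simp
    rw [this, Real.sqrt_sq (by positivity)]
  have hll : Real.sqrt (l1 * l3) = a * (1 - q) * (1 - t) * c / D := by
    have : l1 * l3 = (a * (1 - q) * (1 - t) * c / D) ^ 2 := by
      rw [hl1, hl3, ← hcc]
      field_simp
    rw [this, Real.sqrt_sq (by positivity)]
  have hsumX : k1 + l3 = 1 - a := by
    rw [hk1, hl3, ← add_div, hs1]
    field_simp
  have hsumZ : k3 + l1 = 1 - b := by
    rw [hk3, hl1, ← add_div, hs2]
    field_simp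
  have hsumY : Real.sqrt (k1 * k3) + Real.sqrt (l1 * l3) = c := by
    rw [hkk, hll, ← add_div, div_eq_iff hDpos.ne']
    calc b * q * t * c + a * (1 - q) * (1 - t) * c
        = c * (b * q * t + a * (1 - q) * (1 - t)) := by ring
      _ = c * D := by rw [← hDeq]
  -- traces
  have hτ1 : k1 * (1 - q) + (b + k3) * q = b * q * t / D := by
    rw [eq_div_iff hDpos.ne', hk1, hk3]
    have h1 : D = t * (1 - t) - (1 - a - b) * q * (1 - q) := by
      rw [hDeq, ht]; ring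
    field_simp
    rw [h1]
    ring
  have hτ2 : l1 * q + (a + l3) * (1 - q) = a * (1 - q) * (1 - t) / D := by
    rw [eq_div_iff hDpos.ne', hl1, hl3]
    have h1 : D = t * (1 - t) - (1 - a - b) * q * (1 - q) := by
      rw [hDeq, ht]; ring
    field_simp
    rw [h1]
    ring
  have hDa : b * k3 * ((y * yᴴ).trace.re) ^ 2 =
      D * (k1 * (x * xᴴ).trace.re + (b + k3) * (y * yᴴ).trace.re) ^ 2 := by
    rw [← hZ, ← hX, ← hq, hp, hτ1, hk3]
    field_simp
  have hDb : a * l3 * ((x * xᴴ).trace.re) ^ 2 =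
      D * (l1 * (y * yᴴ).trace.re + (a + l3) * (x * xᴴ).trace.re) ^ 2 := by
    rw [← hZ, ← hX, ← hq, hp, hτ2, hl3]
    field_simp
  have hw1 := weighted_path x y hk1' hb0.le hk3' hDa
  have hw2 := weighted_path y x hl1' ha0.le hl3' hDb
  have hP1 := weighted_posSemidef x y hk1' hb0.le hk3'
  have hP2 := weighted_posSemidef y x hl1' ha0.le hl3'
  set M1 := fromBlocks ((k1 : ℂ) • (x * xᴴ) + (b : ℂ) • (y * yᴴ))
      (((Real.sqrt (k1 * k3) : ℝ) : ℂ) • (x * yᴴ))
      (((Real.sqrt (k1 * k3) : ℝ) : ℂ) • (y * xᴴ)) ((k3 : ℂ) • (y * yᴴ)) with hM1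
  set M2 := fromBlocks ((l1 : ℂ) • (y * yᴴ) + (a : ℂ) • (x * xᴴ))
      (((Real.sqrt (l1 * l3) : ℝ) : ℂ) • (y * xᴴ))
      (((Real.sqrt (l1 * l3) : ℝ) : ℂ) • (x * yᴴ)) ((l3 : ℂ) • (x * xᴴ)) with hM2
  set M2' := M2.submatrix (Equiv.sumComm _ _) (Equiv.sumComm _ _) with hM2'
  have hM2s : M2' = fromBlocks ((l3 : ℂ) • (x * xᴴ)) (((Real.sqrt (l1 * l3) : ℝ) : ℂ) • (x * yᴴ))
      (((Real.sqrt (l1 * l3) : ℝ) : ℂ) • (y * xᴴ))
      ((l1 : ℂ) • (y * yᴴ) + (a : ℂ) • (x * xᴴ)) := by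
    rw [hM2', hM2]
    ext i j
    rcases i with i | i <;> rcases j with j | j <;> rfl
  have hP2' : M2'.PosSemidef := hP2.submatrix _
  have hent2 : sU M2' = sU M2 := by
    have htr2 : M2'.trace = M2.trace := by
      rw [hM2s, hM2, AD.trace_blocks, AD.trace_blocks]
      ring
    rw [sU, sU, htr2, hM2', entU_submatrix_equiv]
  have hG : gadBlock γ ν X Y Yᴴ Z = M1 + M2' := by
    rw [hM2s, hM1, fromBlocks_add, gadBlock, hYh, ← hX, ← hY, ← hZ, ← ha, ← hb, ← hc]
    congr 1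
    · rw [show ((1 - a : ℝ) : ℂ) = (k1 : ℂ) + (l3 : ℂ) by rw [← hsumX]; push_cast; ring]
      rw [add_smul]
      abel
    · rw [← add_smul, ← Complex.ofReal_add, hsumY]
    · rw [← hYh, ← add_smul, ← Complex.ofReal_add, hsumY]
    · rw [show ((1 - γ + a : ℝ) : ℂ) = (k3 : ℂ) + (l1 : ℂ) by
        rw [← Complex.ofReal_add, hsumZ]
        congr 1
        rw [← hab]
        ring]
      rw [add_smul]
      abel
  have hsup := sU_superadd hP1 hP2'
  rw [← hG, hent2] at hsup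
  have htrG : (gadBlock γ ν X Y Yᴴ Z).trace.re = 1 := by
    rw [gadBlock, AD.trace_blocks, Matrix.trace_add, Matrix.trace_add, trace_smul, trace_smul,
      trace_smul, trace_smul]
    simp only [smul_eq_mul, Complex.add_re, Complex.re_ofReal_mul]
    rw [hp, ← hq]
    ring
  have hsG : sU (gadBlock γ ν X Y Yᴴ Z) = entU (gadBlock γ ν X Y Yᴴ Z) := by
    rw [sU, htrG, Real.negMulLog_one, sub_zero]
  rw [hsG] at hsup
  rw [← hX, ← hZ, ← hq, hp, hτ1] at hw1
  rw [← hX, ← hZ, ← hq, hp, hτ2] at hw2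
  have hfq : fq γ ν q = E2 D := by rw [fq, hDdef]
  have htot : b * q * t / D + a * (1 - q) * (1 - t) / D = 1 := by
    rw [← add_div, ← hDeq, div_self hDpos.ne']
  rw [hfq]
  have hgoal : E2 D + sU X + sU Z ≤ entU (gadBlock γ ν X Y Yᴴ Z) := by
    have e1 : k1 * sU X + (b + k3) * sU Z + b * q * t / D * E2 D +
        (l1 * sU Z + (a + l3) * sU X + a * (1 - q) * (1 - t) / D * E2 D) =
        (k1 + l3 + a) * sU X + (k3 + l1 + b) * sU Z +
        (b * q * t / D + a * (1 - q) * (1 - t) / D) * E2 D := by ring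
    have e2 : (k1 + l3 + a) * sU X + (k3 + l1 + b) * sU Z +
        (b * q * t / D + a * (1 - q) * (1 - t) / D) * E2 D = E2 D + sU X + sU Z := by
      rw [htot, hsumX, hsumZ]
      ring
    linarith
  have hgoal2 := hgoal
  rw [sU, sU] at hgoal2
  rw [hp] at hgoal2 ⊢
  linarith

/-- Exchange of the two basis states. -/
theorem oneStep_flip {γ ν : ℝ} (h : OneStep γ ν) : OneStep γ (1 - ν) := by
  intro m X Y Z hpsd htr
  have hpsd' : (fromBlocks Z Yᴴ (Yᴴ)ᴴ X).PosSemidef := by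
    rw [conjTranspose_conjTranspose]
    have h1 := hpsd.submatrix (Equiv.sumComm (Fin m → Fin 2) (Fin m → Fin 2))
    have h2 : (fromBlocks X Y Yᴴ Z).submatrix (Equiv.sumComm (Fin m → Fin 2) (Fin m → Fin 2))
        (Equiv.sumComm (Fin m → Fin 2) (Fin m → Fin 2)) = fromBlocks Z Yᴴ Y X := by
      ext i j
      rcases i with i | i <;> rcases j with j | j <;> rfl
    rw [← h2]
    exact h1
  have h1 := h m Z Yᴴ X hpsd' (by rw [add_comm]; exact htr)
  rw [conjTranspose_conjTranspose] at h1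
  have h2 : gadBlock γ (1 - ν) X Y Yᴴ Z = (gadBlock γ ν Z Yᴴ Y X).submatrix
      (Equiv.sumComm (Fin m → Fin 2) (Fin m → Fin 2))
      (Equiv.sumComm (Fin m → Fin 2) (Fin m → Fin 2)) := by
    ext i j
    rcases i with i | i <;> rcases j with j | j
    · simp only [gadBlock, submatrix_apply, Equiv.sumComm_apply, Sum.swap_inl,
        fromBlocks_apply₁₁, fromBlocks_apply₂₂, Matrix.add_apply, Matrix.smul_apply]
      push_cast
      simp only [smul_eq_mul]
      ring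
    · simp [gadBlock]
    · simp [gadBlock]
    · simp only [gadBlock, submatrix_apply, Equiv.sumComm_apply, Sum.swap_inr,
        fromBlocks_apply₁₁, fromBlocks_apply₂₂, Matrix.add_apply, Matrix.smul_apply]
      push_cast
      simp only [smul_eq_mul]
      ring
  rw [h2, entU_submatrix_equiv]
  have hp : X.trace.re = 1 - Z.trace.re := by
    have := congrArg Complex.re htr
    rw [Complex.add_re, Complex.one_re] at this
    linarith
  have h3 : fq γ (1 - ν) Z.trace.re = fq γ ν X.trace.re := by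
    rw [fq, fq, hp]
    congr 1
    ring
  rw [h3]
  linarith

/-- **The one-step inequality for every generalized amplitude-damping channel.** -/
theorem oneStep_gad {γ ν : ℝ} (hγ : γ ∈ Set.Icc (0 : ℝ) 1) (hν : ν ∈ Set.Icc (0 : ℝ) 1) :
    OneStep γ ν := by
  obtain ⟨hγ0, hγ1⟩ := hγ
  obtain ⟨hν0, hν1⟩ := hν
  rcases hν0.eq_or_lt with h0 | h0
  · rw [← h0]
    exact oneStep_ad ⟨hγ0, hγ1⟩
  rcases hν1.eq_or_lt with h1 | h1
  · have h2 := oneStep_flip (oneStep_ad (γ := γ) ⟨hγ0, hγ1⟩)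
    rw [h1]
    simpa using h2
  rcases hγ0.eq_or_lt with h2 | h2
  · rw [← h2]
    intro m X Y Z hpsd htr
    have h3 := oneStep_ad (γ := 0) ⟨le_refl _, zero_le_one⟩ m X Y Z hpsd htr
    have h4 : gadBlock 0 ν X Y Yᴴ Z = gadBlock 0 0 X Y Yᴴ Z := by
      rw [gadBlock, gadBlock]
      simp
    have h5 : fq 0 ν Z.trace.re = fq 0 0 Z.trace.re := by
      rw [fq, fq]
      congr 1
      ring
    rw [h4, h5]
    exact h3
  · exact oneStep_interior h2 hγ1 h0 h1

end Vale.Agent.P358
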